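import Vale.Agent.P283.T647.Props

/-!
R4. The number of non-trivial pages.
-/

set_option linter.all false


namespace Vale.Agent.P283.T647

namespace R4

lemma ratio_le {s κ q : ℕ} (hs : 0 < s) (hκ : κ ≤ q) (hq : 0 < q) (hn : ¬ (s = 1 ∧ κ = q)) :
    (κ : ℝ) / s ≤ q - 1 / 2 := by
  have hs' : (0 : ℝ) < s := by exact_mod_cast hs
  rw [div_le_iff₀ hs']
  have hκ' : (κ : ℝ) ≤ q := by exact_mod_cast hκ
  have hq' : (1 : ℝ) ≤ q := by exact_mod_cast hq
  rcases Nat.lt_or_ge 1 s with h | h
  · have h2 : (2 : ℝ) ≤ s := by exact_mod_cast h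
    nlinarith
  · have h1 : s = 1 := by omega
    subst h1
    have h3 : κ ≠ q := fun e => hn ⟨rfl, e⟩
    have h4 : κ + 1 ≤ q := by omega
    have : (κ : ℝ) + 1 ≤ q := by exact_mod_cast h4
    norm_num
    linarith

variable {P ι : Type} [Fintype P] [DecidableEq P] [Fintype ι] {k q : ℕ} {δ : ℝ}
  {pg : ι → Option P} {s : ι → ℕ} {w : ι → Fin k → ℤ} {κ : ι → ℕ}

lemma psum_eq (c : ι → ℝ) (p : P) :
    psum pg s c p = ∑ j, c j * (if pg j = some p then (s j : ℝ) else 0) := by
  unfold psum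
  refine Finset.sum_congr rfl fun j _ => ?_
  split_ifs <;> simp

open Classical in
lemma sum_put (T : Finset P) (l : P → ι) (a : P → ℝ) (F : ι → ℝ) :
    ∑ j, (∑ p ∈ T, if l p = j then a p else 0) * F j = ∑ p ∈ T, a p * F (l p) := by
  simp_rw [Finset.sum_mul]
  rw [Finset.sum_comm]
  refine Finset.sum_congr rfl fun p _ => ?_
  rw [Finset.sum_eq_single (l p)]
  · simp
  · intro j _ hj
    rw [if_neg (fun e => hj e.symm), zero_mul]
  · intro h
    exact absurd (Finset.mem_univ _) h

open Classical in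
lemma psum_put (hB : IsBook q δ pg s w κ) (T : Finset P) (l : P → ι)
    (hl : ∀ p ∈ T, pg (l p) = some p) (a : P → ℝ) (p : P) :
    psum pg s (fun j => ∑ p' ∈ T, if l p' = j then a p' / s (l p') else 0) p =
      if p ∈ T then a p else 0 := by
  rw [psum_eq, sum_put T l (fun p' => a p' / s (l p'))]
  have key : ∀ p' ∈ T, a p' / (s (l p') : ℝ) * (if pg (l p') = some p then (s (l p') : ℝ) else 0)
      = if p = p' then a p else 0 := by
    intro p' hp'
    rw [hl p' hp']
    by_cases h : p = p'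
    · subst h
      have h1 : (s (l p) : ℝ) ≠ 0 := by
        have := hB.pos (l p) p (hl p hp')
        exact_mod_cast this.ne'
      simp only [if_true]
      field_simp
    · rw [if_neg (fun e => h (Option.some.inj e).symm), if_neg h, mul_zero]
  rw [Finset.sum_congr rfl key, Finset.sum_ite_eq]

end R4

open R4 in
/-- The number of non-trivial pages. -/
theorem r4 : CountRow := by
  classical
  intro P ι _ _ _ k q δ pg s w κ hB hp 𝒩 hN
  have hch : ∀ p : P, ∃ j, pg j = some p ∧ (p ∈ 𝒩 → ¬ (s j = 1 ∧ κ j = q)) := by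
    intro p
    by_cases h : p ∈ 𝒩
    · have h1 := hN p h
      unfold Triv at h1
      push Not at h1
      obtain ⟨j, hj, hj'⟩ := h1
      exact ⟨j, hj, fun _ e => hj' e.1 e.2⟩
    · obtain ⟨j, hj⟩ := hp p
      exact ⟨j, hj, fun h' => absurd h' h⟩
  choose l hl hl' using hch
  obtain ⟨p₀⟩ : Nonempty P := by
    rw [← Fintype.card_pos_iff]
    have := hB.two
    omega
  have h0 := hB.nn (fun j => ∑ p' ∈ (Finset.univ : Finset P), if l p' = j then
    (fun _ => (1 : ℝ)) p' / s (l p') else 0)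
    (fun j => Finset.sum_nonneg fun p _ => by
      split_ifs
      · positivity
      · exact le_refl _) p₀ 1 0 zero_le_one le_rfl (fun p => by
        rw [psum_put hB Finset.univ l (fun p _ => hl p) (fun _ => (1 : ℝ)) p]
        simp)
  rw [sum_put Finset.univ l (fun p' => (fun _ => (1 : ℝ)) p' / s (l p'))] at h0
  have h1 : ∑ p : P, (1 : ℝ) / s (l p) * κ (l p) ≤ ∑ p : P, ((q : ℝ) - if p ∈ 𝒩 then 1 / 2 else 0) := by
    refine Finset.sum_le_sum fun p _ => ?_
    have hs := hB.pos (l p) p (hl p)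
    have hκ := hB.κq (l p)
    have e : (1 : ℝ) / s (l p) * κ (l p) = (κ (l p) : ℝ) / s (l p) := by ring
    rw [e]
    split_ifs with h
    · exact ratio_le hs hκ hB.q0 (hl' p h)
    · have hs' : (1 : ℝ) ≤ s (l p) := by exact_mod_cast hs
      have hκ' : (κ (l p) : ℝ) ≤ q := by exact_mod_cast hκ
      rw [sub_zero, div_le_iff₀ (by linarith)]
      have hq0 : (0 : ℝ) ≤ q := by positivity
      nlinarith
  rw [Finset.sum_sub_distrib, Finset.sum_ite_mem] at h1
  simp only [Finset.sum_const, Finset.univ_inter, nsmul_eq_mul, Finset.card_univ] at h1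
  simp only [] at h0
  have hq : (1 : ℝ) ≤ q := by exact_mod_cast hB.q0
  have h2 : (𝒩.card : ℝ) ≤ 4 * q := by nlinarith
  exact_mod_cast h2

end Vale.Agent.P283.T647
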