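import Vale.Agent.P283.T647.R4

/-!
R6. The lower bound for the merged book.
-/

set_option linter.all false

namespace Vale.Agent.P283.T647

namespace R6

variable {P ι : Type} [Fintype P] [DecidableEq P] [Fintype ι] {k q : ℕ} {δ : ℝ}
  {pg : ι → Option P} {s : ι → ℕ} {w : ι → Fin k → ℤ} {κ : ι → ℕ} {𝒩 : Finset P}

open Classical in
lemma raise (hB : IsBook q δ pg s w κ) (l : P → ι)
    (hl : ∀ p ∈ 𝒩, pg (l p) = some p) (hl' : ∀ p ∈ 𝒩, ¬ (s (l p) = 1 ∧ κ (l p) = q)) (Δ : P → ℝ)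
    (hΔ : ∀ p ∈ 𝒩, 0 ≤ Δ p) (c : ι → ℝ) (hc : ∀ j, 0 ≤ c j)
    (hs : ∀ j p, pg j = some p → p ∉ 𝒩 → c j = 0) :
    ∃ c' : ι → ℝ, (∀ j, 0 ≤ c' j) ∧ (∀ j p, pg j = some p → p ∉ 𝒩 → c' j = 0) ∧
      (∀ p ∈ 𝒩, psum pg s c' p = psum pg s c p + Δ p) ∧
      ∑ j, c' j * (κ j : ℝ) ≤ ∑ j, c j * (κ j : ℝ) + ((q : ℝ) - 1 / 2) * ∑ p ∈ 𝒩, Δ p := by
  refine ⟨fun j => c j + ∑ p ∈ 𝒩, if l p = j then Δ p / s (l p) else 0, ?_, ?_, ?_, ?_⟩
  · intro j
    refine add_nonneg (hc j) (Finset.sum_nonneg fun p hp => ?_)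
    split_ifs
    · exact div_nonneg (hΔ p hp) (Nat.cast_nonneg _)
    · exact le_refl _
  · intro j p hj hp
    have h1 : ∑ p ∈ 𝒩, (if l p = j then Δ p / (s (l p) : ℝ) else 0) = 0 := by
      refine Finset.sum_eq_zero fun p' hp' => ?_
      rw [if_neg]
      intro e
      have := hl p' hp'
      rw [e, hj] at this
      exact hp ((Option.some.inj this) ▸ hp')
    show c j + _ = 0
    rw [h1, hs j p hj hp, add_zero]
  · intro p hp
    have h1 := R4.psum_put hB 𝒩 l hl Δ p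
    rw [if_pos hp] at h1
    rw [← h1]
    simp only [R4.psum_eq]
    rw [← Finset.sum_add_distrib]
    exact Finset.sum_congr rfl fun j _ => by ring
  · have h1 : ∑ j, (c j + ∑ p ∈ 𝒩, if l p = j then Δ p / (s (l p) : ℝ) else 0) * (κ j : ℝ) =
        ∑ j, c j * (κ j : ℝ) + ∑ p ∈ 𝒩, Δ p / s (l p) * κ (l p) := by
      rw [← R4.sum_put 𝒩 l (fun p => Δ p / s (l p)) (fun j => (κ j : ℝ)),
        ← Finset.sum_add_distrib]
      exact Finset.sum_congr rfl fun j _ => by ring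
    rw [h1, Finset.mul_sum]
    refine add_le_add le_rfl (Finset.sum_le_sum fun p hp => ?_)
    have h2 := R4.ratio_le (hB.pos _ _ (hl p hp)) (hB.κq (l p)) hB.q0 (hl' p hp)
    have e : Δ p / (s (l p) : ℝ) * κ (l p) = ((κ (l p) : ℝ) / s (l p)) * Δ p := by ring
    rw [e]
    exact mul_le_mul_of_nonneg_right h2 (hΔ p hp)

/-- The value. -/
def val (q n : ℕ) (κ : ι → ℕ) (c : ι → ℝ) (cf : (P → ι) → ℝ) (μ : ℝ) : ℝ :=
  ∑ j, c j * (κ j : ℝ) + q * ∑ f, cf f - q * ((n : ℝ) - 1) * μ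

lemma a_nn (hL : MergeLift) (hB : IsBook q δ pg s w κ) (hT : ∀ p, p ∉ 𝒩 → Triv q pg s κ p)
    (c : ι → ℝ) (cf : (P → ι) → ℝ) (hc : ∀ j, 0 ≤ c j) (hcf : ∀ f, 0 ≤ cf f)
    (hs : ∀ j p, pg j = some p → p ∉ 𝒩 → c j = 0) (hf : ∀ f, ¬ Ch 𝒩 pg f → cf f = 0)
    (p₁ : P) (σ : ℝ) (hσ : 0 ≤ σ) (hp₁ : p₁ ∈ 𝒩)
    (h : ∀ p ∈ 𝒩, psum pg s c p = ∑ f, cf f + if p = p₁ then σ else 0) :
    0 ≤ val q 𝒩.card κ c cf (∑ f, cf f) := by
  obtain ⟨c', h1, h2, h3, h4, h5⟩ := hL P ι k q pg s w κ 𝒩 hT c cf hc hcf hs hf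
  have h6 := hB.nn c' h1 p₁ (∑ f, cf f) σ (Finset.sum_nonneg fun f _ => hcf f) hσ (fun p => by
    by_cases hp : p ∈ 𝒩
    · rw [h2 p hp, h p hp]
    · rw [h3 p hp, if_neg (fun e : p = p₁ => hp (e.symm ▸ hp₁)), add_zero])
  unfold val
  rw [h5] at h6
  linarith

lemma a_lc (hL : MergeLift) (hB : IsBook q δ pg s w κ) (hT : ∀ p, p ∉ 𝒩 → Triv q pg s κ p)
    (c : ι → ℝ) (cf : (P → ι) → ℝ) (hc : ∀ j, 0 ≤ c j) (hcf : ∀ f, 0 ≤ cf f)
    (hs : ∀ j p, pg j = some p → p ∉ 𝒩 → c j = 0) (hf : ∀ f, ¬ Ch 𝒩 pg f → cf f = 0)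
    (p₁ : P) (σ : ℕ) (hp₁ : p₁ ∈ 𝒩)
    (h : ∀ p ∈ 𝒩, psum pg s c p = ∑ f, cf f + if p = p₁ then (σ : ℝ) else 0)
    (b : Fin k → ℤ)
    (hb : ∀ i, (b i : ℝ) = ∑ j, c j * (w j i : ℝ) + ∑ f, cf f * ∑ p ∈ 𝒩ᶜ, (w (f p) i : ℝ))
    (hne : σ ≠ 0 ∨ b ≠ 0) :
    δ ≤ val q 𝒩.card κ c cf (∑ f, cf f) := by
  obtain ⟨c', h1, h2, h3, h4, h5⟩ := hL P ι k q pg s w κ 𝒩 hT c cf hc hcf hs hf
  have h6 := hB.lc c' h1 p₁ (∑ f, cf f) σ b (Finset.sum_nonneg fun f _ => hcf f) (fun p => by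
    by_cases hp : p ∈ 𝒩
    · rw [h2 p hp, h p hp]
    · rw [h3 p hp, if_neg (fun e : p = p₁ => hp (e.symm ▸ hp₁)), add_zero]) (fun i => by rw [hb i, h4 i]) hne
  unfold val
  rw [h5] at h6
  linarith

lemma b_nn (hL : MergeLift) (hB : IsBook q δ pg s w κ) (hT : ∀ p, p ∉ 𝒩 → Triv q pg s κ p)
    (c : ι → ℝ) (cf : (P → ι) → ℝ) (hc : ∀ j, 0 ≤ c j) (hcf : ∀ f, 0 ≤ cf f)
    (hs : ∀ j p, pg j = some p → p ∉ 𝒩 → c j = 0) (hf : ∀ f, ¬ Ch 𝒩 pg f → cf f = 0)
    (p₁ : P) (hp₁ : p₁ ∈ 𝒩) (μ : ℝ) (hμ : 0 ≤ μ) (hμ' : μ ≤ ∑ f, cf f)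
    (h : ∀ p ∈ 𝒩, psum pg s c p = μ) :
    q * (∑ f, cf f - μ) ≤ val q 𝒩.card κ c cf μ := by
  set C := ∑ f, cf f with hC
  have e : ∑ f, (μ / C) * cf f = μ := by
    rw [← Finset.mul_sum, ← hC]
    by_cases h0 : C = 0
    · rw [h0] at hμ' ⊢
      rw [mul_zero]
      exact le_antisymm hμ hμ'
    · exact div_mul_cancel₀ _ h0
  have hC0 : 0 ≤ C := le_trans hμ hμ'
  have h1 := a_nn hL hB hT c (fun f => (μ / C) * cf f) hc
    (fun f => mul_nonneg (div_nonneg hμ hC0) (hcf f)) hs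
    (fun f h => by rw [hf f h, mul_zero]) p₁ 0 le_rfl hp₁ (fun p hp => by
      rw [e, h p hp]
      simp)
  rw [e] at h1
  unfold val at h1 ⊢
  rw [e] at h1
  linarith

open Classical in
lemma cf_add (cf : (P → ι) → ℝ) (g : P → ι) (t : ℝ) :
    ∑ f, (cf f + if f = g then t else 0) = ∑ f, cf f + t := by
  rw [Finset.sum_add_distrib, Finset.sum_ite_eq']
  simp

open Classical in
lemma cf_addW (cf : (P → ι) → ℝ) (g : P → ι) (t : ℝ) (W : (P → ι) → ℝ) :
    ∑ f, (cf f + if f = g then t else 0) * W f = ∑ f, cf f * W f + t * W g := by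
  simp_rw [add_mul, ite_mul, zero_mul]
  rw [Finset.sum_add_distrib, Finset.sum_ite_eq']
  simp

lemma psum_nonneg (c : ι → ℝ) (hc : ∀ j, 0 ≤ c j) (p : P) : 0 ≤ psum pg s c p := by
  unfold psum
  refine Finset.sum_nonneg fun j _ => ?_
  split_ifs
  · exact mul_nonneg (hc j) (Nat.cast_nonneg _)
  · exact le_refl _

end R6

open R6 in
/-- The lower bound for the merged book. -/
theorem r6 (hL : MergeLift) : MergeIneq := by
  classical
  intro P ι _ _ _ k q δ pg s w κ hB hpp 𝒩 hM c cf hc hcf hs hf η b hη hb hne μ hμC hμS hμ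
  obtain ⟨hT, hM'⟩ := hM
  have hn1 : 1 ≤ 𝒩.card := by
    rcases hM' with h | ⟨_, h | ⟨h, _⟩⟩ <;> omega
  obtain ⟨p₀, hp₀⟩ : 𝒩.Nonempty := Finset.card_pos.mp hn1
  have hq1 : (1 : ℝ) ≤ q := by exact_mod_cast hB.q0
  have hC0 : 0 ≤ ∑ f, cf f := Finset.sum_nonneg fun f _ => hcf f
  have hS : ∀ p ∈ 𝒩, psum pg s c p = ∑ f, cf f + η p := fun p hp => by
    have := hη p hp
    linarith
  show min δ (1 / 2) ≤ val q 𝒩.card κ c cf μ
  obtain ⟨ν, hν, hν0, hνη, hνa⟩ : ∃ ν : ℤ, μ = ∑ f, cf f + ν ∧ ν ≤ 0 ∧ (∀ p ∈ 𝒩, ν ≤ η p) ∧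
      (ν = 0 ∨ ∃ p ∈ 𝒩, η p = ν) := by
    rcases hμ with h | ⟨p, hp, h⟩
    · refine ⟨0, by simpa using h, le_rfl, fun p hp => ?_, Or.inl rfl⟩
      have h1 := hμS p hp
      rw [hS p hp, h] at h1
      have h2 : (0 : ℝ) ≤ η p := by linarith
      exact_mod_cast h2
    · refine ⟨η p, by rw [h, hS p hp], ?_, fun p' hp' => ?_, Or.inr ⟨p, hp, rfl⟩⟩
      · rw [h, hS p hp] at hμC
        have h2 : (η p : ℝ) ≤ 0 := by linarith
        exact_mod_cast h2
      · have h1 := hμS p' hp'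
        rw [h, hS p hp, hS p' hp'] at h1
        have h2 : (η p : ℝ) ≤ η p' := by linarith
        exact_mod_cast h2
  have hμ0 : 0 ≤ μ := by
    rcases hμ with h | ⟨p, hp, h⟩
    · rw [h]; exact hC0
    · rw [h]; exact psum_nonneg c hc p
  have caseA : ∀ p₁ ∈ 𝒩, (∀ p ∈ 𝒩, p ≠ p₁ → η p = 0) → 0 ≤ η p₁ →
      δ ≤ val q 𝒩.card κ c cf (∑ f, cf f) := by
    intro p₁ hp₁ h0 h1
    refine a_lc hL hB hT c cf hc hcf hs hf p₁ (η p₁).toNat hp₁ ?_ b hb ?_
    · intro p hp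
      by_cases e : p = p₁
      · subst e
        rw [if_pos rfl, hS p hp]
        have h2 : (((η p).toNat : ℤ) : ℝ) = ((η p : ℤ) : ℝ) := by
          rw [Int.toNat_of_nonneg h1]
        rw [← h2, Int.cast_natCast]
      · rw [if_neg e, hS p hp, h0 p hp e]
        simp
    · rcases hne with h | ⟨p, hp, h⟩
      · exact Or.inr h
      · left
        have h3 : p = p₁ := by
          by_contra e
          exact h (h0 p hp e)
        subst h3
        omega
  have nontriv : 𝒩.card ≠ 1 → ∃ l : P → ι, (∀ p ∈ 𝒩, pg (l p) = some p) ∧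
      ∀ p ∈ 𝒩, ¬ (s (l p) = 1 ∧ κ (l p) = q) := by
    intro h1
    have h2 : ∀ p ∈ 𝒩, ¬ Triv q pg s κ p := by
      rcases hM' with h | ⟨h, _⟩
      · exact absurd h h1
      · exact h
    have hch : ∀ p : P, ∃ j, pg j = some p ∧ (p ∈ 𝒩 → ¬ (s j = 1 ∧ κ j = q)) := by
      intro p
      by_cases h : p ∈ 𝒩
      · have h1 := h2 p h
        unfold Triv at h1
        push Not at h1
        obtain ⟨j, hj, hj'⟩ := h1
        exact ⟨j, hj, fun _ e => hj' e.1 e.2⟩
      · obtain ⟨j, hj⟩ := hpp p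
        exact ⟨j, hj, fun h' => absurd h' h⟩
    choose l hl hl' using hch
    exact ⟨l, fun p _ => hl p, hl'⟩
  by_cases hI : ∀ p ∈ 𝒩, η p ≤ 0
  · -- the additional page has the largest total
    obtain ⟨p₂, hp₂, hmax⟩ := Finset.exists_max_image 𝒩 η ⟨p₀, hp₀⟩
    by_cases hρ : η p₂ = ν
    · have hall : ∀ p ∈ 𝒩, η p = ν := fun p hp =>
        le_antisymm (hρ ▸ hmax p hp) (hνη p hp)
      by_cases hν' : ν = 0
      · subst hν'
        have h1 := caseA p₀ hp₀ (fun p hp _ => hall p hp) (hall p₀ hp₀).ge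
        rw [hν, Int.cast_zero, add_zero]
        exact (min_le_left _ _).trans h1
      · have h1 := b_nn hL hB hT c cf hc hcf hs hf p₀ hp₀ μ hμ0 hμC (fun p hp => by
          rw [hS p hp, hall p hp, hν])
        have h2 : (1 : ℝ) ≤ ∑ f, cf f - μ := by
          have h3 : ν ≤ -1 := by omega
          have h4 : (ν : ℝ) ≤ -1 := by exact_mod_cast h3
          rw [hν]
          linarith
        refine (min_le_right _ _).trans (le_trans ?_ h1)
        nlinarith
    · have hρν : ν < η p₂ := lt_of_le_of_ne (hνη p₂ hp₂) (fun e => hρ e.symm)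
      have hρ0 : η p₂ ≤ 0 := hI p₂ hp₂
      obtain ⟨p₃, hp₃, hp₃'⟩ : ∃ p ∈ 𝒩, η p = ν := by
        rcases hνa with h | h
        · omega
        · exact h
      have hcard : 𝒩.card ≠ 1 := by
        intro h
        have := Finset.card_le_one.mp h.le p₂ hp₂ p₃ hp₃
        subst this
        exact hρ hp₃'
      obtain ⟨l, hl, hl'⟩ := nontriv hcard
      obtain ⟨c', h1, h2, h3, h4⟩ := raise hB l hl hl' (fun p => (η p₂ : ℝ) - η p)
        (fun p hp => by
          have : (η p : ℝ) ≤ η p₂ := by exact_mod_cast hmax p hp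
          simpa using this) c hc hs
      have hρC : 0 ≤ ∑ f, cf f + (η p₂ : ℝ) := by
        rw [← hS p₂ hp₂]
        exact psum_nonneg c hc p₂
      have hρR : (η p₂ : ℝ) ≤ 0 := by exact_mod_cast hρ0
      have h5 := b_nn hL hB hT c' cf h1 hcf h2 hf p₀ hp₀ (∑ f, cf f + η p₂) hρC (by linarith)
        (fun p hp => by rw [h3 p hp, hS p hp]; ring)
      have h6 : ∑ p ∈ 𝒩, (η p₂ - η p) ≤ ((𝒩.card : ℤ) - 1) * (η p₂ - ν) := by
        rw [← Finset.sum_erase 𝒩 (a := p₂) (f := fun p => η p₂ - η p) (by simp)]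
        have h7 := Finset.sum_le_card_nsmul (𝒩.erase p₂) (fun p => η p₂ - η p) (η p₂ - ν)
          (fun p hp => by
            have := hνη p (Finset.mem_of_mem_erase hp)
            omega)
        rw [Finset.card_erase_of_mem hp₂, nsmul_eq_mul] at h7
        rw [Nat.cast_sub hn1] at h7
        simpa using h7
      have h6' : ∑ p ∈ 𝒩, ((η p₂ : ℝ) - η p) ≤ ((𝒩.card : ℝ) - 1) * (η p₂ - ν) := by
        have := (Int.cast_le (R := ℝ)).mpr h6
        push_cast at this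
        exact this
      have hn2 : 2 ≤ 𝒩.card := by omega
      have hn2' : (2 : ℝ) ≤ 𝒩.card := by exact_mod_cast hn2
      have hd : (1 : ℝ) ≤ (η p₂ : ℝ) - ν := by
        have : (1 : ℤ) ≤ η p₂ - ν := by omega
        exact_mod_cast this
      have hN : (1 : ℝ) ≤ ((𝒩.card : ℝ) - 1) * (η p₂ - ν) := by nlinarith
      have h8 : 0 ≤ val q 𝒩.card κ c' cf (∑ f, cf f + η p₂) := by
        refine le_trans ?_ h5
        have : 0 ≤ ∑ f, cf f - (∑ f, cf f + (η p₂ : ℝ)) := by linarith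
        positivity
      refine (min_le_right _ _).trans ?_
      unfold val at h8 ⊢
      rw [hν]
      set D := ∑ p ∈ 𝒩, ((η p₂ : ℝ) - η p) with hD
      set N := ((𝒩.card : ℝ) - 1) * ((η p₂ : ℝ) - ν) with hNN
      have e1 : (q : ℝ) * ((𝒩.card : ℝ) - 1) * (∑ f, cf f + ν) =
          q * ((𝒩.card : ℝ) - 1) * (∑ f, cf f + η p₂) - q * N := by
        rw [hNN]; ring
      rw [e1]
      have h9 : ((q : ℝ) - 1 / 2) * D ≤ (q - 1 / 2) * N :=
        mul_le_mul_of_nonneg_left h6' (by linarith)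
      linarith
  · push Not at hI
    obtain ⟨p₁, hp₁, hmax⟩ := Finset.exists_max_image 𝒩 η ⟨p₀, hp₀⟩
    have hpos : 0 < η p₁ := by
      obtain ⟨p, hp, h⟩ := hI
      exact lt_of_lt_of_le h (hmax p hp)
    have hcl : ((𝒩.erase p₁).card : ℤ) = (𝒩.card : ℤ) - 1 := by
      rw [Finset.card_erase_of_mem hp₁, Nat.cast_sub hn1]
      simp
    obtain ⟨ρ, hρ0, hρη, hρ1, hρa⟩ : ∃ ρ : ℤ, 0 ≤ ρ ∧ (∀ p ∈ 𝒩.erase p₁, η p ≤ ρ) ∧ ρ ≤ η p₁ ∧
        (ρ = 0 ∨ ∃ p₂ ∈ 𝒩.erase p₁, η p₂ = ρ) := by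
      by_cases h : ∀ p ∈ 𝒩.erase p₁, η p ≤ 0
      · exact ⟨0, le_rfl, h, hpos.le, Or.inl rfl⟩
      · push Not at h
        obtain ⟨p, hp, h'⟩ := h
        obtain ⟨p₂, hp₂, hm⟩ := Finset.exists_max_image (𝒩.erase p₁) η ⟨p, hp⟩
        exact ⟨η p₂, (h'.trans_le (hm p hp)).le, hm, hmax p₂ (Finset.mem_of_mem_erase hp₂),
          Or.inr ⟨p₂, hp₂, rfl⟩⟩
    by_cases hρν : ρ = ν
    · have e1 : ρ = 0 := by omega
      have e2 : ν = 0 := by omega
      have h1 := caseA p₁ hp₁ (fun p hp hp' => by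
        have h2 := hρη p (Finset.mem_erase.mpr ⟨hp', hp⟩)
        have h3 := hνη p hp
        omega) hpos.le
      rw [hν, e2, Int.cast_zero, add_zero]
      exact (min_le_left _ _).trans h1
    · have hlt : ν < ρ := by omega
      -- the bracket
      have hD0 : 0 ≤ ∑ p ∈ 𝒩.erase p₁, (ρ - η p) :=
        Finset.sum_nonneg fun p hp => by
          have := hρη p hp
          omega
      have hbr : ∑ p ∈ 𝒩.erase p₁, (ρ - η p) + ρ ≤ ((𝒩.card : ℤ) - 1) * (ρ - ν) := by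
        rcases hρa with h | ⟨p₂, hp₂, h⟩
        · have h7 := Finset.sum_le_card_nsmul (𝒩.erase p₁) (fun p => ρ - η p) (ρ - ν)
            (fun p hp => by
              have := hνη p (Finset.mem_of_mem_erase hp)
              omega)
          rw [nsmul_eq_mul, hcl] at h7
          omega
        · rw [← Finset.sum_erase (𝒩.erase p₁) (a := p₂) (f := fun p => ρ - η p) (by simp [h])]
          have h7 := Finset.sum_le_card_nsmul ((𝒩.erase p₁).erase p₂) (fun p => ρ - η p) (ρ - ν)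
            (fun p hp => by
              have := hνη p (Finset.mem_of_mem_erase (Finset.mem_of_mem_erase hp))
              omega)
          have h8 : 1 ≤ (𝒩.erase p₁).card := Finset.card_pos.mpr ⟨p₂, hp₂⟩
          rw [nsmul_eq_mul, Finset.card_erase_of_mem hp₂, Nat.cast_sub h8, hcl] at h7
          have e : ((𝒩.card : ℤ) - 1) * (ρ - ν) =
            ((𝒩.card : ℤ) - 1 - ((1 : ℕ) : ℤ)) * (ρ - ν) + (ρ - ν) := by
            push_cast
            ring
          rw [e]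
          omega
      have hcard : 𝒩.card ≠ 1 := by
        intro h
        have hce : (𝒩.erase p₁).card = 0 := by
          rw [Finset.card_erase_of_mem hp₁]
          omega
        rcases hρa with h' | ⟨p₂, hp₂, _⟩
        · rcases hνa with h'' | ⟨p, hp, h''⟩
          · omega
          · have := Finset.card_le_one.mp h.le p hp p₁ hp₁
            subst this
            omega
        · rw [Finset.card_eq_zero] at hce
          rw [hce] at hp₂
          simp at hp₂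
      have hn2 : 2 ≤ 𝒩.card := by omega
      obtain ⟨l, hl, hl'⟩ := nontriv hcard
      obtain ⟨c', h1, h2, h3, h4⟩ := raise hB l hl hl'
        (fun p => if p = p₁ then (0 : ℝ) else (ρ : ℝ) - η p)
        (fun p hp => by
          by_cases e : p = p₁
          · simp [e]
          · have h5 : (η p : ℝ) ≤ ρ := by
              exact_mod_cast hρη p (Finset.mem_erase.mpr ⟨e, hp⟩)
            rw [if_neg e]
            linarith) c hc hs
      obtain ⟨g₀, hg₀⟩ : ∃ g : P → ι, Ch 𝒩 pg g := by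
        choose g hg using hpp
        exact ⟨g, fun p _ => hg p⟩
      have hρR : (0 : ℝ) ≤ ρ := by exact_mod_cast hρ0
      have hcf' : ∀ g : P → ι, ∀ f, 0 ≤ cf f + if f = g then (ρ : ℝ) else 0 := fun g f => by
        refine add_nonneg (hcf f) ?_
        split_ifs
        · exact hρR
        · exact le_refl _
      have hsupp : ∀ g : P → ι, Ch 𝒩 pg g → ∀ f, ¬ Ch 𝒩 pg f →
          cf f + (if f = g then (ρ : ℝ) else 0) = 0 := fun g hg f h => by
        rw [hf f h, if_neg (fun e : f = g => h (e.symm ▸ hg)), add_zero]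
      have h5 := a_nn hL hB hT c' (fun f => cf f + if f = g₀ then (ρ : ℝ) else 0) h1 (hcf' g₀) h2
        (hsupp g₀ hg₀) p₁ ((η p₁ : ℝ) - ρ) (by
          have : (ρ : ℝ) ≤ η p₁ := by exact_mod_cast hρ1
          linarith) hp₁ (fun p hp => by
          rw [h3 p hp, hS p hp, cf_add]
          by_cases e : p = p₁
          · subst e
            rw [if_pos rfl, if_pos rfl]
            ring
          · rw [if_neg e, if_neg e]
            ring)
      rw [cf_add] at h5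
      have eD : ∑ p ∈ 𝒩, (if p = p₁ then (0 : ℝ) else (ρ : ℝ) - η p) =
          ((∑ p ∈ 𝒩.erase p₁, (ρ - η p) : ℤ) : ℝ) := by
        rw [← Finset.sum_erase 𝒩 (a := p₁) (by simp)]
        push_cast
        exact Finset.sum_congr rfl fun p hp => if_neg (Finset.ne_of_mem_erase hp)
      rw [eD] at h4
      set D := ∑ p ∈ 𝒩.erase p₁, (ρ - η p) with hD
      set A := ((𝒩.card : ℤ) - 1) * (ρ - ν) - ρ - D with hA
      have hA0 : 0 ≤ A := by omega
      have hval : (q : ℝ) * A + (D : ℝ) / 2 ≤ val q 𝒩.card κ c cf μ := by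
        unfold val at h5 ⊢
        rw [hν]
        rw [cf_add] at h5
        have e1 : (A : ℝ) = ((𝒩.card : ℝ) - 1) * ((ρ : ℝ) - ν) - ρ - D := by
          rw [hA]
          push_cast
          ring
        rw [e1]
        nlinarith
      by_cases hA1 : 1 ≤ A
      · have h6 : (1 : ℝ) ≤ A := by exact_mod_cast hA1
        have h7 : (0 : ℝ) ≤ D := by exact_mod_cast hD0
        refine (min_le_right _ _).trans (le_trans ?_ hval)
        nlinarith
      by_cases hD1 : 1 ≤ D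
      · have h6 : (1 : ℝ) ≤ D := by exact_mod_cast hD1
        have h7 : (0 : ℝ) ≤ A := by exact_mod_cast hA0
        refine (min_le_right _ _).trans (le_trans ?_ hval)
        have : (0 : ℝ) ≤ q * A := by positivity
        linarith
      have eA : A = 0 := by omega
      have eD0 : D = 0 := by omega
      have e3 : ((𝒩.card : ℤ) - 1) * (ρ - ν) = ρ := by omega
      have hν1 : ν = 0 := by
        have h6 : (1 : ℤ) ≤ (𝒩.card : ℤ) - 1 := by omega
        nlinarith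
      have hn3 : 𝒩.card = 2 := by
        subst hν1
        have h6 : (𝒩.card : ℤ) - 1 = 1 := by
          have : ((𝒩.card : ℤ) - 1 - 1) * ρ = 0 := by
            rw [sub_zero] at e3
            linarith
          rcases mul_eq_zero.mp this with h | h
          · omega
          · omega
        omega
      have hηρ : ∀ p ∈ 𝒩, p ≠ p₁ → η p = ρ := by
        intro p hp hp'
        have h6 := (Finset.sum_eq_zero_iff_of_nonneg (fun p hp => by
          have := hρη p hp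
          omega)).mp eD0 p (Finset.mem_erase.mpr ⟨hp', hp⟩)
        omega
      have hff : ∃ f f' : P → ι, Ch 𝒩 pg f ∧ Ch 𝒩 pg f' ∧
          ∃ i, ∑ p ∈ 𝒩ᶜ, w (f p) i ≠ ∑ p ∈ 𝒩ᶜ, w (f' p) i := by
        rcases hM' with h | ⟨_, h | ⟨_, h⟩⟩
        · omega
        · omega
        · exact h
      have last : ∀ g : P → ι, Ch 𝒩 pg g → (∃ i, b i + ρ * ∑ p ∈ 𝒩ᶜ, w (g p) i ≠ 0) →
          δ ≤ val q 𝒩.card κ c cf μ := by
        intro g hg hgne
        have h6 := a_lc hL hB hT c (fun f => cf f + if f = g then (ρ : ℝ) else 0) hc (hcf' g) hs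
          (hsupp g hg) p₁ (η p₁ - ρ).toNat hp₁ (fun p hp => by
            rw [hS p hp, cf_add]
            by_cases e : p = p₁
            · subst e
              rw [if_pos rfl]
              have h2 : (((η p - ρ).toNat : ℤ) : ℝ) = ((η p - ρ : ℤ) : ℝ) := by
                rw [Int.toNat_of_nonneg (by omega)]
              rw [Int.cast_natCast] at h2
              rw [h2]
              push_cast
              ring
            · rw [if_neg e, hηρ p hp e]
              ring)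
          (fun i => b i + ρ * ∑ p ∈ 𝒩ᶜ, w (g p) i) (fun i => by
            rw [cf_addW]
            push_cast
            rw [hb i]
            ring) (Or.inr (fun h => by
            obtain ⟨i, hi⟩ := hgne
            exact hi (congrFun h i)))
        rw [cf_add] at h6
        unfold val at h6 ⊢
        rw [cf_add] at h6
        rw [hν, hν1, hn3] at *
        push_cast at h6 ⊢
        linarith
      refine (min_le_left _ _).trans ?_
      obtain ⟨f, f', hf1, hf2, i, hi⟩ := hff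
      by_cases h6 : b i + ρ * ∑ p ∈ 𝒩ᶜ, w (f p) i = 0
      · refine last f' hf2 ⟨i, fun h7 => hi ?_⟩
        have h8 : ρ * (∑ p ∈ 𝒩ᶜ, w (f p) i - ∑ p ∈ 𝒩ᶜ, w (f' p) i) = 0 := by linarith
        rcases mul_eq_zero.mp h8 with h | h
        · omega
        · linarith
      · exact last f hf1 ⟨i, h6⟩

end Vale.Agent.P283.T647
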