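import Vale.Agent.P283.T647.Props

/-!
Row R7: merging the pages outside `𝒩`.
-/

set_option linter.all false

namespace Vale.Agent.P283.T647

namespace R7

variable {P ι : Type} [Fintype P] [DecidableEq P] [Fintype ι] {k : ℕ}

/-- The rays on the pages of `𝒩` and on the spine. -/
abbrev RJ (𝒩 : Finset P) (pg : ι → Option P) := {j : ι // ∀ p, pg j = some p → p ∈ 𝒩}

/-- The choices of rays on the other pages. -/
abbrev RF (𝒩 : Finset P) (pg : ι → Option P) := {f : P → ι // Ch 𝒩 pg f}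

/-- The rays of the merged book. -/
def mv (𝒩 : Finset P) (pg : ι → Option P) (s : ι → ℕ) (w : ι → Fin k → ℤ) :
    (RJ 𝒩 pg ⊕ RF 𝒩 pg) → ({p // p ∈ 𝒩} ⊕ Fin k) → ℤ
  | .inl j, .inl p => if pg j.1 = some p.1 then (s j.1 : ℤ) else 0
  | .inl j, .inr i => w j.1 i
  | .inr _, .inl _ => -1
  | .inr f, .inr i => ∑ p ∈ 𝒩ᶜ, w (f.1 p) i

/-- The bounds of the merged book. -/
def mT (q : ℕ) (𝒩 : Finset P) (pg : ι → Option P) (s κ : ι → ℕ) : (RJ 𝒩 pg ⊕ RF 𝒩 pg) → ℤ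
  | .inl j => (pg j.1).elim 0 (fun _ => (q : ℤ) * s j.1) - κ j.1
  | .inr _ => -2 * q

/-- The numbers `κ` of the merged book. -/
def mκ (q : ℕ) (𝒩 : Finset P) (pg : ι → Option P) (κ : ι → ℕ) : (RJ 𝒩 pg ⊕ RF 𝒩 pg) → ℕ
  | .inl j => κ j.1
  | .inr _ => q

/-- A functional on the merged book. -/
def fn (𝒩 : Finset P) (e : P → ℤ) (c : Fin k → ℤ) : ({p // p ∈ 𝒩} ⊕ Fin k) → ℤ :=
  Sum.elim (fun p => e p.1) c

theorem fn_surj (𝒩 : Finset P) (Y : ({p // p ∈ 𝒩} ⊕ Fin k) → ℤ) :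
    ∃ (e : P → ℤ) (c : Fin k → ℤ), Y = fn 𝒩 e c := by
  refine ⟨fun p => if h : p ∈ 𝒩 then Y (Sum.inl ⟨p, h⟩) else 0, fun i => Y (Sum.inr i), ?_⟩
  funext x
  rcases x with ⟨p, hp⟩ | i
  · simp [fn, hp]
  · simp [fn]

variable {q : ℕ} {δ : ℝ} {pg : ι → Option P} {s : ι → ℕ} {w : ι → Fin k → ℤ} {κ : ι → ℕ}
  {𝒩 : Finset P}

theorem pair_inl (e : P → ℤ) (c : Fin k → ℤ) (j : RJ 𝒩 pg) :
    ∑ x, fn 𝒩 e c x * mv 𝒩 pg s w (Sum.inl j) x =
      (pg j.1).elim 0 (fun p => (s j.1 : ℤ) * e p) + ∑ i, c i * w j.1 i := by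
  rw [Fintype.sum_sum_type]
  congr 1
  obtain ⟨j, hj⟩ := j
  rcases h : pg j with _ | p0
  · refine Finset.sum_eq_zero fun p _ => ?_
    simp [mv, h]
  · have hp := hj p0 h
    rw [Finset.sum_eq_single (⟨p0, hp⟩ : {p // p ∈ 𝒩})]
    · simp [mv, fn, h, mul_comm]
    · intro p _ hne
      have : p0 ≠ p.1 := fun h' => hne (Subtype.ext h'.symm)
      simp [mv, h, this]
    · intro h'
      exact absurd (Finset.mem_univ _) h'

theorem pair_inr (e : P → ℤ) (c : Fin k → ℤ) (f : RF 𝒩 pg) :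
    ∑ x, fn 𝒩 e c x * mv 𝒩 pg s w (Sum.inr f) x =
      - ∑ p ∈ 𝒩, e p + ∑ p ∈ 𝒩ᶜ, ∑ i, c i * w (f.1 p) i := by
  rw [Fintype.sum_sum_type]
  congr 1
  · rw [← Finset.sum_coe_sort 𝒩, ← Finset.sum_neg_distrib]
    refine Finset.sum_congr rfl fun p _ => ?_
    simp [mv, fn]
  · rw [Finset.sum_comm]
    refine Finset.sum_congr rfl fun i _ => ?_
    simp [mv, fn, Finset.mul_sum]

theorem exists_max (hne : ∀ p, ∃ j, pg j = some p) (φ : ι → ℤ) :
    ∃ g : P → ι, (∀ p, pg (g p) = some p) ∧ ∀ p j, pg j = some p → φ j ≤ φ (g p) := by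
  classical
  have h : ∀ p, ∃ j, pg j = some p ∧ ∀ j', pg j' = some p → φ j' ≤ φ j := by
    intro p
    obtain ⟨j0, hj0⟩ := hne p
    obtain ⟨j, hj, hmax⟩ := Finset.exists_max_image (Finset.univ.filter fun j => pg j = some p) φ
      ⟨j0, by simp [hj0]⟩
    refine ⟨j, by simpa using hj, fun j' hj' => hmax j' (by simp [hj'])⟩
  choose g hg hg' using h
  exact ⟨g, hg, fun p j hj => hg' p j hj⟩

theorem sum_ext_sub {α : Type} [Fintype α] (p : α → Prop) [DecidablePred p]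
    (c : {a // p a} → ℝ) (G : α → ℝ) :
    ∑ a : {a // p a}, c a * G a.1 = ∑ a, (if h : p a then c ⟨a, h⟩ else 0) * G a := by
  rw [← Fintype.sum_subtype_add_sum_subtype p
    (fun a => (if h : p a then c ⟨a, h⟩ else 0) * G a)]
  have h2 : ∑ a : {a // ¬ p a}, (if h : p a.1 then c ⟨a.1, h⟩ else 0) * G a.1 = 0 :=
    Finset.sum_eq_zero fun a _ => by rw [dif_neg a.2, zero_mul]
  rw [h2, add_zero]
  exact Finset.sum_congr rfl fun a _ => by rw [dif_pos a.2]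

/-- From a solution of the merged problem to an admissible functional. -/
theorem back (hne : ∀ p, ∃ j, pg j = some p) (htriv : ∀ p, p ∉ 𝒩 → Triv q pg s κ p) (K : ℕ)
    (e : P → ℤ) (u : Fin k → ℤ)
    (h : ∀ j, (K : ℤ) * mT q 𝒩 pg s κ j ≤ ∑ x, fn 𝒩 e u x * mv 𝒩 pg s w j x) :
    ∃ b : P → ℤ, (∀ p ∈ 𝒩, b p = e p) ∧ Sol q K pg s w κ b (fun i => -u i) ∧
      ∀ p, p ∉ 𝒩 → ∀ j, pg j = some p → ∑ i, (-u i) * w j i ≤ b p := by
  classical
  obtain ⟨g, hg, hmax⟩ := exists_max hne (fun j => ∑ i, (-u i) * w j i)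
  refine ⟨fun p => if p ∈ 𝒩 then e p else ∑ i, (-u i) * w (g p) i, fun p hp => if_pos hp, ⟨?_, ?_⟩,
    fun p hp j hj => ?_⟩
  · have h1 := h (Sum.inr ⟨g, fun p _ => hg p⟩)
    rw [pair_inr] at h1
    rw [← Finset.sum_add_sum_compl 𝒩]
    have h2 : ∑ p ∈ 𝒩, (if p ∈ 𝒩 then e p else ∑ i, (-u i) * w (g p) i) = ∑ p ∈ 𝒩, e p :=
      Finset.sum_congr rfl fun p hp => if_pos hp
    have h3 : ∑ p ∈ 𝒩ᶜ, (if p ∈ 𝒩 then e p else ∑ i, (-u i) * w (g p) i) =
        - ∑ p ∈ 𝒩ᶜ, ∑ i, u i * w (g p) i := by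
      rw [← Finset.sum_neg_distrib]
      refine Finset.sum_congr rfl fun p hp => ?_
      rw [if_neg (Finset.mem_compl.1 hp), ← Finset.sum_neg_distrib]
      exact Finset.sum_congr rfl fun i _ => by ring
    rw [h2, h3]
    simp only [mT] at h1
    linarith
  · intro j
    rcases hp : pg j with _ | p
    · have hj : ∀ p, pg j = some p → p ∈ 𝒩 := fun p h' => by rw [hp] at h'; cases h'
      have h1 := h (Sum.inl ⟨j, hj⟩)
      rw [pair_inl] at h1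
      simp only [mT, hp, Option.elim] at h1
      unfold fval
      simp only [hp, Option.elim]
      have h3 : ∑ i, (-u i) * w j i = - ∑ i, u i * w j i := by
        rw [← Finset.sum_neg_distrib]
        exact Finset.sum_congr rfl fun i _ => by ring
      rw [h3]
      linarith
    · by_cases hp' : p ∈ 𝒩
      · have hj : ∀ p, pg j = some p → p ∈ 𝒩 := fun p' h' => by
          rw [hp] at h'
          cases h'
          exact hp'
        have h1 := h (Sum.inl ⟨j, hj⟩)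
        rw [pair_inl] at h1
        simp only [mT, hp, Option.elim] at h1
        unfold fval
        simp only [hp, Option.elim]
        rw [if_pos hp']
        have h3 : ∑ i, (-u i) * w j i = - ∑ i, u i * w j i := by
          rw [← Finset.sum_neg_distrib]
          exact Finset.sum_congr rfl fun i _ => by ring
        rw [h3]
        linarith
      · obtain ⟨h1, h2⟩ := htriv p hp' j hp
        unfold fval
        simp only [hp, Option.elim]
        rw [if_neg hp', h1, h2]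
        have h3 := hmax p j hp
        push_cast
        linarith
  · show _ ≤ (if p ∈ 𝒩 then e p else ∑ i, (-u i) * w (g p) i)
    rw [if_neg hp]
    exact hmax p j hj

theorem pair_fn (e e' : P → ℤ) (c c' : Fin k → ℤ) :
    ∑ x, fn 𝒩 e c x * fn 𝒩 e' c' x = ∑ p ∈ 𝒩, e p * e' p + ∑ i, c i * c' i := by
  rw [Fintype.sum_sum_type]
  congr 1
  rw [← Finset.sum_coe_sort 𝒩]
  exact Finset.sum_congr rfl fun p _ => rfl

theorem dot_aux (c a : Fin k → ℤ) (σ : ℤ) (S : Finset P) (F : P → Fin k → ℤ) :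
    ∑ i, c i * (a i + σ * ∑ p ∈ S, F p i) =
      ∑ i, c i * a i + σ * ∑ p ∈ S, ∑ i, c i * F p i := by
  rw [Finset.sum_comm, Finset.mul_sum, ← Finset.sum_add_distrib]
  refine Finset.sum_congr rfl fun i _ => ?_
  rw [← Finset.mul_sum]
  ring

theorem neg_dot (c x : Fin k → ℤ) : ∑ i, (-c i) * x i = - ∑ i, c i * x i := by
  rw [← Finset.sum_neg_distrib]
  exact Finset.sum_congr rfl fun i _ => by ring

theorem dot_neg (c x : Fin k → ℤ) : ∑ i, c i * (-x i) = - ∑ i, c i * x i := by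
  rw [← Finset.sum_neg_distrib]
  exact Finset.sum_congr rfl fun i _ => by ring

/-- Extension of a functional which is nonnegative on the merged rays. -/
theorem dual_ext (hne : ∀ p, ∃ j, pg j = some p) (htriv : ∀ p, p ∉ 𝒩 → Triv q pg s κ p)
    (e : P → ℤ) (c : Fin k → ℤ)
    (h : ∀ j, 0 ≤ ∑ x, fn 𝒩 e c x * mv 𝒩 pg s w j x) :
    ∃ (e' : P → ℤ) (g : P → ι), (∀ p, pg (g p) = some p) ∧ (∀ p ∈ 𝒩, e' p = e p) ∧
      (∀ p, p ∉ 𝒩 → e' p = - ∑ i, c i * w (g p) i) ∧ ∑ p, e' p ≤ 0 ∧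
      ∀ j, 0 ≤ (pg j).elim 0 (fun p => (s j : ℤ) * e' p) + ∑ i, c i * w j i := by
  classical
  obtain ⟨g, hg, hmax⟩ := exists_max hne (fun j => - ∑ i, c i * w j i)
  refine ⟨fun p => if p ∈ 𝒩 then e p else - ∑ i, c i * w (g p) i, g, hg, fun p hp => if_pos hp,
    fun p hp => if_neg hp, ?_, ?_⟩
  · have h1 := h (Sum.inr ⟨g, fun p _ => hg p⟩)
    rw [pair_inr] at h1
    rw [← Finset.sum_add_sum_compl 𝒩]
    have h2 : ∑ p ∈ 𝒩, (if p ∈ 𝒩 then e p else - ∑ i, c i * w (g p) i) = ∑ p ∈ 𝒩, e p :=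
      Finset.sum_congr rfl fun p hp => if_pos hp
    have h3 : ∑ p ∈ 𝒩ᶜ, (if p ∈ 𝒩 then e p else - ∑ i, c i * w (g p) i) =
        - ∑ p ∈ 𝒩ᶜ, ∑ i, c i * w (g p) i := by
      rw [← Finset.sum_neg_distrib]
      exact Finset.sum_congr rfl fun p hp => by rw [if_neg (Finset.mem_compl.1 hp)]
    rw [h2, h3]
    linarith
  · intro j
    rcases hp : pg j with _ | p
    · have hj : ∀ p, pg j = some p → p ∈ 𝒩 := fun p h' => by rw [hp] at h'; cases h'
      have h1 := h (Sum.inl ⟨j, hj⟩)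
      rw [pair_inl] at h1
      simp only [hp, Option.elim] at h1 ⊢
      exact h1
    · by_cases hp' : p ∈ 𝒩
      · have hj : ∀ p, pg j = some p → p ∈ 𝒩 := fun p' h' => by
          rw [hp] at h'
          cases h'
          exact hp'
        have h1 := h (Sum.inl ⟨j, hj⟩)
        rw [pair_inl] at h1
        simp only [hp, Option.elim] at h1 ⊢
        rw [if_pos hp']
        exact h1
      · obtain ⟨h1, h2⟩ := htriv p hp' j hp
        simp only [Option.elim]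
        rw [if_neg hp', h1]
        have h3 := hmax p j hp
        push_cast
        linarith

/-- Admissible functionals give solutions of the merged problem. -/
theorem fwd (htriv : ∀ p, p ∉ 𝒩 → Triv q pg s κ p) (r : ℕ) (b : P → ℤ) (c : Fin k → ℤ)
    (hS : Sol q r pg s w κ b c) (e : P → ℤ) (he : ∀ p ∈ 𝒩, b p ≤ e p)
    (hF : ∀ f, Ch 𝒩 pg f → ∑ p ∈ 𝒩, e p + ∑ p ∈ 𝒩ᶜ, ∑ i, c i * w (f p) i ≤ 2 * q * r) (j) :
    (r : ℤ) * mT q 𝒩 pg s κ j ≤ ∑ x, fn 𝒩 e (fun i => - c i) x * mv 𝒩 pg s w j x := by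
  rcases j with ⟨j, hj⟩ | ⟨f, hf⟩
  · rw [pair_inl, neg_dot]
    have h1 := hS.2 j
    unfold fval at h1
    rcases hp : pg j with _ | p
    · simp only [mT, hp, Option.elim] at h1 ⊢
      linarith
    · simp only [mT, hp, Option.elim] at h1 ⊢
      have h2 := he p (hj p hp)
      have h3 : (0 : ℤ) ≤ s j := Int.natCast_nonneg _
      nlinarith [mul_le_mul_of_nonneg_left h2 h3]
  · rw [pair_inr]
    have h1 := hF f hf
    have h3 : ∑ p ∈ 𝒩ᶜ, ∑ i, -c i * w (f p) i = - ∑ p ∈ 𝒩ᶜ, ∑ i, c i * w (f p) i := by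
      rw [← Finset.sum_neg_distrib]
      exact Finset.sum_congr rfl fun p _ => neg_dot _ _
    simp only [mT]
    rw [h3]
    linarith

/-- On a trivial page, `c.w ≤ b`. -/
theorem triv_le (htriv : ∀ p, p ∉ 𝒩 → Triv q pg s κ p) {r : ℕ} {b : P → ℤ} {c : Fin k → ℤ}
    (hS : Sol q r pg s w κ b c) {p : P} (hp : p ∉ 𝒩) {j : ι} (hj : pg j = some p) :
    ∑ i, c i * w j i ≤ b p := by
  obtain ⟨h1, h2⟩ := htriv p hp j hj
  have h := hS.2 j
  unfold fval at h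
  simp only [hj, Option.elim] at h
  rw [h1, h2] at h
  push_cast at h
  linarith

/-- The functionals of the merged problem. -/
def IsLs (q : ℕ) (𝒩 : Finset P) (g : P → ℤ) : Prop := (∀ p, g p ≤ q) ∧ (q : ℤ) ≤ ∑ p ∈ 𝒩, g p

/-- The two kinds of functionals. -/
def gs (q : ℕ) : P → ℤ := fun _ => q

def gp (q : ℕ) (𝒩 : Finset P) (p₁ : P) : P → ℤ :=
  fun p => if p = p₁ then (q : ℤ) - q * ((𝒩.card : ℤ) - 1) else q

theorem isLs_gs (hn : 𝒩.Nonempty) : IsLs q 𝒩 (gs q) := by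
  refine ⟨fun p => le_rfl, ?_⟩
  unfold gs
  rw [Finset.sum_const, nsmul_eq_mul]
  have h1 : (1 : ℤ) ≤ 𝒩.card := by exact_mod_cast hn.card_pos
  have h2 : (0 : ℤ) ≤ q := Int.natCast_nonneg _
  nlinarith

theorem sum_gp {p₁ : P} (hp : p₁ ∈ 𝒩) : ∑ p ∈ 𝒩, gp q 𝒩 p₁ p = q := by
  unfold gp
  rw [← Finset.add_sum_erase _ _ hp, if_pos rfl]
  have h : ∑ x ∈ 𝒩.erase p₁, (if x = p₁ then (q : ℤ) - q * ((𝒩.card : ℤ) - 1) else (q : ℤ)) =
      ∑ x ∈ 𝒩.erase p₁, (q : ℤ) :=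
    Finset.sum_congr rfl fun x hx => if_neg (Finset.ne_of_mem_erase hx)
  rw [h, Finset.sum_const, Finset.card_erase_of_mem hp, nsmul_eq_mul]
  have h1 : 1 ≤ 𝒩.card := Finset.card_pos.2 ⟨_, hp⟩
  push_cast [Nat.cast_sub h1]
  ring

theorem isLs_gp {p₁ : P} (hp : p₁ ∈ 𝒩) : IsLs q 𝒩 (gp q 𝒩 p₁) := by
  refine ⟨fun p => ?_, (sum_gp hp).ge⟩
  unfold gp
  split_ifs
  · have h1 : (1 : ℤ) ≤ 𝒩.card := by exact_mod_cast Finset.card_pos.2 ⟨_, hp⟩
    have h2 : (0 : ℤ) ≤ q := Int.natCast_nonneg _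
    nlinarith
  · exact le_rfl

theorem ls_le {g : P → ℤ} (hg : IsLs q 𝒩 g) (j) :
    ∑ x, fn 𝒩 g (0 : Fin k → ℤ) x * mv 𝒩 pg s w j x ≤
      mT q 𝒩 pg s κ j + (mκ q 𝒩 pg κ j : ℕ) := by
  rcases j with ⟨j, hj⟩ | ⟨f, hf⟩
  · rw [pair_inl]
    rcases hp : pg j with _ | p
    · simp [mT, mκ, hp]
    · simp only [mT, mκ, hp, Option.elim]
      have h2 := hg.1 p
      have h3 : (0 : ℤ) ≤ s j := Int.natCast_nonneg _
      have := mul_le_mul_of_nonneg_left h2 h3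
      simp only [Pi.zero_apply, zero_mul, Finset.sum_const_zero, add_zero]
      linarith
  · rw [pair_inr]
    have h2 := hg.2
    simp only [mT, mκ, Pi.zero_apply, zero_mul, Finset.sum_const_zero, add_zero]
    linarith

/-- The value of a functional on a positive combination of the rays. -/
theorem val_eq [Fintype (RJ 𝒩 pg)] [Fintype (RF 𝒩 pg)] (c : RJ 𝒩 pg ⊕ RF 𝒩 pg → ℝ)
    (c₁ : ι → ℝ) (cf : (P → ι) → ℝ)
    (h1 : ∀ G : ι → ℝ, ∑ j : RJ 𝒩 pg, c (Sum.inl j) * G j.1 = ∑ j, c₁ j * G j)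
    (h2 : ∀ G : (P → ι) → ℝ, ∑ f : RF 𝒩 pg, c (Sum.inr f) * G f.1 = ∑ f, cf f * G f)
    (g : P → ℤ) :
    ∑ j, c j * (((∑ x, fn 𝒩 g (0 : Fin k → ℤ) x * mv 𝒩 pg s w j x : ℤ) : ℝ) -
      mT q 𝒩 pg s κ j) =
    ∑ j, c₁ j * (κ j : ℝ) -
      ∑ p, ((q : ℝ) - g p) * psum pg s c₁ p + (2 * q - ∑ p ∈ 𝒩, (g p : ℝ)) * ∑ f, cf f := by
  rw [Fintype.sum_sum_type]
  have e1 : ∑ j : RJ 𝒩 pg, c (Sum.inl j) *
      (((∑ x, fn 𝒩 g (0 : Fin k → ℤ) x * mv 𝒩 pg s w (Sum.inl j) x : ℤ) : ℝ) -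
      mT q 𝒩 pg s κ (Sum.inl j)) = ∑ j, c₁ j *
        ((κ j : ℝ) - (pg j).elim 0 (fun p => (s j : ℝ) * (q - g p))) := by
    rw [← h1 (fun j => (κ j : ℝ) - (pg j).elim 0 (fun p => (s j : ℝ) * (q - g p)))]
    refine Finset.sum_congr rfl fun j _ => ?_
    congr 1
    rw [pair_inl]
    simp only [mT, Pi.zero_apply, zero_mul, Finset.sum_const_zero, add_zero]
    rcases hp : pg j.1 with _ | p
    · simp
    · simp
      ring
  have e2 : ∑ f : RF 𝒩 pg, c (Sum.inr f) *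
      (((∑ x, fn 𝒩 g (0 : Fin k → ℤ) x * mv 𝒩 pg s w (Sum.inr f) x : ℤ) : ℝ) -
      mT q 𝒩 pg s κ (Sum.inr f)) = (2 * q - ∑ p ∈ 𝒩, (g p : ℝ)) * ∑ f, cf f := by
    have := h2 (fun _ => (2 * q - ∑ p ∈ 𝒩, (g p : ℝ)))
    rw [Finset.mul_sum]
    rw [show ∑ f, (2 * q - ∑ p ∈ 𝒩, (g p : ℝ)) * cf f = ∑ f, cf f *
      (2 * q - ∑ p ∈ 𝒩, (g p : ℝ)) from Finset.sum_congr rfl fun _ _ => mul_comm _ _, ← this]
    refine Finset.sum_congr rfl fun f _ => ?_
    congr 1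
    rw [pair_inr]
    simp only [mT, Pi.zero_apply, zero_mul, Finset.sum_const_zero, add_zero]
    push_cast
    ring
  rw [e1, e2]
  congr 1
  have e3 : ∑ p, ((q : ℝ) - g p) * psum pg s c₁ p =
      ∑ j, c₁ j * (pg j).elim 0 (fun p => (s j : ℝ) * (q - g p)) := by
    unfold psum
    simp only [Finset.mul_sum]
    rw [Finset.sum_comm]
    refine Finset.sum_congr rfl fun j _ => ?_
    rcases hp : pg j with _ | p0
    · simp
    · rw [Finset.sum_eq_single p0]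
      · simp
        ring
      · intro p _ hne
        have : ¬ (some p0 = some p) := fun h => hne (Option.some.inj h).symm
        rw [if_neg this, mul_zero]
      · intro h
        exact absurd (Finset.mem_univ _) h
  rw [e3, ← Finset.sum_sub_distrib]
  exact Finset.sum_congr rfl fun j _ => by ring

theorem sum_ext_sub' {α : Type} [Fintype α] (p : α → Prop) [inst : Fintype {a // p a}]
    (c : {a // p a} → ℝ) : ∃ c₁ : α → ℝ, (∀ a (h : p a), c₁ a = c ⟨a, h⟩) ∧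
      (∀ a, ¬ p a → c₁ a = 0) ∧ ∀ G : α → ℝ, ∑ a : {a // p a}, c a * G a.1 = ∑ a, c₁ a * G a := by
  classical
  have h0 : inst = Subtype.fintype _ := Subsingleton.elim _ _
  subst h0
  exact ⟨fun a => if h : p a then c ⟨a, h⟩ else 0, fun a h => dif_pos h, fun a h => dif_neg h,
    fun G => sum_ext_sub p c G⟩

/-- The lower bound for the merged problem. -/
theorem hyp (hM : MergeIneq) (hB : IsBook q δ pg s w κ) (hne : ∀ p, ∃ j, pg j = some p)
    (hMC : MergeCond q pg s w κ 𝒩) (hn : 𝒩.Nonempty)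
    [Fintype (RJ 𝒩 pg)] [Fintype (RF 𝒩 pg)] (c : RJ 𝒩 pg ⊕ RF 𝒩 pg → ℝ) (hc : ∀ j, 0 ≤ c j)
    (b : ({p // p ∈ 𝒩} ⊕ Fin k) → ℤ) (hb : b ≠ 0)
    (hbe : ∀ x, (b x : ℝ) = ∑ j, c j * mv 𝒩 pg s w j x) :
    ∃ g : P → ℤ, (g = gs q ∨ ∃ p₁ ∈ 𝒩, g = gp q 𝒩 p₁) ∧
      min δ (1 / 2) ≤ ∑ j, c j *
        (((∑ x, fn 𝒩 g (0 : Fin k → ℤ) x * mv 𝒩 pg s w j x : ℤ) : ℝ) - mT q 𝒩 pg s κ j) := by
  classical
  obtain ⟨c₁, hc1, hc1', h1⟩ := sum_ext_sub' (fun j : ι => ∀ p, pg j = some p → p ∈ 𝒩)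
    (fun j => c (Sum.inl j))
  obtain ⟨cf, hcf, hcf', h2⟩ := sum_ext_sub' (fun f : P → ι => Ch 𝒩 pg f)
    (fun j => c (Sum.inr j))
  obtain ⟨η, b', rfl⟩ := fn_surj 𝒩 b
  have hc1n : ∀ j, 0 ≤ c₁ j := fun j => by
    by_cases h : ∀ p, pg j = some p → p ∈ 𝒩
    · rw [hc1 j h]; exact hc _
    · rw [hc1' j h]
  have hcfn : ∀ j, 0 ≤ cf j := fun j => by
    by_cases h : Ch 𝒩 pg j
    · rw [hcf j h]; exact hc _
    · rw [hcf' j h]
  have hη : ∀ p ∈ 𝒩, (η p : ℝ) = psum pg s c₁ p - ∑ f, cf f := by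
    intro p hp
    have h := hbe (Sum.inl ⟨p, hp⟩)
    rw [Fintype.sum_sum_type] at h
    simp only [fn, Sum.elim_inl, mv] at h
    rw [h]
    have h3 := h1 (fun j => ((if pg j = some p then (s j : ℤ) else 0 : ℤ) : ℝ))
    have h4 := h2 (fun _ => -1)
    have h5 : ∑ j, c₁ j * ((if pg j = some p then (s j : ℤ) else 0 : ℤ) : ℝ) =
        psum pg s c₁ p := by
      unfold psum
      refine Finset.sum_congr rfl fun j _ => ?_
      split_ifs
      · simp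
      · simp
    rw [h5] at h3
    rw [h3]
    have h6 : ∑ f, cf f * (-1 : ℝ) = - ∑ f, cf f := by
      rw [← Finset.sum_neg_distrib]
      exact Finset.sum_congr rfl fun _ _ => by ring
    rw [h6] at h4
    push_cast
    rw [h4]
    ring
  have hb' : ∀ i, (b' i : ℝ) = ∑ j, c₁ j * (w j i : ℝ) +
      ∑ f, cf f * ∑ p ∈ 𝒩ᶜ, (w (f p) i : ℝ) := by
    intro i
    have h := hbe (Sum.inr i)
    rw [Fintype.sum_sum_type] at h
    simp only [fn, Sum.elim_inr, mv] at h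
    rw [h, h1 (fun j => (w j i : ℝ))]
    congr 1
    rw [← h2 (fun f => ∑ p ∈ 𝒩ᶜ, (w (f p) i : ℝ))]
    refine Finset.sum_congr rfl fun f _ => ?_
    push_cast
    rfl
  have hne' : b' ≠ 0 ∨ ∃ p ∈ 𝒩, η p ≠ 0 := by
    by_contra hcon
    push Not at hcon
    apply hb
    funext x
    rcases x with ⟨p, hp⟩ | i
    · exact hcon.2 p hp
    · exact congrFun hcon.1 i
  have key := hM P ι k q δ pg s w κ hB hne 𝒩 hMC c₁ cf hc1n hcfn
    (fun j p hj hp => hc1' j fun h => hp (h p hj)) (fun f hf => hcf' f hf) η b' hη hb' hne'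
  obtain ⟨p₁, hp₁, hmin⟩ := Finset.exists_min_image 𝒩 (psum pg s c₁) hn
  rcases le_total (∑ f, cf f) (psum pg s c₁ p₁) with hle | hle
  · refine ⟨gs q, Or.inl rfl, ?_⟩
    rw [val_eq c c₁ cf h1 h2]
    have := key (∑ f, cf f) le_rfl (fun p hp => hle.trans (hmin p hp)) (Or.inl rfl)
    have h3 : ∑ p, ((q : ℝ) - (gs q p : ℤ)) * psum pg s c₁ p = 0 :=
      Finset.sum_eq_zero fun p _ => by simp [gs]
    have h4 : ∑ p ∈ 𝒩, ((gs q p : ℤ) : ℝ) = 𝒩.card * q := by simp [gs]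
    rw [h3, h4]
    linarith
  · refine ⟨gp q 𝒩 p₁, Or.inr ⟨p₁, hp₁, rfl⟩, ?_⟩
    rw [val_eq c c₁ cf h1 h2]
    have := key (psum pg s c₁ p₁) hle hmin (Or.inr ⟨p₁, hp₁, rfl⟩)
    have h3 : ∑ p, ((q : ℝ) - (gp q 𝒩 p₁ p : ℤ)) * psum pg s c₁ p =
        q * ((𝒩.card : ℝ) - 1) * psum pg s c₁ p₁ := by
      rw [Finset.sum_eq_single p₁]
      · simp [gp]
      · intro p _ hne
        simp [gp, hne]
      · intro h
        exact absurd (Finset.mem_univ _) h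
    have h4 : ∑ p ∈ 𝒩, ((gp q 𝒩 p₁ p : ℤ) : ℝ) = q := by
      rw [← Int.cast_sum, sum_gp hp₁]
      simp
    rw [h3, h4]
    linarith

theorem sum_ind {p₀ : P} {σ : ℤ} (h : p₀ ∈ 𝒩 ∨ σ = 0) (e : P → ℤ) :
    ∑ p ∈ 𝒩, e p * (if p = p₀ then σ else 0) = σ * e p₀ := by
  rcases h with h | h
  · rw [Finset.sum_eq_single_of_mem p₀ h]
    · rw [if_pos rfl, mul_comm]
    · intro p _ hne
      rw [if_neg hne, mul_zero]
  · subst h
    simp

theorem sum_compl {p₀ : P} (hp : p₀ ∉ 𝒩) (F : P → ℤ) :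
    ∑ p ∈ 𝒩ᶜ, F p = F p₀ + ∑ p ∈ 𝒩ᶜ.erase p₀, F p :=
  (Finset.add_sum_erase _ _ (Finset.mem_compl.2 hp)).symm

end R7

open R7 in
theorem r7 (h : PointDoi) (h' : MergeIneq) : CaseM := by
  classical
  intro n k q δ hδ
  obtain ⟨k₀, hk0, H⟩ := h (n + k) q (min δ (1 / 2)) (lt_min hδ (by norm_num))
  refine ⟨k₀, hk0, ?_⟩
  intro P ι _ _ _ pg s w κ hB hR hne 𝒩 hMC hcard K hK hK0 p₀ σ a hσ hin
  have htriv := hMC.1
  have hn : 𝒩.Nonempty := by
    rw [← Finset.card_pos]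
    rcases hMC.2 with h1 | ⟨-, h1 | h1⟩
    · omega
    · omega
    · omega
  set Ls : Finset (({p // p ∈ 𝒩} ⊕ Fin k) → ℤ) :=
    insert (fn 𝒩 (gs q) 0) (𝒩.image fun p₁ => fn 𝒩 (gp q 𝒩 p₁) 0) with hLsdef
  have hLs : ∀ ℓ ∈ Ls, ∃ g, ℓ = fn 𝒩 g (0 : Fin k → ℤ) ∧ IsLs q 𝒩 g := by
    intro ℓ hℓ
    rcases Finset.mem_insert.1 hℓ with rfl | hℓ
    · exact ⟨_, rfl, isLs_gs hn⟩
    · obtain ⟨p₁, hp₁, rfl⟩ := Finset.mem_image.1 hℓ
      exact ⟨_, rfl, isLs_gp hp₁⟩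
  have H' := H ({p // p ∈ 𝒩} ⊕ Fin k) (RJ 𝒩 pg ⊕ RF 𝒩 pg) (by simp [hcard])
    (mv 𝒩 pg s w) Ls (mT q 𝒩 pg s κ) (mκ q 𝒩 pg κ)
    (by
      rintro (j | f)
      · exact hB.κq _
      · exact le_rfl)
    (by
      intro ℓ hℓ j
      obtain ⟨g, rfl, hg⟩ := hLs ℓ hℓ
      exact ls_le hg j)
    (by
      intro c hc b hb hbe
      obtain ⟨g, hg, hle⟩ := hyp h' hB hne hMC hn c hc b hb hbe
      refine ⟨fn 𝒩 g 0, ?_, hle⟩
      rcases hg with rfl | ⟨p₁, hp₁, rfl⟩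
      · exact Finset.mem_insert_self _ _
      · exact Finset.mem_insert_of_mem (Finset.mem_image_of_mem _ hp₁))
    K hK hK0
  obtain ⟨r, b, c, hr, hS, ht⟩ := hR p₀ σ a hσ hin
  unfold tval at ht
  by_cases hcase : p₀ ∈ 𝒩 ∨ (σ : ℤ) = 0
  · have ha' : fn 𝒩 (fun p => if p = p₀ then (σ : ℤ) else 0) a ≠ 0 := by
      intro h0
      rcases hcase with hp | h1
      · rcases hσ with h2 | h2
        · have := congrFun h0 (Sum.inl ⟨p₀, hp⟩)
          simp [fn] at this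
          exact h2 this
        · apply h2
          funext i
          exact congrFun h0 (Sum.inr i)
      · rcases hσ with h2 | h2
        · exact h2 (by exact_mod_cast h1)
        · apply h2
          funext i
          exact congrFun h0 (Sum.inr i)
    have hF : ∀ f, Ch 𝒩 pg f → ∑ p ∈ 𝒩, b p + ∑ p ∈ 𝒩ᶜ, ∑ i, c i * w (f p) i ≤ 2 * q * r := by
      intro f hf
      have h1 := hS.1
      rw [← Finset.sum_add_sum_compl 𝒩] at h1
      have h2 : ∑ p ∈ 𝒩ᶜ, ∑ i, c i * w (f p) i ≤ ∑ p ∈ 𝒩ᶜ, b p :=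
        Finset.sum_le_sum fun p hp => triv_le htriv hS (Finset.mem_compl.1 hp)
          (hf p (Finset.mem_compl.1 hp))
      linarith
    obtain ⟨Y, hY, ℓ, hℓ, hlt⟩ := H' (fn 𝒩 (fun p => if p = p₀ then (σ : ℤ) else 0) a) ha'
      (by
        intro v hv
        obtain ⟨e, c', rfl⟩ := fn_surj 𝒩 v
        obtain ⟨e', g', hg', he1, he2, hsum, hnon⟩ := dual_ext hne htriv e c'
          (fun j => (hv j).trans_eq (Finset.sum_congr rfl fun _ _ => mul_comm _ _))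
        have h3 := hin e' c' hsum hnon
        have h4 : ∑ x, fn 𝒩 (fun p => if p = p₀ then (σ : ℤ) else 0) a x * fn 𝒩 e c' x =
            ∑ x, fn 𝒩 e c' x * fn 𝒩 (fun p => if p = p₀ then (σ : ℤ) else 0) a x :=
          Finset.sum_congr rfl fun _ _ => mul_comm _ _
        rw [h4, pair_fn, sum_ind hcase]
        have h5 : (σ : ℤ) * e' p₀ = σ * e p₀ := by
          rcases hcase with hp | h1
          · rw [he1 p₀ hp]
          · rw [h1, zero_mul, zero_mul]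
        rw [← h5]
        exact h3)
      ⟨r, fn 𝒩 b (fun i => -c i), fwd htriv r b c hS b (fun _ _ => le_rfl) hF, fn 𝒩 (gs q) 0,
        Finset.mem_insert_self _ _, by
          rw [pair_fn, pair_fn, sum_ind hcase, sum_ind hcase, neg_dot]
          simp only [gs, Pi.zero_apply, zero_mul, Finset.sum_const_zero, add_zero]
          linarith⟩
    obtain ⟨e, u, rfl⟩ := fn_surj 𝒩 Y
    obtain ⟨g, rfl, hg⟩ := hLs ℓ hℓ
    obtain ⟨b', hb', hS', hle'⟩ := back hne htriv K e u hY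
    refine ⟨b', fun i => -u i, hS', ?_⟩
    unfold tval
    rw [pair_fn, pair_fn, sum_ind hcase, sum_ind hcase] at hlt
    simp only [Pi.zero_apply, zero_mul, Finset.sum_const_zero, add_zero] at hlt
    rw [neg_dot]
    have h5 : (σ : ℤ) * b' p₀ = σ * e p₀ := by
      rcases hcase with hp | h1
      · rw [hb' p₀ hp]
      · rw [h1, zero_mul, zero_mul]
    have h6 : (K : ℤ) * (σ * g p₀) ≤ K * (σ * q) :=
      mul_le_mul_of_nonneg_left (mul_le_mul_of_nonneg_left (hg.1 p₀) (Int.natCast_nonneg _))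
        (Int.natCast_nonneg _)
    nlinarith
  · push Not at hcase
    obtain ⟨hp₀, hσ0⟩ := hcase
    have hσn : (0 : ℤ) ≤ σ := Int.natCast_nonneg _
    obtain ⟨p₁, hp₁⟩ := hn
    obtain ⟨g, hg, hmax⟩ := exists_max hne (fun j => ∑ i, c i * w j i)
    set S := 𝒩ᶜ.erase p₀ with hSdef
    have hSmem : ∀ p ∈ S, p ∉ 𝒩 := fun p hp =>
      Finset.mem_compl.1 (Finset.mem_of_mem_erase hp)
    set W : Fin k → ℤ := fun i => a i + σ * ∑ p ∈ S, w (g p) i with hW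
    have ha' : fn 𝒩 (fun _ => -(σ : ℤ)) W ≠ 0 := by
      intro h0
      have := congrFun h0 (Sum.inl ⟨p₁, hp₁⟩)
      simp [fn] at this
      exact hσ0 (by exact_mod_cast this)
    set t : ℤ := 2 * q * r - ∑ p ∈ 𝒩, b p - ∑ p ∈ S, ∑ i, c i * w (g p) i - b p₀ with htdef
    have ht0 : 0 ≤ t := by
      have h1 := hS.1
      rw [← Finset.sum_add_sum_compl 𝒩, sum_compl hp₀] at h1
      have h2 : ∑ p ∈ S, ∑ i, c i * w (g p) i ≤ ∑ p ∈ S, b p :=
        Finset.sum_le_sum fun p hp => triv_le htriv hS (hSmem p hp) (hg p)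
      linarith
    have hsume : ∑ p ∈ 𝒩, (if p = p₁ then b p + t else b p) = ∑ p ∈ 𝒩, b p + t := by
      rw [← Finset.add_sum_erase _ _ hp₁, if_pos rfl, ← Finset.add_sum_erase _ b hp₁]
      have : ∑ p ∈ 𝒩.erase p₁, (if p = p₁ then b p + t else b p) = ∑ p ∈ 𝒩.erase p₁, b p :=
        Finset.sum_congr rfl fun p hp => if_neg (Finset.ne_of_mem_erase hp)
      rw [this]
      ring
    have hF : ∀ f, Ch 𝒩 pg f → ∑ p ∈ 𝒩, (if p = p₁ then b p + t else b p) +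
        ∑ p ∈ 𝒩ᶜ, ∑ i, c i * w (f p) i ≤ 2 * q * r := by
      intro f hf
      rw [hsume, sum_compl hp₀]
      have h1 : ∑ i, c i * w (f p₀) i ≤ b p₀ := triv_le htriv hS hp₀ (hf p₀ hp₀)
      have h2 : ∑ p ∈ S, ∑ i, c i * w (f p) i ≤ ∑ p ∈ S, ∑ i, c i * w (g p) i :=
        Finset.sum_le_sum fun p hp => hmax p (f p) (hf p (hSmem p hp))
      linarith
    obtain ⟨Y, hY, ℓ, hℓ, hlt⟩ := H' (fn 𝒩 (fun _ => -(σ : ℤ)) W) ha'
      (by
        intro v hv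
        obtain ⟨e, c', rfl⟩ := fn_surj 𝒩 v
        have hv' : ∀ j, 0 ≤ ∑ x, fn 𝒩 e c' x * mv 𝒩 pg s w j x :=
          fun j => (hv j).trans_eq (Finset.sum_congr rfl fun _ _ => mul_comm _ _)
        obtain ⟨e', g', hg', he1, he2, hsum, hnon⟩ := dual_ext hne htriv e c' hv'
        have h3 := hin e' c' hsum hnon
        rw [he2 p₀ hp₀] at h3
        have h5 := hv' (Sum.inr ⟨fun p => if p = p₀ then g' p₀ else g p, fun p _ => by
          by_cases hpp : p = p₀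
          · subst hpp; simp only [if_true]; exact hg' _
          · simp only [hpp, if_false]; exact hg p⟩)
        rw [pair_inr, sum_compl hp₀] at h5
        have h6 : ∑ p ∈ 𝒩ᶜ.erase p₀, ∑ i, c' i * w (if p = p₀ then g' p₀ else g p) i =
            ∑ p ∈ S, ∑ i, c' i * w (g p) i :=
          Finset.sum_congr rfl fun p hp => by rw [if_neg (Finset.ne_of_mem_erase hp)]
        simp only [if_true] at h5
        rw [h6] at h5
        have h4 : ∑ x, fn 𝒩 (fun _ => -(σ : ℤ)) W x * fn 𝒩 e c' x =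
            ∑ x, fn 𝒩 e c' x * fn 𝒩 (fun _ => -(σ : ℤ)) W x :=
          Finset.sum_congr rfl fun _ _ => mul_comm _ _
        rw [h4, pair_fn, hW, dot_aux, ← Finset.sum_mul]
        nlinarith [mul_nonneg hσn h5])
      ⟨r, fn 𝒩 (fun p => if p = p₁ then b p + t else b p) (fun i => -c i),
        fwd htriv r b c hS _ (fun p _ => by
          show b p ≤ if p = p₁ then b p + t else b p
          split_ifs
          · linarith
          · exact le_rfl) hF,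
        fn 𝒩 (gp q 𝒩 p₁) 0,
        Finset.mem_insert_of_mem (Finset.mem_image_of_mem _ hp₁), by
          rw [pair_fn, pair_fn, neg_dot, hW, dot_aux, ← Finset.sum_mul, ← Finset.sum_mul, hsume,
            sum_gp hp₁]
          simp only [Pi.zero_apply, zero_mul, Finset.sum_const_zero, add_zero]
          rw [htdef]
          nlinarith⟩
    obtain ⟨e, u, rfl⟩ := fn_surj 𝒩 Y
    obtain ⟨g₁, rfl, hg₁⟩ := hLs ℓ hℓ
    obtain ⟨b', hb', hS', hle'⟩ := back hne htriv K e u hY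
    refine ⟨b', fun i => -u i, hS', ?_⟩
    unfold tval
    rw [pair_fn, pair_fn, hW, dot_aux, ← Finset.sum_mul, ← Finset.sum_mul] at hlt
    simp only [Pi.zero_apply, zero_mul, Finset.sum_const_zero, add_zero] at hlt
    rw [neg_dot]
    have h1 := hS'.1
    rw [← Finset.sum_add_sum_compl 𝒩, sum_compl hp₀] at h1
    have h2 : ∑ p ∈ 𝒩, b' p = ∑ p ∈ 𝒩, e p := Finset.sum_congr rfl hb'
    have h3 : - ∑ p ∈ S, ∑ i, u i * w (g p) i ≤ ∑ p ∈ S, b' p := by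
      rw [← Finset.sum_neg_distrib]
      refine Finset.sum_le_sum fun p hp => ?_
      rw [← neg_dot]
      exact hle' p (hSmem p hp) (g p) (hg p)
    rw [h2] at h1
    have h6 : (K : ℤ) * (σ * q) ≤ K * (σ * ∑ p ∈ 𝒩, g₁ p) :=
      mul_le_mul_of_nonneg_left (mul_le_mul_of_nonneg_left hg₁.2 hσn)
        (Int.natCast_nonneg _)
    have h7 : (σ : ℤ) * (∑ p ∈ 𝒩, e p + (b' p₀ + - ∑ p ∈ S, ∑ i, u i * w (g p) i)) ≤
        σ * (2 * q * K) := mul_le_mul_of_nonneg_left (by linarith) hσn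
    nlinarith

end Vale.Agent.P283.T647
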