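import Vale.Agent.P283.T647.Props

/-!
Row R9: some page has no rays.
-/

set_option linter.all false

namespace Vale.Agent.P283.T647

theorem exists_sum_zero {P : Type} [Fintype P] [DecidableEq P] (p₁ : P) (f : P → ℤ) :
    ∃ g : P → ℤ, (∀ p, p ≠ p₁ → g p = f p) ∧ ∑ p, g p = 0 := by
  refine ⟨Function.update f p₁ (-∑ p ∈ Finset.univ.erase p₁, f p), fun p hp => ?_, ?_⟩
  · exact Function.update_of_ne hp _ _
  · rw [← Finset.add_sum_erase _ _ (Finset.mem_univ p₁)]
    have h1 : ∑ p ∈ Finset.univ.erase p₁,
        Function.update f p₁ (-∑ p ∈ Finset.univ.erase p₁, f p) p =
        ∑ p ∈ Finset.univ.erase p₁, f p :=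
      Finset.sum_congr rfl fun p hp => Function.update_of_ne (Finset.ne_of_mem_erase hp) _ _
    rw [h1, Function.update_self]
    ring

/-- A bound for all the values of a functional at the rays. -/
def bd {ι : Type} [Fintype ι] {k : ℕ} (w : ι → Fin k → ℤ) (c : Fin k → ℤ) : ℤ :=
  ∑ j, |∑ i, c i * w j i|

theorem abs_le_bd {ι : Type} [Fintype ι] {k : ℕ} (w : ι → Fin k → ℤ) (c : Fin k → ℤ) (j : ι) :
    |∑ i, c i * w j i| ≤ bd w c :=
  Finset.single_le_sum (f := fun j => |∑ i, c i * w j i|) (fun _ _ => abs_nonneg _)
    (Finset.mem_univ j)

theorem bd_nonneg {ι : Type} [Fintype ι] {k : ℕ} (w : ι → Fin k → ℤ) (c : Fin k → ℤ) :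
    0 ≤ bd w c := Finset.sum_nonneg fun _ _ => abs_nonneg _

theorem r9 (h : PointDoi) : CaseA := by
  intro k q δ hδ
  obtain ⟨k₀, hk₀, H⟩ := h (k + 1) q δ hδ
  refine ⟨k₀, hk₀, ?_⟩
  intro P ι _ _ _ pg s w κ B hreal p₁ hp₁ K hK hK0
  have main : ∀ (p₀ : P), p₀ ≠ p₁ → ∀ (σ : ℕ) (a : Fin k → ℤ), (σ ≠ 0 ∨ a ≠ 0) →
      InBook pg s w p₀ σ a →
      ∃ (b : P → ℤ) (c : Fin k → ℤ), Sol q K pg s w κ b c ∧ 0 < tval q K b c p₀ σ a := by
    intro p₀ hp σ a hne hin
    let rel : ι → Prop := fun j => pg j = some p₀ ∨ pg j = none
    let v : ι → Option (Fin k) → ℤ := fun j x =>
      x.elim (if pg j = some p₀ then (s j : ℤ) else 0)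
        (fun i => if pg j = some p₀ ∨ pg j = none then w j i else 0)
    let T : ι → ℤ := fun j => (if pg j = some p₀ then ((q : ℤ) * s j) else 0) -
      (if pg j = some p₀ ∨ pg j = none then (κ j : ℤ) else 0)
    let κ' : ι → ℕ := fun j => if pg j = some p₀ ∨ pg j = none then κ j else 0
    let ℓ : Option (Fin k) → ℤ := fun x => x.elim (q : ℤ) (fun _ => 0)
    have hℓ : ∀ j, ∑ x, ℓ x * v j x = if pg j = some p₀ then ((q : ℤ) * s j) else 0 := by
      intro j
      rw [Fintype.sum_option]
      simp only [ℓ, v, Option.elim_none, Option.elim_some, zero_mul, Finset.sum_const_zero,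
        add_zero]
      split_ifs <;> simp
    have hY : ∀ (Y : Option (Fin k) → ℤ) j, ∑ x, Y x * v j x =
        Y none * (if pg j = some p₀ then (s j : ℤ) else 0) +
          ∑ i, Y (some i) * (if pg j = some p₀ ∨ pg j = none then w j i else 0) := by
      intro Y j
      rw [Fintype.sum_option]
      rfl
    have hcard : Fintype.card (Option (Fin k)) = k + 1 := by simp
    obtain ⟨Y, hYf, ℓ', hℓ', hYt⟩ := H (Option (Fin k)) ι hcard v {ℓ} T κ'
      (fun j => by
        show κ' j ≤ q
        simp only [κ']
        split_ifs
        · exact B.κq j
        · exact Nat.zero_le _)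
      (fun ℓ' hℓ' j => by
        rw [Finset.mem_singleton] at hℓ'
        subst hℓ'
        rw [hℓ]
        simp only [T, κ']
        split_ifs <;> simp)
      (fun c hc b hb hbc => by
        refine ⟨ℓ, Finset.mem_singleton_self _, ?_⟩
        have h1 : ∀ j, (((∑ x, ℓ x * v j x : ℤ) : ℝ) - T j) =
            if pg j = some p₀ ∨ pg j = none then (κ j : ℝ) else 0 := by
          intro j
          rw [hℓ]
          simp only [T]
          push_cast
          split_ifs <;> simp
        simp only [h1]
        -- the extension by zero
        let c' : ι → ℝ := fun j => if pg j = some p₀ ∨ pg j = none then c j else 0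
        have hc' : ∀ j, 0 ≤ c' j := by
          intro j; simp only [c']; split_ifs
          · exact hc j
          · exact le_refl _
        have hb0 : (b none : ℝ) = ∑ j, if pg j = some p₀ then c j * s j else 0 := by
          rw [hbc none]
          refine Finset.sum_congr rfl fun j _ => ?_
          simp only [v, Option.elim_none]
          split_ifs <;> simp
        have hb0' : 0 ≤ b none := by
          have : (0 : ℝ) ≤ b none := by
            rw [hb0]
            refine Finset.sum_nonneg fun j _ => ?_
            split_ifs
            · exact mul_nonneg (hc j) (Nat.cast_nonneg _)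
            · exact le_refl _
          exact_mod_cast this
        have hps : ∀ p, psum pg s c' p = 0 + if p = p₀ then ((b none).toNat : ℝ) else 0 := by
          intro p
          have hcast : ((b none).toNat : ℝ) = (b none : ℝ) := by
            have : ((b none).toNat : ℤ) = b none := Int.toNat_of_nonneg hb0'
            exact_mod_cast this
          unfold psum
          by_cases hpp : p = p₀
          · subst hpp
            rw [if_pos rfl, hcast, hb0, zero_add]
            refine Finset.sum_congr rfl fun j _ => ?_
            by_cases hj : pg j = some p
            · simp only [c', hj, true_or, if_true]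
            · simp only [hj, if_false]
          · rw [if_neg hpp, zero_add]
            refine Finset.sum_eq_zero fun j _ => ?_
            by_cases hj : pg j = some p
            · have h2 : ¬ (pg j = some p₀ ∨ pg j = none) := by
                rw [hj]; simp [hpp]
              simp only [c', h2, if_false, zero_mul, ite_self]
            · simp only [hj, if_false]
        have hlc := B.lc c' hc' p₀ 0 (b none).toNat (fun i => b (some i)) (le_refl _) hps
          (fun i => by
            rw [hbc (some i)]
            refine Finset.sum_congr rfl fun j _ => ?_
            simp only [v, Option.elim_some, c']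
            split_ifs <;> simp)
          (by
            by_contra hcon
            rw [not_or, not_not, not_not] at hcon
            apply hb
            funext x
            cases x with
            | none =>
              have : (b none).toNat = 0 := hcon.1
              show b none = 0
              omega
            | some i => exact congrFun hcon.2 i)
        refine hlc.trans (le_of_eq ?_)
        rw [mul_zero, sub_zero]
        refine Finset.sum_congr rfl fun j _ => ?_
        simp only [c']
        split_ifs <;> simp)
      K hK hK0 (fun x => x.elim (σ : ℤ) a)
      (by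
        intro h0
        rcases hne with h1 | h1
        · apply h1
          have := congrFun h0 none
          simpa using this
        · apply h1
          funext i
          exact congrFun h0 (some i))
      (fun u hu => by
        rw [Fintype.sum_option]
        simp only [Option.elim_none, Option.elim_some]
        obtain ⟨e, he, he0⟩ := exists_sum_zero p₁
          (fun p => if p = p₀ then u none else bd w (fun i => u (some i)))
        have h2 := hin e (fun i => u (some i)) he0.le (fun j => by
          have huj := hu j
          rw [Fintype.sum_option] at huj
          simp only [v, Option.elim_none, Option.elim_some] at huj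
          rcases hj : pg j with _ | p
          · simp only [hj, Option.elim_none, zero_add, reduceCtorEq, if_false, zero_mul, or_true,
              if_true] at huj ⊢
            refine huj.trans (le_of_eq (Finset.sum_congr rfl fun i _ => mul_comm _ _))
          · simp only [Option.elim_some]
            have hpne : p ≠ p₁ := fun h => hp₁ j (by rw [hj, h])
            rw [he p hpne]
            by_cases hpp : p = p₀
            · subst hpp
              simp only [hj, if_true, true_or] at huj ⊢
              refine huj.trans (le_of_eq ?_)
              congr 1
              exact Finset.sum_congr rfl fun i _ => mul_comm _ _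
            · simp only [hpp, if_false]
              have h3 := abs_le_bd w (fun i => u (some i)) j
              have h4 := neg_abs_le (∑ i, u (some i) * w j i)
              have h5 := bd_nonneg w (fun i => u (some i))
              have h6 : (1 : ℤ) ≤ s j := by exact_mod_cast B.pos j p hj
              nlinarith)
        rw [he p₀ hp, if_pos rfl] at h2
        refine h2.trans (le_of_eq ?_)
        congr 1
        exact Finset.sum_congr rfl fun i _ => mul_comm _ _)
      (by
        obtain ⟨r, b, c, hr, hsol, ht⟩ := hreal p₀ σ a hne hin
        refine ⟨r, fun x => x.elim (b p₀) (fun i => -c i), fun j => ?_, ℓ,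
          Finset.mem_singleton_self _, ?_⟩
        · rw [hY]
          simp only [Option.elim_none, Option.elim_some]
          have h1 := hsol.2 j
          unfold fval at h1
          simp only [T]
          rcases hj : pg j with _ | p
          · simp only [hj, Option.elim_none, zero_add, reduceCtorEq, if_false, or_true,
              if_true, neg_mul, Finset.sum_neg_distrib, mul_zero] at h1 ⊢
            linarith
          · by_cases hpp : p = p₀
            · subst hpp
              simp only [hj, Option.elim_some, if_true, true_or, neg_mul,
                Finset.sum_neg_distrib] at h1 ⊢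
              linarith
            · have h2 : ¬ (some p = some p₀) := fun h => hpp (Option.some.inj h)
              simp [h2]
        · rw [Fintype.sum_option, Fintype.sum_option]
          unfold tval at ht
          simp only [ℓ, Option.elim_none, Option.elim_some, neg_mul, Finset.sum_neg_distrib,
            zero_mul, Finset.sum_const_zero, add_zero]
          linarith)
    -- the solution
    rw [Finset.mem_singleton] at hℓ'
    subst hℓ'
    obtain ⟨b, hb, hb0⟩ := exists_sum_zero p₁
      (fun p => if p = p₀ then Y none else q * K + bd w (fun i => -Y (some i)))
    refine ⟨b, fun i => -Y (some i), ⟨?_, fun j => ?_⟩, ?_⟩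
    · rw [hb0]; positivity
    · have h1 := hYf j
      rw [hY] at h1
      simp only [T] at h1
      unfold fval
      rcases hj : pg j with _ | p
      · simp only [hj, Option.elim_none, zero_add, reduceCtorEq, if_false, or_true,
          if_true, neg_mul, Finset.sum_neg_distrib, mul_zero] at h1 ⊢
        linarith
      · simp only [Option.elim_some]
        have hpne : p ≠ p₁ := fun h => hp₁ j (by rw [hj, h])
        rw [hb p hpne]
        by_cases hpp : p = p₀
        · subst hpp
          simp only [hj, if_true, true_or, neg_mul, Finset.sum_neg_distrib] at h1 ⊢
          linarith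
        · simp only [hpp, if_false]
          have h3 := abs_le_bd w (fun i => -Y (some i)) j
          have h4 := le_abs_self (∑ i, (-Y (some i)) * w j i)
          have h5 := bd_nonneg w (fun i => -Y (some i))
          have h6 : (1 : ℤ) ≤ s j := by exact_mod_cast B.pos j p hj
          have h7 : (0 : ℤ) ≤ K * κ j := by positivity
          nlinarith
    · rw [Fintype.sum_option, Fintype.sum_option] at hYt
      unfold tval
      rw [hb p₀ hp, if_pos rfl]
      simp only [ℓ, Option.elim_none, Option.elim_some, neg_mul, Finset.sum_neg_distrib,
        zero_mul, Finset.sum_const_zero, add_zero] at hYt ⊢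
      linarith
  intro p₀ σ a hne hin
  by_cases hp : p₀ = p₁
  · -- the page without rays
    have hσ : σ = 0 := by
      have h1 := hin (fun p => if p = p₁ then -1 else 0) 0 (by simp) (fun j => by
        rcases hj : pg j with _ | p
        · simp
        · have hpne : p ≠ p₁ := fun h => hp₁ j (by rw [hj, h])
          simp [hpne])
      simp [hp] at h1
      omega
    have h2 := B.two
    obtain ⟨p₂, hp₂⟩ := Fintype.exists_ne_of_one_lt_card (by omega) p₁
    obtain ⟨b, c, hs, ht⟩ := main p₂ hp₂ σ a hne (by
      intro e c he hc
      have := hin e c he hc
      rw [hσ] at this ⊢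
      simpa using this)
    refine ⟨b, c, hs, ?_⟩
    unfold tval at ht ⊢
    rw [hσ] at ht ⊢
    simpa using ht
  · exact main p₀ hp σ a hne hin

end Vale.Agent.P283.T647
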