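import Vale.Agent.P283.T647.Props
import Vale.Agent.P283.Z647.Sec

/-!
Row G3: values and orders in a chart.
-/

set_option linter.all false

namespace Vale.Agent.P283.T647

open MvPolynomial Finset
open Vale.Agent.P283.H647 (cder cder_add cder_C cder_sum cder_mul_X HypData ResForm)
open Vale.Agent.P283.Z647 (IsMinZ inFormZ wtZ HomogZ AtLeastZ minWt coeff_inFormZ isMinZ_minWt
  wtZ_add wtZ_zero)

namespace G3

section Lead

variable {N : ℕ} {a : Fin N → ℤ} {m n : ℤ} {P Q G H : MvPolynomial (Fin N) ℂ}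

/-- `G` is the part of `P` of the weight `m`, and all other terms have a larger weight. -/
def Lead (a : Fin N → ℤ) (m : ℤ) (P G : MvPolynomial (Fin N) ℂ) : Prop :=
  HomogZ a G m ∧ AtLeastZ a (P - G) (m + 1)

theorem AL_add (h : AtLeastZ a P m) (h' : AtLeastZ a Q m) : AtLeastZ a (P + Q) m := by
  classical
  intro α hα
  rcases Finset.mem_union.1 (support_add hα) with h1 | h1
  · exact h α h1
  · exact h' α h1

theorem AL_mul (h : AtLeastZ a P m) (h' : AtLeastZ a Q n) : AtLeastZ a (P * Q) (m + n) := by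
  classical
  intro α hα
  obtain ⟨β, hβ, γ, hγ, rfl⟩ := Finset.mem_add.1 (support_mul P Q hα)
  rw [wtZ_add]
  exact add_le_add (h β hβ) (h' γ hγ)

theorem AL_mono (h : AtLeastZ a P m) (hn : n ≤ m) : AtLeastZ a P n :=
  fun α hα => hn.trans (h α hα)

theorem AL_zero : AtLeastZ a (0 : MvPolynomial (Fin N) ℂ) m := by
  intro α hα
  simp at hα

theorem Lead.atLeast (h : Lead a m P G) : AtLeastZ a P m := by
  have := AL_add h.1.atLeast (AL_mono h.2 (by omega : m ≤ m + 1))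
  rwa [add_sub_cancel] at this

theorem Lead.mul (h : Lead a m P G) (h' : Lead a n Q H) : Lead a (m + n) (P * Q) (G * H) := by
  refine ⟨h.1.mul h'.1, ?_⟩
  have e : P * Q - G * H = (P - G) * Q + G * (Q - H) := by ring
  rw [e]
  refine AL_add ?_ ?_
  · exact AL_mono (AL_mul h.2 h'.atLeast) (by omega)
  · exact AL_mono (AL_mul h.1.atLeast h'.2) (by omega)

theorem Lead.add (h : Lead a m P G) (h' : Lead a m Q H) : Lead a m (P + Q) (G + H) := by
  refine ⟨h.1.add h'.1, ?_⟩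
  have e : P + Q - (G + H) = (P - G) + (Q - H) := by ring
  rw [e]
  exact AL_add h.2 h'.2

theorem Lead.of_gt (h : AtLeastZ a P n) (hn : m < n) : Lead a m P 0 := by
  refine ⟨HomogZ.zero a m, ?_⟩
  rw [sub_zero]
  exact AL_mono h (by omega)

theorem Lead.of_homog (h : HomogZ a P m) : Lead a m P P := by
  refine ⟨h, ?_⟩
  rw [sub_self]
  exact AL_zero

theorem lead_C (c : ℂ) : Lead a 0 (C c) (C c) := by
  classical
  refine Lead.of_homog fun α hα => ?_
  have h1 : α = 0 := by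
    by_contra hne
    rw [mem_support_iff, MvPolynomial.coeff_C, if_neg (fun h => hne h.symm)] at hα
    exact hα rfl
  rw [h1, wtZ_zero]

theorem lead_X (j : Fin N) : Lead a (a j) (X j) (X j) := by
  classical
  refine Lead.of_homog fun α hα => ?_
  rw [support_X, Finset.mem_singleton] at hα
  subst hα
  unfold wtZ
  rw [Finset.sum_eq_single j]
  · simp
  · intro b _ hb
    rw [Finsupp.single_eq_of_ne hb]
    simp
  · intro h
    exact absurd (Finset.mem_univ j) h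

theorem Lead.pow (h : Lead a m P G) (k : ℕ) : Lead a (k * m) (P ^ k) (G ^ k) := by
  induction k with
  | zero =>
    have := lead_C (a := a) 1
    rw [map_one] at this
    simpa using this
  | succ k ih =>
    rw [pow_succ, pow_succ]
    have := ih.mul h
    have e : ((k + 1 : ℕ) : ℤ) * m = k * m + m := by push_cast; ring
    rw [e]
    exact this

theorem Lead.prod {ι : Type} (s : Finset ι) {P G : ι → MvPolynomial (Fin N) ℂ} {m : ι → ℤ}
    (h : ∀ i ∈ s, Lead a (m i) (P i) (G i)) :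
    Lead a (∑ i ∈ s, m i) (∏ i ∈ s, P i) (∏ i ∈ s, G i) := by
  classical
  induction s using Finset.induction_on with
  | empty =>
    have := lead_C (a := a) 1
    rw [map_one] at this
    simpa using this
  | insert j s hj ih =>
    rw [Finset.prod_insert hj, Finset.prod_insert hj, Finset.sum_insert hj]
    exact (h j (Finset.mem_insert_self _ _)).mul
      (ih fun i hi => h i (Finset.mem_insert_of_mem hi))

theorem Lead.sum {ι : Type} (s : Finset ι) {P G : ι → MvPolynomial (Fin N) ℂ}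
    (h : ∀ i ∈ s, Lead a m (P i) (G i)) :
    Lead a m (∑ i ∈ s, P i) (∑ i ∈ s, G i) := by
  classical
  induction s using Finset.induction_on with
  | empty =>
    rw [Finset.sum_empty, Finset.sum_empty]
    exact Lead.of_homog (HomogZ.zero a m)
  | insert j s hj ih =>
    rw [Finset.sum_insert hj, Finset.sum_insert hj]
    exact (h j (Finset.mem_insert_self _ _)).add
      (ih fun i hi => h i (Finset.mem_insert_of_mem hi))

theorem Lead.isMin (h : Lead a m P G) (hG : G ≠ 0) : IsMinZ P a m ∧ inFormZ P a = G := by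
  classical
  have hc : ∀ α, wtZ a α = m → P.coeff α = G.coeff α := by
    intro α hα
    by_contra hne
    have h1 := h.2 α (by
      rw [mem_support_iff, coeff_sub]
      exact sub_ne_zero.2 hne)
    omega
  have hc' : ∀ α, wtZ a α ≠ m → G.coeff α = 0 := by
    intro α hα
    by_contra hne
    exact hα (h.1 α (mem_support_iff.2 hne))
  have hmin : IsMinZ P a m := by
    constructor
    · obtain ⟨α, hα⟩ := support_nonempty.2 hG
      have h1 := h.1 α hα
      refine ⟨α, ?_, h1⟩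
      rw [mem_support_iff, hc α h1]
      exact mem_support_iff.1 hα
    · exact h.atLeast
  refine ⟨hmin, ?_⟩
  ext α
  rw [coeff_inFormZ hmin]
  split_ifs with hw
  · exact hc α hw
  · exact (hc' α hw).symm

end Lead

section Cder

variable {N : ℕ} {δ : Derivation ℚ ℂ ℂ} {ξ : Fin N → ℂ} {P Q : MvPolynomial (Fin N) ℂ}

theorem cder_mul : cder δ ξ (P * Q) = cder δ ξ P * eval ξ Q + eval ξ P * cder δ ξ Q := by
  unfold cder
  have h1 : ∀ i, eval ξ (pderiv i (P * Q)) * δ (ξ i) =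
      eval ξ P * (eval ξ (pderiv i Q) * δ (ξ i)) + eval ξ Q * (eval ξ (pderiv i P) * δ (ξ i)) := by
    intro i
    rw [Derivation.leibniz, smul_eq_mul, smul_eq_mul, map_add, map_mul, map_mul]
    ring
  rw [Finset.sum_congr rfl fun i _ => h1 i, Finset.sum_add_distrib, ← Finset.mul_sum,
    ← Finset.mul_sum, map_mul, Derivation.leibniz, smul_eq_mul, smul_eq_mul]
  ring

theorem cder_X (j : Fin N) : cder δ ξ (X j) = 0 := by
  have h1 := cder_mul_X δ ξ 1 j
  rw [one_mul] at h1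
  rw [h1, ← map_one C, cder_C, Derivation.map_one_eq_zero, zero_mul]

theorem cder_pow (h : cder δ ξ P = 0) (k : ℕ) : cder δ ξ (P ^ k) = 0 := by
  induction k with
  | zero => rw [pow_zero, ← map_one C, cder_C, Derivation.map_one_eq_zero]
  | succ k ih => rw [pow_succ, cder_mul, ih, h]; ring

theorem cder_prod {ι : Type} (s : Finset ι) {P : ι → MvPolynomial (Fin N) ℂ}
    (h : ∀ i ∈ s, cder δ ξ (P i) = 0) : cder δ ξ (∏ i ∈ s, P i) = 0 := by
  classical
  induction s using Finset.induction_on with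
  | empty => rw [Finset.prod_empty, ← map_one C, cder_C, Derivation.map_one_eq_zero]
  | insert j s hj ih =>
    rw [Finset.prod_insert hj, cder_mul, h j (Finset.mem_insert_self _ _),
      ih fun i hi => h i (Finset.mem_insert_of_mem hi)]
    ring

end Cder

section Main

variable {k r : ℕ}

/-- The leading part of `A_i + B_i X_0`. -/
noncomputable def gl (a : Fin (k + 2) → ℤ) (A B : Fin r → ℂ) (i : Fin r) :
    MvPolynomial (Fin (k + 2)) ℂ :=
  if a 0 = 0 then C (A i) + C (B i) * X 0 else C (A i)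

/-- The leading part of the equation. -/
noncomputable def fl (a : Fin (k + 2) → ℤ) (A B : Fin r → ℂ) : MvPolynomial (Fin (k + 2)) ℂ :=
  X 1 * ∏ i, gl a A B i + C (-1)

theorem lead_lin {a : Fin (k + 2) → ℤ} (h0 : 0 ≤ a 0) (A B : Fin r → ℂ) (i : Fin r) :
    Lead a 0 (C (A i) + C (B i) * X 0) (gl a A B i) := by
  unfold gl
  split_ifs with h
  · have h1 := (lead_C (a := a) (B i)).mul (lead_X (a := a) 0)
    rw [h, zero_add] at h1
    exact (lead_C (A i)).add h1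
  · have h1 := (lead_C (a := a) (B i)).mul (lead_X (a := a) 0)
    rw [zero_add] at h1
    have h2 := (lead_C (a := a) (A i)).add
      (Lead.of_gt (m := 0) h1.atLeast (lt_of_le_of_ne h0 (Ne.symm h)))
    rwa [add_zero] at h2

theorem lead_f {a : Fin (k + 2) → ℤ} (h0 : 0 ≤ a 0) (h1 : a 1 = 0) (A B : Fin r → ℂ) :
    Lead a 0 (chartF k A B) (fl a A B) := by
  have h2 : chartF k A B = X 1 * ∏ i, (C (A i) + C (B i) * X 0) + C (-1) := by
    unfold chartF
    rw [map_neg, map_one, sub_eq_add_neg]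
  rw [h2]
  unfold fl
  refine Lead.add ?_ (lead_C _)
  have h3 := (lead_X (a := a) 1).mul (Lead.prod (a := a) Finset.univ
    (P := fun i => (C (A i) + C (B i) * X 0 : MvPolynomial (Fin (k + 2)) ℂ))
    (G := fun i => gl a A B i) (m := fun _ => 0) (fun i _ => lead_lin h0 A B i))
  rw [h1, Finset.sum_const_zero, add_zero] at h3
  exact h3

theorem eval_fl (a : Fin (k + 2) → ℤ) (A B : Fin r → ℂ) (ξ : Fin (k + 2) → ℂ) :
    eval ξ (fl a A B) = ξ 1 * ∏ i, eval ξ (gl a A B i) - 1 := by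
  unfold fl
  rw [map_add, map_mul, eval_X, map_prod, eval_C, sub_eq_add_neg]

theorem fl_ne (a : Fin (k + 2) → ℤ) (A B : Fin r → ℂ) : fl a A B ≠ 0 := by
  intro h
  have h1 := eval_fl a A B 0
  rw [h, map_zero] at h1
  simp at h1

theorem cder_gl {δ : Derivation ℚ ℂ ℂ} {A B : Fin r → ℂ} (hA : ∀ i, δ (A i) = 0)
    (hB : ∀ i, δ (B i) = 0) (a : Fin (k + 2) → ℤ) (ξ : Fin (k + 2) → ℂ) (i : Fin r) :
    cder δ ξ (gl a A B i) = 0 := by
  unfold gl
  split_ifs
  · rw [cder_add, cder_C, hA, cder_mul, cder_C, hB, cder_X]; ring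
  · rw [cder_C, hA]

theorem cder_fl {δ : Derivation ℚ ℂ ℂ} {A B : Fin r → ℂ} (hA : ∀ i, δ (A i) = 0)
    (hB : ∀ i, δ (B i) = 0) (a : Fin (k + 2) → ℤ) (ξ : Fin (k + 2) → ℂ) :
    cder δ ξ (fl a A B) = 0 := by
  unfold fl
  rw [cder_add, cder_mul, cder_X, cder_prod _ fun i _ => cder_gl hA hB a ξ i, cder_C, map_neg,
    Derivation.map_one_eq_zero]
  ring

/-- A term multiplied by a monomial. -/
noncomputable def pe (T : ℕ) (A B : Fin r → ℂ) (e : ℤ × (Fin r → ℤ) × (Fin k → ℤ)) :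
    MvPolynomial (Fin (k + 2)) ℂ :=
  X 0 ^ (e.1 + T).toNat * (∏ i, (C (A i) + C (B i) * X 0) ^ (e.2.1 i + T).toNat) *
    ∏ l : Fin k, X l.succ.succ ^ (e.2.2 l + T).toNat

/-- The leading part of `pe`. -/
noncomputable def ge' (a : Fin (k + 2) → ℤ) (T : ℕ) (A B : Fin r → ℂ)
    (e : ℤ × (Fin r → ℤ) × (Fin k → ℤ)) : MvPolynomial (Fin (k + 2)) ℂ :=
  X 0 ^ (e.1 + T).toNat * (∏ i, gl a A B i ^ (e.2.1 i + T).toNat) *
    ∏ l : Fin k, X l.succ.succ ^ (e.2.2 l + T).toNat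

/-- The weight of `pe`. -/
def we (a : Fin (k + 2) → ℤ) (T : ℕ) (e : ℤ × (Fin r → ℤ) × (Fin k → ℤ)) : ℤ :=
  ((e.1 + T).toNat : ℤ) * a 0 + ∑ l : Fin k, ((e.2.2 l + T).toNat : ℤ) * a l.succ.succ

theorem lead_pe {a : Fin (k + 2) → ℤ} (h0 : 0 ≤ a 0) (T : ℕ) (A B : Fin r → ℂ)
    (e : ℤ × (Fin r → ℤ) × (Fin k → ℤ)) : Lead a (we a T e) (pe T A B e) (ge' a T A B e) := by
  unfold we pe ge'
  refine Lead.mul ?_ (Lead.prod _ fun l _ => (lead_X _).pow _)
  have h1 := ((lead_X (a := a) 0).pow (e.1 + T).toNat).mul (Lead.prod (a := a) Finset.univ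
    (P := fun i => (C (A i) + C (B i) * X 0 : MvPolynomial (Fin (k + 2)) ℂ) ^ (e.2.1 i + T).toNat)
    (G := fun i => gl a A B i ^ (e.2.1 i + T).toNat)
    (m := fun i => ((e.2.1 i + T).toNat : ℤ) * 0) (fun i _ => (lead_lin h0 A B i).pow _))
  simp only [mul_zero, Finset.sum_const_zero, add_zero] at h1
  exact h1

theorem cder_ge {δ : Derivation ℚ ℂ ℂ} {A B : Fin r → ℂ} (hA : ∀ i, δ (A i) = 0)
    (hB : ∀ i, δ (B i) = 0) (a : Fin (k + 2) → ℤ) (T : ℕ) (ξ : Fin (k + 2) → ℂ)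
    (e : ℤ × (Fin r → ℤ) × (Fin k → ℤ)) : cder δ ξ (ge' a T A B e) = 0 := by
  unfold ge'
  rw [cder_mul, cder_mul, cder_pow (cder_X 0), cder_prod _ fun i _ => cder_pow
    (cder_gl hA hB a ξ i) _, cder_prod _ fun l _ => cder_pow (cder_X _) _]
  ring

theorem gl_ne {A : Fin r → ℂ} (hA : ∀ i, A i ≠ 0) (B : Fin r → ℂ) (a : Fin (k + 2) → ℤ)
    (i : Fin r) : gl a A B i ≠ 0 := by
  intro h
  have h1 : eval 0 (gl a A B i) = A i := by
    unfold gl
    split_ifs <;> simp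
  rw [h, map_zero] at h1
  exact hA i h1.symm

theorem ge_ne {A : Fin r → ℂ} (hA : ∀ i, A i ≠ 0) (B : Fin r → ℂ) (a : Fin (k + 2) → ℤ) (T : ℕ)
    (e : ℤ × (Fin r → ℤ) × (Fin k → ℤ)) : ge' a T A B e ≠ 0 := by
  unfold ge'
  refine mul_ne_zero (mul_ne_zero (pow_ne_zero _ (X_ne_zero _)) ?_) ?_
  · exact Finset.prod_ne_zero_iff.2 fun i _ => pow_ne_zero _ (gl_ne hA B a i)
  · exact Finset.prod_ne_zero_iff.2 fun i _ => pow_ne_zero _ (X_ne_zero _)

/-- The polynomial. -/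
noncomputable def pS (T : ℕ) (A B : Fin r → ℂ) (Ee : Finset (ℤ × (Fin r → ℤ) × (Fin k → ℤ)))
    (lam : ℤ × (Fin r → ℤ) × (Fin k → ℤ) → ℂ) : MvPolynomial (Fin (k + 2)) ℂ :=
  ∑ e ∈ Ee, C (lam e) * pe T A B e

/-- Its leading part. -/
noncomputable def gS (a : Fin (k + 2) → ℤ) (T : ℕ) (A B : Fin r → ℂ)
    (Ee : Finset (ℤ × (Fin r → ℤ) × (Fin k → ℤ)))
    (lam : ℤ × (Fin r → ℤ) × (Fin k → ℤ) → ℂ) (e₀ : ℤ × (Fin r → ℤ) × (Fin k → ℤ)) :
    MvPolynomial (Fin (k + 2)) ℂ :=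
  ∑ e ∈ Ee, if we a T e = we a T e₀ then C (lam e) * ge' a T A B e else 0

variable {A B : Fin r → ℂ} {Ee : Finset (ℤ × (Fin r → ℤ) × (Fin k → ℤ))}
  {lam : ℤ × (Fin r → ℤ) × (Fin k → ℤ) → ℂ}

theorem lead_S {a : Fin (k + 2) → ℤ} (h0 : 0 ≤ a 0) (T : ℕ)
    {e₀ : ℤ × (Fin r → ℤ) × (Fin k → ℤ)} (hmin : ∀ e ∈ Ee, we a T e₀ ≤ we a T e) :
    Lead a (we a T e₀) (pS T A B Ee lam) (gS a T A B Ee lam e₀) := by
  unfold pS gS
  refine Lead.sum _ fun e he => ?_
  have h1 := (lead_C (a := a) (lam e)).mul (lead_pe h0 T A B e)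
  rw [zero_add] at h1
  split_ifs with h
  · rw [h] at h1
    exact h1
  · exact Lead.of_gt h1.atLeast (lt_of_le_of_ne (hmin e he) (Ne.symm h))

theorem cder_gS {a : Fin (k + 2) → ℤ} {T : ℕ} {e₀ : ℤ × (Fin r → ℤ) × (Fin k → ℤ)}
    (he₀ : e₀ ∈ Ee) {δ : Derivation ℚ ℂ ℂ} (hA : ∀ i, δ (A i) = 0) (hB : ∀ i, δ (B i) = 0)
    (h1 : δ (lam e₀) = 1) (h2 : ∀ e ∈ Ee, e ≠ e₀ → δ (lam e) = 0) (ξ : Fin (k + 2) → ℂ) :
    cder δ ξ (gS a T A B Ee lam e₀) = eval ξ (ge' a T A B e₀) := by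
  unfold gS
  rw [cder_sum, Finset.sum_eq_single_of_mem e₀ he₀]
  · rw [if_pos rfl, cder_mul, cder_C, h1, cder_ge hA hB, one_mul, mul_zero, add_zero]
  · intro e he hne
    split_ifs
    · rw [cder_mul, cder_C, h2 e he hne, cder_ge hA hB, zero_mul, mul_zero, add_zero]
    · rw [← map_zero C, cder_C, map_zero]

variable (hA0 : ∀ i, A i ≠ 0) (hlam : ∀ e₀ ∈ Ee, ∃ δ : Derivation ℚ ℂ ℂ, (∀ i, δ (A i) = 0) ∧
  (∀ i, δ (B i) = 0) ∧ δ (lam e₀) = 1 ∧ ∀ e ∈ Ee, e ≠ e₀ → δ (lam e) = 0)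

include hA0 hlam

theorem gS_ne {a : Fin (k + 2) → ℤ} {T : ℕ} {e₀ : ℤ × (Fin r → ℤ) × (Fin k → ℤ)}
    (he₀ : e₀ ∈ Ee) : gS a T A B Ee lam e₀ ≠ 0 := by
  intro h
  obtain ⟨δ, h1, h2, h3, h4⟩ := hlam e₀ he₀
  apply ge_ne hA0 B a T e₀
  apply MvPolynomial.funext
  intro ξ
  rw [← cder_gS he₀ h1 h2 h3 h4 ξ, h, ← map_zero C, cder_C, map_zero, map_zero, map_zero]

/-- General position. -/
theorem genpos {a : Fin (k + 2) → ℤ} (h0 : 0 ≤ a 0) (h1 : a 1 = 0) (T : ℕ)
    {e₀ : ℤ × (Fin r → ℤ) × (Fin k → ℤ)} (he₀ : e₀ ∈ Ee)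
    (hmin : ∀ e ∈ Ee, we a T e₀ ≤ we a T e) (ξ : Fin (k + 2) → ℂ) (hξ : ∀ j, ξ j ≠ 0)
    (hf : eval ξ (inFormZ (chartF k A B) a) = 0) (t₀ t : ℂ)
    (ht : eval ξ (inFormZ (pS T A B Ee lam) a) ≠ 0 → t = 0)
    (hrel : ∀ j, t₀ * eval ξ (pderiv j (inFormZ (chartF k A B) a)) +
      t * eval ξ (pderiv j (inFormZ (pS T A B Ee lam) a)) = 0) : t₀ = 0 ∧ t = 0 := by
  obtain ⟨δ, hδ1, hδ2, hδ3, hδ4⟩ := hlam e₀ he₀
  rw [((lead_f h0 h1 A B).isMin (fl_ne a A B)).2] at hf hrel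
  rw [((lead_S h0 T hmin).isMin (gS_ne hA0 hlam he₀)).2] at ht hrel
  have hg : ξ 1 * ∏ i, eval ξ (gl a A B i) = 1 := by
    rw [eval_fl] at hf
    linear_combination hf
  have hgi : ∏ i, eval ξ (gl a A B i) ≠ 0 := by
    intro h
    rw [h, mul_zero] at hg
    exact zero_ne_one hg
  have hge : eval ξ (ge' a T A B e₀) ≠ 0 := by
    unfold ge'
    rw [map_mul, map_mul, map_pow, eval_X, map_prod, map_prod]
    refine mul_ne_zero (mul_ne_zero (pow_ne_zero _ (hξ _)) ?_) ?_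
    · refine Finset.prod_ne_zero_iff.2 fun i _ => ?_
      rw [map_pow]
      exact pow_ne_zero _ (Finset.prod_ne_zero_iff.1 hgi i (Finset.mem_univ i))
    · refine Finset.prod_ne_zero_iff.2 fun i _ => ?_
      rw [map_pow, eval_X]
      exact pow_ne_zero _ (hξ _)
  have ht' : t = 0 := by
    by_cases hs : eval ξ (gS a T A B Ee lam e₀) = 0
    · have hdf : ∑ i, eval ξ (pderiv i (fl a A B)) * δ (ξ i) = 0 := by
        have h2 := cder_fl hδ1 hδ2 a ξ
        unfold cder at h2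
        rw [hf, map_zero, zero_sub, neg_eq_zero] at h2
        exact h2
      have hds : ∑ i, eval ξ (pderiv i (gS a T A B Ee lam e₀)) * δ (ξ i) =
          - eval ξ (ge' a T A B e₀) := by
        have h2 := cder_gS (a := a) (T := T) he₀ hδ1 hδ2 hδ3 hδ4 ξ
        unfold cder at h2
        rw [hs, map_zero, zero_sub] at h2
        rw [← h2, neg_neg]
      have hsum : ∑ j, (t₀ * eval ξ (pderiv j (fl a A B)) +
          t * eval ξ (pderiv j (gS a T A B Ee lam e₀))) * δ (ξ j) = 0 :=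
        Finset.sum_eq_zero fun j _ => by rw [hrel j, zero_mul]
      have hexp : ∑ j, (t₀ * eval ξ (pderiv j (fl a A B)) +
          t * eval ξ (pderiv j (gS a T A B Ee lam e₀))) * δ (ξ j) =
          t₀ * ∑ j, eval ξ (pderiv j (fl a A B)) * δ (ξ j) +
          t * ∑ j, eval ξ (pderiv j (gS a T A B Ee lam e₀)) * δ (ξ j) := by
        rw [Finset.mul_sum, Finset.mul_sum, ← Finset.sum_add_distrib]
        exact Finset.sum_congr rfl fun j _ => by ring
      rw [hexp, hdf, hds, mul_zero, zero_add] at hsum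
      exact (mul_eq_zero.1 hsum).resolve_right (neg_ne_zero.2 hge)
    · exact ht hs
  refine ⟨?_, ht'⟩
  have h2 := hrel 1
  rw [ht', zero_mul, add_zero] at h2
  refine (mul_eq_zero.1 h2).resolve_right ?_
  have h3 : eval ξ (pderiv 1 (fl a A B)) = ∏ i, eval ξ (gl a A B i) := by
    have h4 : ∀ i, pderiv (1 : Fin (k + 2)) (gl a A B i) = 0 := by
      intro i
      unfold gl
      have h5 : pderiv (1 : Fin (k + 2)) (X 0 : MvPolynomial (Fin (k + 2)) ℂ) = 0 := by
        rw [pderiv_X_of_ne]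
        exact Fin.zero_ne_one
      split_ifs
      · rw [map_add, pderiv_C, Derivation.leibniz, pderiv_C, h5]; simp
      · rw [pderiv_C]
    have h6 : ∀ s : Finset (Fin r), pderiv (1 : Fin (k + 2)) (∏ i ∈ s, gl a A B i) = 0 := by
      intro s
      classical
      induction s using Finset.induction_on with
      | empty => rw [Finset.prod_empty, Derivation.map_one_eq_zero]
      | insert j s hj ih =>
        rw [Finset.prod_insert hj, Derivation.leibniz, ih, h4]; simp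
    unfold fl
    rw [map_add, pderiv_C, add_zero, Derivation.leibniz, h6, pderiv_X_self]
    simp
  rw [h3]
  exact hgi

end Main

theorem exists_shift {k r : ℕ} (Ee : Finset (ℤ × (Fin r → ℤ) × (Fin k → ℤ))) :
    ∃ T : ℕ, ∀ e ∈ Ee, 0 ≤ e.1 + T ∧ (∀ i, 0 ≤ e.2.1 i + T) ∧ ∀ l, 0 ≤ e.2.2 l + T := by
  classical
  refine ⟨∑ e ∈ Ee, (e.1.natAbs + ∑ i, (e.2.1 i).natAbs + ∑ l, (e.2.2 l).natAbs), ?_⟩
  intro e he
  have h1 : e.1.natAbs + ∑ i, (e.2.1 i).natAbs + ∑ l, (e.2.2 l).natAbs ≤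
      ∑ e ∈ Ee, (e.1.natAbs + ∑ i, (e.2.1 i).natAbs + ∑ l, (e.2.2 l).natAbs) :=
    Finset.single_le_sum (f := fun e : ℤ × (Fin r → ℤ) × (Fin k → ℤ) =>
      e.1.natAbs + ∑ i, (e.2.1 i).natAbs + ∑ l, (e.2.2 l).natAbs) (fun _ _ => Nat.zero_le _) he
  refine ⟨by omega, fun i => ?_, fun l => ?_⟩
  · have h2 := Finset.single_le_sum (f := fun i => (e.2.1 i).natAbs) (fun _ _ => Nat.zero_le _)
      (Finset.mem_univ i)
    omega
  · have h2 := Finset.single_le_sum (f := fun l => (e.2.2 l).natAbs) (fun _ _ => Nat.zero_le _)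
      (Finset.mem_univ l)
    omega

theorem pow_shift {L : Type} [Field L] {x : L} (hx : x ≠ 0) {n : ℤ} {T : ℕ} (h : 0 ≤ n + T) :
    x ^ (n + T).toNat = x ^ n * x ^ T := by
  have h1 : (((n + T).toNat : ℕ) : ℤ) = n + T := Int.toNat_of_nonneg h
  rw [← zpow_natCast x (n + T).toNat, h1, zpow_add₀ hx, zpow_natCast]

end G3

open G3 in
/-- G3. -/
theorem g3 (hH : ChartHyp) (hR : ChartRes) : ChartBound := by
  classical
  intro k r L _ _ x z A B hrat hA Ee lam hne hlam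
  have H := hH k r L x z A B hrat hA
  obtain ⟨T, hT⟩ := exists_shift Ee
  have hx0 : x ≠ 0 := H.x0 0
  have hz0 : ∀ l, z l ≠ 0 := fun l => H.x0 l.succ.succ
  have hQ0 : (∏ i, lin x A B i) ≠ 0 := by
    have h1 : (∏ i, lin x A B i)⁻¹ ≠ 0 := H.x0 1
    intro h
    rw [h, inv_zero] at h1
    exact h1 rfl
  have hlin : ∀ i, lin x A B i ≠ 0 := fun i => Finset.prod_ne_zero_iff.1 hQ0 i (Finset.mem_univ i)
  have hzp : (∏ l, z l) ≠ 0 := Finset.prod_ne_zero_iff.2 fun l _ => hz0 l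
  obtain ⟨e₁, he₁⟩ := hne
  have hwe0 : ∀ e : ℤ × (Fin r → ℤ) × (Fin k → ℤ), we (0 : Fin (k + 2) → ℤ) T e = 0 := by
    intro e
    unfold we
    simp
  have hS0 : pS T A B Ee lam ≠ 0 := by
    intro h
    have h1 := ((lead_S (A := A) (B := B) (lam := lam) (a := (0 : Fin (k + 2) → ℤ)) le_rfl T
      (e₀ := e₁) (fun e _ => by rw [hwe0, hwe0])).isMin (gS_ne hA hlam he₁)).1
    rw [h] at h1
    obtain ⟨⟨α, hα, -⟩, -⟩ := h1
    simp at hα
  have hSy : aeval (chartY x z A B) (pS T A B Ee lam) =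
      (∑ e ∈ Ee, algebraMap ℂ L (lam e) * term x z A B e) *
        (x ^ T * (∏ i, lin x A B i) ^ T * (∏ l, z l) ^ T) := by
    unfold pS
    rw [map_sum, Finset.sum_mul]
    refine Finset.sum_congr rfl fun e he => ?_
    obtain ⟨h1, h2, h3⟩ := hT e he
    have e0 : aeval (chartY x z A B) (X 0 : MvPolynomial (Fin (k + 2)) ℂ) = x := by
      rw [aeval_X]; rfl
    have e1 : ∀ i, aeval (chartY x z A B) (C (A i) + C (B i) * X 0 :
        MvPolynomial (Fin (k + 2)) ℂ) = lin x A B i := by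
      intro i
      rw [map_add, map_mul, e0, aeval_C, aeval_C]; rfl
    have e2 : ∀ l : Fin k, aeval (chartY x z A B) (X l.succ.succ :
        MvPolynomial (Fin (k + 2)) ℂ) = z l := by
      intro l
      rw [aeval_X]; rfl
    unfold pe term
    rw [map_mul, aeval_C, map_mul, map_mul, map_pow, e0, map_prod, map_prod]
    simp only [map_pow, e1, e2]
    rw [pow_shift hx0 h1, Finset.prod_congr rfl fun i _ => pow_shift (hlin i) (h2 i),
      Finset.prod_congr rfl fun l _ => pow_shift (hz0 l) (h3 l), Finset.prod_mul_distrib,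
      Finset.prod_mul_distrib, Finset.prod_pow, Finset.prod_pow]
    ring
  have hSne : aeval (chartY x z A B) (pS T A B Ee lam) ≠ 0 := by
    refine Z647.aeval_neZ (s := 0) (v := (Fin.elim0 : Fin 0 → Fin (k + 2) → ℤ))
      (g := (Fin.elim0 : Fin 0 → MvPolynomial (Fin (k + 2)) ℂ)) H hS0 ?_
    intro a ha ξ hξ hf t₀ t t' _ ht' hrel
    have ha0 : a = 0 := by
      obtain ⟨c, -, hc⟩ := ha
      funext j
      have := hc j
      rw [Finset.univ_eq_empty, Finset.sum_empty] at this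
      exact_mod_cast this
    subst ha0
    have h1 := genpos (A := A) (B := B) (lam := lam) hA hlam (a := (0 : Fin (k + 2) → ℤ)) le_rfl
      rfl T he₁ (fun e _ => by rw [hwe0, hwe0]) ξ hξ hf t₀ t' ht' (fun j => by
        have := hrel j
        rw [Finset.univ_eq_empty, Finset.sum_empty, add_zero] at this
        exact this)
    exact ⟨h1.1, h1.2, fun i => i.elim0⟩
  have hF0 : (∑ e ∈ Ee, algebraMap ℂ L (lam e) * term x z A B e) ≠ 0 := by
    intro h
    rw [hSy, h, zero_mul] at hSne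
    exact hSne rfl
  refine ⟨hF0, ?_⟩
  intro w hw hwx hwl D' h hjac m' hm' e₀ he₀ hmin
  have h0 : h ≠ 0 := by
    rintro rfl
    rw [zero_mul] at hjac
    exact zero_ne_one hjac
  have R := hR k r L x z A B hrat hA D' h hjac
  -- the weights
  obtain ⟨a, ha⟩ : ∃ a : Fin (k + 2) → ℤ, ∀ j, a j = ov w (chartY x z A B j) := ⟨_, fun _ => rfl⟩
  have ha0 : a 0 = ov w x := ha 0
  have hal : ∀ l : Fin k, a l.succ.succ = ov w (z l) := fun l => ha l.succ.succ
  have hQv : ov w (∏ i, lin x A B i) = 0 := by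
    rw [ov_prod _ _ fun i _ => hlin i]
    exact Finset.sum_eq_zero fun i _ => hwl i
  have ha1 : a 1 = 0 := by
    rw [ha 1]
    show ov w (∏ i, lin x A B i)⁻¹ = 0
    rw [ov_inv, hQv, neg_zero]
  have ha0' : 0 ≤ a 0 := by rw [ha0]; exact hwx
  have hweq : ∀ e ∈ Ee, we a T e = twt w x z e + T * (ov w x + ∑ l, ov w (z l)) := by
    intro e he
    obtain ⟨h1, h2, h3⟩ := hT e he
    unfold we twt
    rw [Int.toNat_of_nonneg h1, ha0]
    have h4 : ∑ l : Fin k, (((e.2.2 l + T).toNat : ℕ) : ℤ) * a l.succ.succ =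
        ∑ l, e.2.2 l * ov w (z l) + T * ∑ l, ov w (z l) := by
      rw [Finset.mul_sum, ← Finset.sum_add_distrib]
      refine Finset.sum_congr rfl fun l _ => ?_
      rw [Int.toNat_of_nonneg (h3 l), hal]
      ring
    rw [h4]
    ring
  have hmin' : ∀ e ∈ Ee, we a T e₀ ≤ we a T e := by
    intro e he
    rw [hweq e he, hweq e₀ he₀]
    have := hmin e he
    linarith
  have hb : ∀ j, w (chartY x z A B j) = (a j : WithTop ℤ) := by
    intro j
    rw [ha j, coe_ov w (H.x0 j)]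
  have key := Z647.X_bound_aux (s := 0) H R (fun _ => pS T A B Ee lam) (fun _ => hS0)
    (fun _ => hSne) a (by
      intro ξ hξ hf t₀ t ht hrel
      have h1 := genpos (A := A) (B := B) (lam := lam) hA hlam ha0' ha1 T he₀ hmin' ξ hξ hf t₀
        (t none) (ht none) (fun j => by
          have := hrel j
          rw [Fintype.sum_option, Finset.univ_eq_empty, Finset.sum_empty, add_zero] at this
          exact this)
      refine ⟨h1.1, ?_⟩
      rintro (_ | i)
      · exact h1.2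
      · exact i.elim0)
    hw hb hm'
  rw [Fintype.sum_option, Fin.sum_univ_zero, add_zero] at key
  have hmf : minWt (chartF k A B) a = 0 :=
    (isMinZ_minWt H.f0 a).unique ((lead_f ha0' ha1 A B).isMin (fl_ne a A B)).1
  have hms : minWt (pS T A B Ee lam) a = we a T e₀ :=
    (isMinZ_minWt hS0 a).unique ((lead_S ha0' T hmin').isMin (gS_ne hA hlam he₀)).1
  have hsa : ∑ j, a j = ov w x + ∑ l, ov w (z l) := by
    rw [Fin.sum_univ_succ, Fin.sum_univ_succ, ha0]
    have h1 : a (Fin.succ 0) = 0 := ha1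
    rw [h1, zero_add]
    congr 1
    exact Finset.sum_congr rfl fun l _ => hal l
  have hvh : ov w (-(∏ i, lin x A B i) * h) = ov w h := by
    have h1 : -(∏ i, lin x A B i) * h = -((∏ i, lin x A B i) * h) := by ring
    have h2 : ov w (-((∏ i, lin x A B i) * h)) = ov w ((∏ i, lin x A B i) * h) := by
      unfold ov
      rw [AddValuation.map_neg]
    rw [h1, h2, ov_mul w hQ0 h0, hQv, zero_add]
  have hvS : ov w (aeval (chartY x z A B) (pS T A B Ee lam)) =
      ov w (∑ e ∈ Ee, algebraMap ℂ L (lam e) * term x z A B e) +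
        T * (ov w x + ∑ l, ov w (z l)) := by
    rw [hSy, ov_mul w hF0 (mul_ne_zero (mul_ne_zero (pow_ne_zero _ hx0) (pow_ne_zero _ hQ0))
      (pow_ne_zero _ hzp)), ov_mul w (mul_ne_zero (pow_ne_zero _ hx0) (pow_ne_zero _ hQ0))
      (pow_ne_zero _ hzp), ov_mul w (pow_ne_zero _ hx0) (pow_ne_zero _ hQ0), ov_pow w hx0,
      ov_pow w hQ0, ov_pow w hzp, hQv, ov_prod _ _ fun l _ => hz0 l]
    ring
  rw [hmf, hms, hsa, hvh, hvS, hweq e₀ he₀] at key
  linarith

end Vale.Agent.P283.T647
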