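import Vale.Agent.P283.T647.Props

/-!
The charts of the pages.
-/

set_option linter.all false

namespace Vale.Agent.P283.T647

open MvPolynomial

section Rat

variable {L : Type} [Field L] [Algebra ℂ L] {k : ℕ}

theorem gen_div {m : ℕ} {y : Fin m → L} (h : IntermediateField.adjoin ℂ (Set.range y) = ⊤)
    (g : L) : ∃ p r : MvPolynomial (Fin m) ℂ, aeval y r ≠ 0 ∧ g = aeval y p / aeval y r := by
  have hg : g ∈ IntermediateField.adjoin ℂ (Set.range y) := by rw [h]; trivial
  obtain ⟨p, r, hpr⟩ := (IntermediateField.mem_adjoin_range_iff (F := ℂ) y g).1 hg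
  by_cases hr : aeval y r = 0
  · refine ⟨0, 1, by simp, ?_⟩
    rw [hpr, hr, div_zero]; simp
  · exact ⟨p, r, hr, hpr⟩

theorem isAlg_of_gen {m : ℕ} {y : Fin m → L}
    (h : IntermediateField.adjoin ℂ (Set.range y) = ⊤) :
    Algebra.IsAlgebraic (Algebra.adjoin ℂ (Set.range y)) L := by
  constructor
  intro f
  obtain ⟨p, r, -, rfl⟩ := gen_div h f
  have h1 : ∀ p : MvPolynomial (Fin m) ℂ,
      IsAlgebraic (Algebra.adjoin ℂ (Set.range y)) (aeval y p) := by
    intro p
    have h2 : aeval y p ∈ Algebra.adjoin ℂ (Set.range y) := by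
      rw [Algebra.adjoin_range_eq_range_aeval]
      exact ⟨p, rfl⟩
    exact isAlgebraic_algebraMap (⟨aeval y p, h2⟩ : Algebra.adjoin ℂ (Set.range y))
  rw [div_eq_mul_inv]
  exact (h1 p).mul (h1 r).inv

theorem IsRat.coords {x : L} {z : Fin k → L} (h : IsRat x z) :
    IsCoords (Fin.cons x z : Fin (k + 1) → L) where
  ind := h.ind
  gen := by
    intro f
    obtain ⟨p, r, hr, hf⟩ := gen_div (y := (Fin.cons x z : Fin (k + 1) → L))
      (by rw [Fin.range_cons]; exact h.gen) f
    exact ⟨p, r, fun h0 => hr (by rw [h0, map_zero]), hf⟩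

theorem IsRat.trdeg {x : L} {z : Fin k → L} (h : IsRat x z) :
    Algebra.trdeg ℂ L = ((k + 1 : ℕ) : Cardinal) := by
  rw [h.coords.trdeg_eq, Fintype.card_fin]

theorem IsRat.of_mem {t x : L} {z : Fin k → L} (h : IsRat t z)
    (ht : t ∈ IntermediateField.adjoin ℂ (insert x (Set.range z))) : IsRat x z := by
  have hgen : IntermediateField.adjoin ℂ (insert x (Set.range z)) = ⊤ := by
    rw [eq_top_iff, ← h.gen, IntermediateField.adjoin_le_iff]
    rintro y (rfl | hy)
    · exact ht
    · exact IntermediateField.subset_adjoin ℂ _ (Set.mem_insert_of_mem _ hy)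
  refine ⟨hgen, ?_⟩
  haveI : Algebra.IsAlgebraic
      (Algebra.adjoin ℂ (Set.range (Fin.cons x z : Fin (k + 1) → L))) L :=
    isAlg_of_gen (by rw [Fin.range_cons]; exact hgen)
  have h2 := Algebra.IsAlgebraic.isTranscendenceBasis_of_le_trdeg_of_finite (R := ℂ)
    (Fin.cons x z : Fin (k + 1) → L) (by rw [h.trdeg]; simp)
  exact h2.1

theorem IsRat.ne_const {x : L} {z : Fin k → L} (h : IsRat x z) (c : ℂ) :
    x - algebraMap ℂ L c ≠ 0 := by
  intro h0
  have h1 : aeval (Fin.cons x z : Fin (k + 1) → L) (X 0 - C c) = 0 := by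
    simp only [map_sub, aeval_X, Fin.cons_zero, algHom_C]
    exact h0
  have h2 := h.ind (by rw [h1, map_zero] : aeval (Fin.cons x z : Fin (k + 1) → L) (X 0 - C c) =
    aeval (Fin.cons x z : Fin (k + 1) → L) 0)
  have h3 : (X 0 : MvPolynomial (Fin (k + 1)) ℂ) = C c := sub_eq_zero.1 h2
  have h4 := congrArg totalDegree h3
  rw [totalDegree_X, totalDegree_C] at h4
  omega

theorem IsRat.z_ne {x : L} {z : Fin k → L} (h : IsRat x z) (l : Fin k) : z l ≠ 0 := by
  have := h.coords.ne_zero l.succ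
  simpa using this

theorem jac_cons_mul {t x c : L} {z : Fin k → L} (D' : Fin (k + 1) → Derivation ℂ L L)
    (h : ∀ j, D' j x = c * D' j t) :
    Q.jac D' (Fin.cons x z) = c * Q.jac D' (Fin.cons t z) := by
  unfold Q.jac
  have h1 : (Matrix.of fun i j => D' j ((Fin.cons x z : Fin (k + 1) → L) i)) =
      Matrix.updateRow (Matrix.of fun i j => D' j ((Fin.cons t z : Fin (k + 1) → L) i)) 0
        (c • (Matrix.of fun i j => D' j ((Fin.cons t z : Fin (k + 1) → L) i)) 0) := by
    ext i j
    refine Fin.cases ?_ (fun l => ?_) i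
    · rw [Matrix.updateRow_self]
      simp [h]
    · rw [Matrix.updateRow_ne (Fin.succ_ne_zero l)]
      simp
  rw [h1, Matrix.det_updateRow_smul, Matrix.updateRow_eq_self]

end Rat

section Pages

variable {L : Type} [Field L] [Algebra ℂ L] {R k : ℕ}

/-- The multiplicities of the marks on a page. -/
def pn (p : Option (Fin (R + 1))) (j : Fin (R + 1)) : ℤ :=
  p.elim (-1) (fun i => if i = j then 1 else 0)

/-- The exponent of the Jacobian of a page. -/
def pe (p : Option (Fin (R + 1))) : ℤ := p.elim 2 (fun _ => 0)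

/-- The coordinate of a page. -/
noncomputable def px (t : L) (a : Fin (R + 1) → ℂ) (p : Option (Fin (R + 1))) : L :=
  p.elim ((t - algebraMap ℂ L (a 0))⁻¹) (fun i => t - algebraMap ℂ L (a i))

/-- The constants of a page. -/
def pA (a : Fin (R + 1) → ℂ) (p : Option (Fin (R + 1))) (j : Fin (R + 1)) : ℂ :=
  p.elim 1 (fun i => if i = j then 1 else a i - a j)

/-- The coefficients of a page. -/
def pB (a : Fin (R + 1) → ℂ) (p : Option (Fin (R + 1))) (j : Fin (R + 1)) : ℂ :=
  p.elim (a 0 - a j) (fun i => if i = j then 0 else 1)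

theorem pA_ne {a : Fin (R + 1) → ℂ} (ha : Function.Injective a) (p : Option (Fin (R + 1)))
    (j : Fin (R + 1)) : pA a p j ≠ 0 := by
  cases p with
  | none => exact one_ne_zero
  | some i =>
    show (if i = j then (1 : ℂ) else a i - a j) ≠ 0
    split_ifs with h
    · exact one_ne_zero
    · exact sub_ne_zero.2 fun h' => h (ha h')

variable {t : L} {a : Fin (R + 1) → ℂ} {z : Fin k → L}

theorem px_ne (h : IsRat t z) (p : Option (Fin (R + 1))) : px t a p ≠ 0 := by
  cases p with
  | none => exact inv_ne_zero (h.ne_const _)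
  | some i => exact h.ne_const _

theorem page_eq (h : IsRat t z) (p : Option (Fin (R + 1))) (j : Fin (R + 1)) :
    t - algebraMap ℂ L (a j) = px t a p ^ pn p j * lin (px t a p) (pA a p) (pB a p) j := by
  cases p with
  | none =>
    have h0 : t - algebraMap ℂ L (a 0) ≠ 0 := h.ne_const _
    show t - algebraMap ℂ L (a j) = ((t - algebraMap ℂ L (a 0))⁻¹) ^ (-1 : ℤ) *
      (algebraMap ℂ L 1 + algebraMap ℂ L (a 0 - a j) * (t - algebraMap ℂ L (a 0))⁻¹)
    rw [zpow_neg_one, inv_inv, map_one, map_sub]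
    field_simp
    ring
  | some i =>
    show t - algebraMap ℂ L (a j) = (t - algebraMap ℂ L (a i)) ^ (if i = j then (1 : ℤ) else 0) *
      (algebraMap ℂ L (if i = j then 1 else a i - a j) +
        algebraMap ℂ L (if i = j then 0 else 1) * (t - algebraMap ℂ L (a i)))
    split_ifs with hij
    · subst hij; simp
    · simp

theorem page_rat (h : IsRat t z) (p : Option (Fin (R + 1))) : IsRat (px t a p) z := by
  apply h.of_mem
  have h1 : px t a p ∈ IntermediateField.adjoin ℂ (insert (px t a p) (Set.range z)) :=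
    IntermediateField.subset_adjoin ℂ _ (Set.mem_insert _ _)
  cases p with
  | none =>
    have h2 := inv_mem h1
    have h3 : t = (px t a none)⁻¹ + algebraMap ℂ L (a 0) := by
      show t = ((t - algebraMap ℂ L (a 0))⁻¹)⁻¹ + algebraMap ℂ L (a 0)
      rw [inv_inv]; ring
    have h4 := add_mem h2 (IntermediateField.algebraMap_mem
      (IntermediateField.adjoin ℂ (insert (px t a none) (Set.range z))) (a 0))
    rw [← h3] at h4
    exact h4
  | some i =>
    have h3 : t = px t a (some i) + algebraMap ℂ L (a i) := by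
      show t = (t - algebraMap ℂ L (a i)) + algebraMap ℂ L (a i)
      ring
    have h4 := add_mem h1 (IntermediateField.algebraMap_mem
      (IntermediateField.adjoin ℂ (insert (px t a (some i)) (Set.range z))) (a i))
    rw [← h3] at h4
    exact h4

/-- The factor of the Jacobian of a page. -/
noncomputable def pc (t : L) (a : Fin (R + 1) → ℂ) (p : Option (Fin (R + 1))) : L :=
  p.elim (-(px t a none) ^ 2) (fun _ => 1)

theorem pc_ne (h : IsRat t z) (p : Option (Fin (R + 1))) : pc t a p ≠ 0 := by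
  cases p with
  | none => exact neg_ne_zero.2 (pow_ne_zero _ (px_ne h none))
  | some i => exact one_ne_zero

theorem D_px (D : Derivation ℂ L L) (p : Option (Fin (R + 1))) :
    D (px t a p) = pc t a p * D t := by
  cases p with
  | none =>
    show D ((t - algebraMap ℂ L (a 0))⁻¹) = -((t - algebraMap ℂ L (a 0))⁻¹) ^ 2 * D t
    rw [Derivation.leibniz_inv, map_sub, Derivation.map_algebraMap, sub_zero, smul_eq_mul]
  | some i =>
    show D (t - algebraMap ℂ L (a i)) = 1 * D t
    rw [map_sub, Derivation.map_algebraMap, sub_zero, one_mul]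

theorem ov_neg' (w : AddValuation L (WithTop ℤ)) (y : L) : ov w (-y) = ov w y := by
  unfold ov; rw [AddValuation.map_neg]

theorem ov_pc (h : IsRat t z) (w : AddValuation L (WithTop ℤ)) (p : Option (Fin (R + 1))) :
    ov w (pc t a p) = pe p * ov w (px t a p) := by
  cases p with
  | none =>
    show ov w (-(px t a none) ^ 2) = 2 * ov w (px t a none)
    rw [ov_neg', ov_pow w (px_ne h none)]; push_cast; ring
  | some i =>
    show ov w 1 = 0 * _
    rw [ov_one, zero_mul]

theorem jac_px (h : IsRat t z) {D' : Fin (k + 1) → Derivation ℂ L L} {h₀ : L}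
    (hj : h₀ * Q.jac D' (Fin.cons t z) = 1) (p : Option (Fin (R + 1))) :
    ((pc t a p)⁻¹ * h₀) * Q.jac D' (Fin.cons (px t a p) z) = 1 := by
  rw [jac_cons_mul D' (fun j => D_px (D' j) p)]
  have h1 := pc_ne (a := a) h p
  calc _ = ((pc t a p)⁻¹ * pc t a p) * (h₀ * Q.jac D' (Fin.cons t z)) := by ring
    _ = 1 := by rw [inv_mul_cancel₀ h1, hj, one_mul]

theorem ov_h (h : IsRat t z) (w : AddValuation L (WithTop ℤ)) {h₀ : L} (h0 : h₀ ≠ 0)
    (p : Option (Fin (R + 1))) :
    ov w ((pc t a p)⁻¹ * h₀) = ov w h₀ - pe p * ov w (px t a p) := by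
  rw [ov_mul w (inv_ne_zero (pc_ne h p)) h0, ov_inv, ov_pc h]; ring

theorem lin_ne (h : IsRat t z) (p : Option (Fin (R + 1))) (j : Fin (R + 1)) :
    lin (px t a p) (pA a p) (pB a p) j ≠ 0 := by
  intro h0
  have h1 := page_eq (a := a) h p j
  rw [h0, mul_zero] at h1
  exact h.ne_const _ h1

theorem ov_inl (h : IsRat t z) (w : AddValuation L (WithTop ℤ)) (p : Option (Fin (R + 1)))
    (j : Fin (R + 1)) : ov w (t - algebraMap ℂ L (a j)) =
      pn p j * ov w (px t a p) + ov w (lin (px t a p) (pA a p) (pB a p) j) := by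
  rw [page_eq (a := a) h p j, ov_mul w (zpow_ne_zero _ (px_ne h p)) (lin_ne h p j),
    ov_zpow w (px_ne h p)]

/-- The points of the pages. -/
theorem onPage_iff' {α : Fin (R + 1) ⊕ Fin k → ℤ} (h : OnPage α) :
    ∃ (p : Option (Fin (R + 1))) (σ : ℕ), ∀ j, α (Sum.inl j) = pn p j * σ := by
  rcases h with ⟨i, h1, h2⟩ | ⟨s, h1, h2⟩
  · refine ⟨some i, (α (Sum.inl i)).toNat, fun j => ?_⟩
    show α (Sum.inl j) = (if i = j then (1 : ℤ) else 0) * _
    rw [Int.toNat_of_nonneg h1]
    split_ifs with hij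
    · rw [hij, one_mul]
    · rw [zero_mul]; exact h2 j fun h => hij h.symm
  · refine ⟨none, (-s).toNat, fun j => ?_⟩
    show α (Sum.inl j) = (-1) * _
    rw [Int.toNat_of_nonneg (by omega), h2 j]; ring

theorem logDisc_page {α : Fin (R + 1) ⊕ Fin k → ℤ} {p : Option (Fin (R + 1))} {σ : ℤ}
    (hσ : 0 ≤ σ) (h : ∀ j, α (Sum.inl j) = pn p j * σ) :
    logDisc α = (1 - pe p) * σ + ∑ l, α (Sum.inr l) := by
  unfold logDisc
  rw [Fintype.sum_sum_type]
  have h1 : ∑ j, α (Sum.inl j) = (∑ j : Fin (R + 1), pn p j) * σ := by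
    rw [Finset.sum_mul]; exact Finset.sum_congr rfl fun j _ => h j
  rw [h1, h 0]
  cases p with
  | none =>
    have h2 : ∑ j : Fin (R + 1), pn (none : Option (Fin (R + 1))) j = -(R + 1) := by
      simp [pn]
    rw [h2]
    have h3 : pn (none : Option (Fin (R + 1))) 0 = -1 := rfl
    have h4 : pe (none : Option (Fin (R + 1))) = 2 := rfl
    rw [h3, h4, min_eq_right (by linarith)]; ring
  | some i =>
    have h2 : ∑ j : Fin (R + 1), pn (some i) j = 1 := by
      simp [pn]
    rw [h2]
    have h4 : pe (some i) = 0 := rfl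
    have h5 : 0 ≤ pn (some i) 0 * σ := by
      show 0 ≤ (if i = 0 then (1 : ℤ) else 0) * σ
      split_ifs <;> simp [hσ]
    rw [h4, min_eq_left h5]; ring

/-- The weights of a valuation lie on a page. -/
theorem wts_onPage (h : IsRat t z) (ha : Function.Injective a) (w : AddValuation L (WithTop ℤ))
    (hw : ∀ c : ℂ, c ≠ 0 → w (algebraMap ℂ L c) = 0) : OnPage (wts w t a z) := by
  have hne : ∀ j, t - algebraMap ℂ L (a j) ≠ 0 := fun j => h.ne_const _
  have hd : ∀ i j, i ≠ j → w ((t - algebraMap ℂ L (a i)) - (t - algebraMap ℂ L (a j))) = 0 := by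
    intro i j hij
    have h1 : (t - algebraMap ℂ L (a i)) - (t - algebraMap ℂ L (a j)) =
        algebraMap ℂ L (a j - a i) := by rw [map_sub]; ring
    rw [h1]
    exact hw _ (sub_ne_zero.2 fun h' => hij (ha h').symm)
  have key : ∀ i j, i ≠ j → min (ov w (t - algebraMap ℂ L (a i)))
      (ov w (t - algebraMap ℂ L (a j))) ≤ 0 := by
    intro i j hij
    have h1 := AddValuation.map_sub w (t - algebraMap ℂ L (a i)) (t - algebraMap ℂ L (a j))
    rw [hd i j hij, ← coe_ov w (hne i), ← coe_ov w (hne j)] at h1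
    exact_mod_cast h1
  have key2 : ∀ i j, ov w (t - algebraMap ℂ L (a i)) < 0 →
      ov w (t - algebraMap ℂ L (a j)) = ov w (t - algebraMap ℂ L (a i)) := by
    intro i j hi
    by_cases hij : i = j
    · rw [hij]
    · have h1 : t - algebraMap ℂ L (a j) = (t - algebraMap ℂ L (a i)) +
          algebraMap ℂ L (a i - a j) := by rw [map_sub]; ring
      have h2 : w (algebraMap ℂ L (a i - a j)) = 0 := hw _ (sub_ne_zero.2 fun h' => hij (ha h'))
      have h3 : w (t - algebraMap ℂ L (a i)) < w (algebraMap ℂ L (a i - a j)) := by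
        rw [h2, ← coe_ov w (hne i)]
        exact_mod_cast hi
      have h4 : w (t - algebraMap ℂ L (a j)) = w (t - algebraMap ℂ L (a i)) := by
        rw [h1]; exact AddValuation.map_add_eq_of_lt_left w h3
      unfold ov; rw [h4]
  have hwt : ∀ j, wts w t a z (Sum.inl j) = ov w (t - algebraMap ℂ L (a j)) := fun j => rfl
  by_cases h1 : ∃ i, ov w (t - algebraMap ℂ L (a i)) < 0
  · obtain ⟨i, hi⟩ := h1
    exact Or.inr ⟨_, hi.le, fun j => by rw [hwt]; exact key2 i j hi⟩
  · push Not at h1
    by_cases h2 : ∃ i, 0 < ov w (t - algebraMap ℂ L (a i))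
    · obtain ⟨i, hi⟩ := h2
      refine Or.inl ⟨i, hi.le, fun j hj => ?_⟩
      rw [hwt]
      have h3 := key i j fun h => hj h.symm
      have h4 := h1 j
      rcases min_le_iff.1 h3 with h5 | h5 <;> omega
    · push Not at h2
      refine Or.inl ⟨0, h1 0, fun j _ => ?_⟩
      rw [hwt]
      exact le_antisymm (h2 j) (h1 j)

/-- The page of a valuation. -/
theorem exists_page (h : IsRat t z) (ha : Function.Injective a) (w : AddValuation L (WithTop ℤ))
    (hw : ∀ c : ℂ, c ≠ 0 → w (algebraMap ℂ L c) = 0) : ∃ p : Option (Fin (R + 1)),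
      0 ≤ ov w (px t a p) ∧ (∀ j, ov w (lin (px t a p) (pA a p) (pB a p) j) = 0) ∧
      (∀ j, wts w t a z (Sum.inl j) = pn p j * ov w (px t a p)) ∧
      logDisc (wts w t a z) = (1 - pe p) * ov w (px t a p) + ∑ l, ov w (z l) := by
  obtain ⟨p, σ, hp⟩ := onPage_iff' (wts_onPage h ha w hw)
  have hwt : ∀ j, wts w t a z (Sum.inl j) = ov w (t - algebraMap ℂ L (a j)) := fun j => rfl
  have hx : ov w (px t a p) = σ := by
    cases p with
    | none =>
      have h1 := hp 0
      rw [hwt] at h1
      show ov w ((t - algebraMap ℂ L (a 0))⁻¹) = σ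
      rw [ov_inv, h1]
      show -((-1) * (σ : ℤ)) = σ
      ring
    | some i =>
      have h1 := hp i
      rw [hwt] at h1
      show ov w (t - algebraMap ℂ L (a i)) = σ
      rw [h1]
      show (if i = i then (1 : ℤ) else 0) * σ = σ
      rw [if_pos rfl, one_mul]
  have hσ : (0 : ℤ) ≤ σ := Int.natCast_nonneg σ
  refine ⟨p, by rw [hx]; exact hσ, fun j => ?_, fun j => by rw [hx]; exact hp j, ?_⟩
  · have h1 := ov_inl (a := a) h w p j
    rw [← hwt, hp, hx] at h1
    linarith
  · rw [logDisc_page hσ hp, hx]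
    rfl

end Pages

end Vale.Agent.P283.T647
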