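import Vale.Agent.P283.T647.Ch

/-!
G7. The log discrepancies at the lattice points.
-/

set_option linter.all false

namespace Vale.Agent.P283.T647

open MvPolynomial

theorem ordMono_le' {ι : Type} [Fintype ι] {M : ℕ} (E : Fin (M + 1) → ι → ℤ) (α : ι → ℤ)
    (i : Fin (M + 1)) : ordMono E α ≤ ∑ x, E i x * α x :=
  ciInf_le (f := fun i => ∑ x, E i x * α x) (Set.finite_range _).bddBelow i

theorem ordMono_attained' {ι : Type} [Fintype ι] {M : ℕ} (E : Fin (M + 1) → ι → ℤ) (α : ι → ℤ) :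
    ∃ i, ordMono E α = ∑ x, E i x * α x := by
  obtain ⟨i, hi⟩ := exists_eq_ciInf_of_finite (f := fun i => ∑ x, E i x * α x)
  exact ⟨i, hi.symm⟩

theorem ordMono_mul' {ι : Type} [Fintype ι] {M : ℕ} (E : Fin (M + 1) → ι → ℤ) (α β : ι → ℤ)
    (c : ℕ) (h : ∀ x, (c : ℤ) * β x = α x) : ordMono E α = c * ordMono E β := by
  have h1 : ∀ i, ∑ x, E i x * α x = c * ∑ x, E i x * β x := by
    intro i
    rw [Finset.mul_sum]
    exact Finset.sum_congr rfl fun x _ => by rw [← h]; ring
  apply le_antisymm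
  · obtain ⟨i, hi⟩ := ordMono_attained' E β
    rw [hi, ← h1]; exact ordMono_le' E α i
  · obtain ⟨i, hi⟩ := ordMono_attained' E α
    rw [hi, h1]
    exact mul_le_mul_of_nonneg_left (ordMono_le' E β i) (by positivity)

theorem g7 (h : ChartExist) : LcPoint := by
  intro R k N M r L _ _ t a z hrat ha v E ε hε hr D' h₀ hj hlc α hpage hcone hα
  obtain ⟨p, σ, hp⟩ := onPage_iff' hpage
  have hne : σ ≠ 0 ∨ (fun l => α (Sum.inr l)) ≠ 0 := by
    by_contra hno
    push Not at hno
    apply hα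
    funext x
    cases x with
    | inl j => rw [hp, hno.1]; simp
    | inr l => exact congrFun hno.2 l
  obtain ⟨w, hw, c, hc, hwx, hwz, hlin, hdisc⟩ := h k (R + 1) L (px t a p) z (pA a p) (pB a p)
    (page_rat hrat p) (pA_ne ha p) σ _ hne
  have hwts : ∀ x, (c : ℤ) * wts w t a z x = α x := by
    intro x
    cases x with
    | inl j =>
      show (c : ℤ) * ov w (t - algebraMap ℂ L (a j)) = _
      rw [ov_inl (a := a) hrat w p j, hlin, hp, ← hwx]; ring
    | inr l => exact hwz l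
  have hcQ : (0 : ℚ) < c := by exact_mod_cast hc
  have hcone' : InCone v (wts w t a z) := by
    obtain ⟨u, hu, hu'⟩ := hcone
    refine ⟨fun j => u j / c, fun j => div_nonneg (hu j) hcQ.le, fun x => ?_⟩
    have h2 : (α x : ℚ) = c * (wts w t a z x : ℚ) := by rw [← hwts x]; push_cast; ring
    have h3 : (wts w t a z x : ℚ) = α x / c := by rw [h2]; field_simp
    rw [h3, hu', Finset.sum_div]
    exact Finset.sum_congr rfl fun j _ => by ring
  haveI := hrat.coords.essFiniteType
  have h10 : h₀ * Q.jac D' (Fin.cons t z) ≠ 0 := by rw [hj]; exact one_ne_zero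
  have hjne : Q.jac D' (Fin.cons t z) ≠ 0 := right_ne_zero_of_mul h10
  have h0ne : h₀ ≠ 0 := left_ne_zero_of_mul h10
  obtain ⟨m', hm'⟩ := H647.order_exists (Nat.succ_pos k) hrat.trdeg D' ⟨_, hjne⟩ hw
  have h1 := hlc w m' hw hcone' hm'
  have h2 := hdisc D' _ (jac_px hrat hj p) m' hm'
  rw [ov_h hrat w h0ne p] at h2
  have h3 : (c : ℤ) * (1 + m' - ov w h₀) = logDisc α := by
    rw [logDisc_page (Int.natCast_nonneg σ) hp]
    linear_combination h2 - pe p * hwx
  have h4 : ordMono E α = c * ordMono E (wts w t a z) := ordMono_mul' E _ _ c hwts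
  have hc1 : (1 : ℝ) ≤ c := by exact_mod_cast hc
  rw [← h3, h4]
  push_cast
  have h5 : (c : ℝ) * (1 + (m' : ℝ) - ov w h₀) - c * (ordMono E (wts w t a z) : ℝ) / r =
      c * (1 + m' - ov w h₀ - (ordMono E (wts w t a z) : ℝ) / r) := by ring
  rw [h5]
  nlinarith

end Vale.Agent.P283.T647
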