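import Vale.Agent.P283.T647.Defs
import Vale.Agent.P283.F647.Conc

/-!
Statements of the parts of the proof.
-/

set_option linter.all false

namespace Vale.Agent.P283.T647

open MvPolynomial

/-! ## Combinatorics -/

/-- R1. Rational approximation in a rational polyhedral cone. -/
def RatApprox : Prop := ∀ (ι μ : Type) [Fintype ι] [Fintype μ] (M : μ → ι → ℚ) (c : ι → ℝ),
  (∀ j, 0 ≤ c j) → (∀ i, ∑ j, (M i j : ℝ) * c j = 0) → ∀ η : ℝ, 0 < η →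
  ∃ c' : ι → ℚ, (∀ j, 0 ≤ c' j) ∧ (∀ i, ∑ j, M i j * c' j = 0) ∧ ∀ j, |(c' j : ℝ) - c j| < η

/-- R2. Bounded solutions, a bounded number of rays. -/
def PointGen : Prop := ∀ (N q : ℕ) (δ : ℝ), 0 < δ → ∃ k₀ : ℕ, 0 < k₀ ∧
  ∀ (m : ℕ) (v : Fin N → Fin m → ℤ) (Ls : Finset (Fin m → ℤ)) (T : Fin N → ℤ) (κ : Fin N → ℕ),
    (∀ j, κ j ≤ q) → (∀ ℓ ∈ Ls, ∀ j, F647.pr ℓ (v j) ≤ T j + κ j) →
    (∀ c : Fin N → ℝ, (∀ j, 0 ≤ c j) → ∀ b : Fin m → ℤ, b ≠ 0 →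
      (∀ i, (b i : ℝ) = ∑ j, c j * v j i) →
      ∃ ℓ ∈ Ls, δ ≤ ∑ j, c j * ((F647.pr ℓ (v j) : ℝ) - T j)) →
    ∀ k : ℕ, k₀ ∣ k → 0 < k → ∀ a : Fin m → ℤ, Z647.InCone v a → a ≠ 0 →
      (∃ (r : ℕ) (Y : Fin m → ℤ), (∀ j, r * T j ≤ F647.pr Y (v j)) ∧
        ∃ ℓ ∈ Ls, F647.pr Y a < r * F647.pr ℓ a) →
      ∃ Y : Fin m → ℤ, (∀ j, k * T j ≤ F647.pr Y (v j)) ∧
        ∃ ℓ ∈ Ls, F647.pr Y a < k * F647.pr ℓ a

/-- R3. Bounded solutions, any number of rays, bounded dimension. -/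
def PointDoi : Prop := ∀ (m q : ℕ) (δ : ℝ), 0 < δ → ∃ k₀ : ℕ, 0 < k₀ ∧
  ∀ (X ι : Type) [Fintype X] [Fintype ι], Fintype.card X = m →
  ∀ (v : ι → X → ℤ) (Ls : Finset (X → ℤ)) (T : ι → ℤ) (κ : ι → ℕ),
    (∀ j, κ j ≤ q) → (∀ ℓ ∈ Ls, ∀ j, ∑ x, ℓ x * v j x ≤ T j + κ j) →
    (∀ c : ι → ℝ, (∀ j, 0 ≤ c j) → ∀ b : X → ℤ, b ≠ 0 → (∀ x, (b x : ℝ) = ∑ j, c j * v j x) →
      ∃ ℓ ∈ Ls, δ ≤ ∑ j, c j * (((∑ x, ℓ x * v j x : ℤ) : ℝ) - T j)) →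
    ∀ k : ℕ, k₀ ∣ k → 0 < k → ∀ a : X → ℤ, a ≠ 0 →
      (∀ u : X → ℤ, (∀ j, 0 ≤ ∑ x, v j x * u x) → 0 ≤ ∑ x, a x * u x) →
      (∃ (r : ℕ) (Y : X → ℤ), (∀ j, r * T j ≤ ∑ x, Y x * v j x) ∧
        ∃ ℓ ∈ Ls, ∑ x, Y x * a x < r * ∑ x, ℓ x * a x) →
      ∃ Y : X → ℤ, (∀ j, k * T j ≤ ∑ x, Y x * v j x) ∧
        ∃ ℓ ∈ Ls, ∑ x, Y x * a x < k * ∑ x, ℓ x * a x

section Book

variable {P ι : Type} [Fintype P] [DecidableEq P] [Fintype ι] {k : ℕ}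

/-- The total multiplicity on a page. The ray `j` lies on the page `pg j` (on all pages, that is,
on the spine, if `pg j = none`), it has the multiplicity `s j` and the spine part `w j`. -/
def psum (pg : ι → Option P) (s : ι → ℕ) (c : ι → ℝ) (p : P) : ℝ :=
  ∑ j, if pg j = some p then c j * s j else 0

/-- Combinatorial data of a pair of complexity one. -/
structure IsBook (q : ℕ) (δ : ℝ) (pg : ι → Option P) (s : ι → ℕ) (w : ι → Fin k → ℤ)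
    (κ : ι → ℕ) : Prop where
  q0 : 0 < q
  δ0 : 0 < δ
  two : 2 ≤ Fintype.card P
  pos : ∀ j p, pg j = some p → 0 < s j
  κq : ∀ j, κ j ≤ q
  lc : ∀ c : ι → ℝ, (∀ j, 0 ≤ c j) → ∀ (p₀ : P) (μ : ℝ) (σ : ℕ) (b : Fin k → ℤ), 0 ≤ μ →
    (∀ p, psum pg s c p = μ + if p = p₀ then (σ : ℝ) else 0) →
    (∀ i, (b i : ℝ) = ∑ j, c j * w j i) → (σ ≠ 0 ∨ b ≠ 0) →
    δ ≤ ∑ j, c j * κ j - q * ((Fintype.card P : ℝ) - 2) * μ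
  nn : ∀ c : ι → ℝ, (∀ j, 0 ≤ c j) → ∀ (p₀ : P) (μ σ : ℝ), 0 ≤ μ → 0 ≤ σ →
    (∀ p, psum pg s c p = μ + if p = p₀ then σ else 0) →
    0 ≤ ∑ j, c j * κ j - q * ((Fintype.card P : ℝ) - 2) * μ

/-- The value of the functional `(b, c)` at the ray `j`. -/
def fval (q K : ℕ) (pg : ι → Option P) (s : ι → ℕ) (w : ι → Fin k → ℤ) (b : P → ℤ)
    (c : Fin k → ℤ) (j : ι) : ℤ :=
  (pg j).elim 0 (fun p => (s j : ℤ) * (q * K - b p)) + ∑ i, c i * w j i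

/-- The value of the functional `(b, c)` at the point `(p₀, σ, a)`. -/
def tval (q K : ℕ) (b : P → ℤ) (c : Fin k → ℤ) (p₀ : P) (σ : ℕ) (a : Fin k → ℤ) : ℤ :=
  (σ : ℤ) * (q * K - b p₀) + ∑ i, c i * a i

/-- The functional `(b, c)` is admissible. -/
def Sol (q K : ℕ) (pg : ι → Option P) (s : ι → ℕ) (w : ι → Fin k → ℤ) (κ : ι → ℕ) (b : P → ℤ)
    (c : Fin k → ℤ) : Prop :=
  ∑ p, b p ≤ 2 * q * K ∧ ∀ j, fval q K pg s w b c j ≤ K * κ j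

/-- The point `(p₀, σ, a)` lies in the cone (dual description). -/
def InBook (pg : ι → Option P) (s : ι → ℕ) (w : ι → Fin k → ℤ) (p₀ : P) (σ : ℕ)
    (a : Fin k → ℤ) : Prop :=
  ∀ (e : P → ℤ) (c : Fin k → ℤ), ∑ p, e p ≤ 0 →
    (∀ j, 0 ≤ (pg j).elim 0 (fun p => (s j : ℤ) * e p) + ∑ i, c i * w j i) →
    0 ≤ (σ : ℤ) * e p₀ + ∑ i, c i * a i

/-- Admissible functionals (of any denominator) which are positive at the points of the cone. -/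
def HasReal (q : ℕ) (pg : ι → Option P) (s : ι → ℕ) (w : ι → Fin k → ℤ) (κ : ι → ℕ) : Prop :=
  ∀ (p₀ : P) (σ : ℕ) (a : Fin k → ℤ), (σ ≠ 0 ∨ a ≠ 0) → InBook pg s w p₀ σ a →
    ∃ (r : ℕ) (b : P → ℤ) (c : Fin k → ℤ), 0 < r ∧ Sol q r pg s w κ b c ∧ 0 < tval q r b c p₀ σ a

/-- Admissible functionals of denominator `K` which are positive at the points of the cone. -/
def Goal (q K : ℕ) (pg : ι → Option P) (s : ι → ℕ) (w : ι → Fin k → ℤ) (κ : ι → ℕ) : Prop :=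
  ∀ (p₀ : P) (σ : ℕ) (a : Fin k → ℤ), (σ ≠ 0 ∨ a ≠ 0) → InBook pg s w p₀ σ a →
    ∃ (b : P → ℤ) (c : Fin k → ℤ), Sol q K pg s w κ b c ∧ 0 < tval q K b c p₀ σ a

/-- A page is trivial. -/
def Triv (q : ℕ) (pg : ι → Option P) (s : ι → ℕ) (κ : ι → ℕ) (p : P) : Prop :=
  ∀ j, pg j = some p → s j = 1 ∧ κ j = q

/-- A choice of a ray on each page outside `𝒩`. -/
def Ch (𝒩 : Finset P) (pg : ι → Option P) (f : P → ι) : Prop := ∀ p, p ∉ 𝒩 → pg (f p) = some p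

/-- The condition for merging the pages outside `𝒩`. -/
def MergeCond (q : ℕ) (pg : ι → Option P) (s : ι → ℕ) (w : ι → Fin k → ℤ) (κ : ι → ℕ)
    (𝒩 : Finset P) : Prop :=
  (∀ p, p ∉ 𝒩 → Triv q pg s κ p) ∧ (𝒩.card = 1 ∨ ((∀ p ∈ 𝒩, ¬ Triv q pg s κ p) ∧
    (3 ≤ 𝒩.card ∨ (𝒩.card = 2 ∧ ∃ f f' : P → ι, Ch 𝒩 pg f ∧ Ch 𝒩 pg f' ∧
      ∃ i, ∑ p ∈ 𝒩ᶜ, w (f p) i ≠ ∑ p ∈ 𝒩ᶜ, w (f' p) i))))

end Book

/-- R4. The number of non-trivial pages. -/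
def CountRow : Prop := ∀ (P ι : Type) [Fintype P] [DecidableEq P] [Fintype ι] (k q : ℕ) (δ : ℝ)
  (pg : ι → Option P) (s : ι → ℕ) (w : ι → Fin k → ℤ) (κ : ι → ℕ), IsBook q δ pg s w κ →
  (∀ p, ∃ j, pg j = some p) → ∀ 𝒩 : Finset P, (∀ p ∈ 𝒩, ¬ Triv q pg s κ p) → 𝒩.card ≤ 4 * q

/-- R5. From the merged book to the original book. -/
def MergeLift : Prop := ∀ (P ι : Type) [Fintype P] [DecidableEq P] [Fintype ι] (k q : ℕ)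
  (pg : ι → Option P) (s : ι → ℕ) (w : ι → Fin k → ℤ) (κ : ι → ℕ) (𝒩 : Finset P),
  (∀ p, p ∉ 𝒩 → Triv q pg s κ p) → ∀ (c : ι → ℝ) (cf : (P → ι) → ℝ), (∀ j, 0 ≤ c j) →
  (∀ f, 0 ≤ cf f) → (∀ j p, pg j = some p → p ∉ 𝒩 → c j = 0) →
  (∀ f, ¬ Ch 𝒩 pg f → cf f = 0) →
  ∃ c' : ι → ℝ, (∀ j, 0 ≤ c' j) ∧ (∀ p ∈ 𝒩, psum pg s c' p = psum pg s c p) ∧
    (∀ p, p ∉ 𝒩 → psum pg s c' p = ∑ f, cf f) ∧
    (∀ i, ∑ j, c' j * (w j i : ℝ) =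
      ∑ j, c j * (w j i : ℝ) + ∑ f, cf f * ∑ p ∈ 𝒩ᶜ, (w (f p) i : ℝ)) ∧
    ∑ j, c' j * (κ j : ℝ) =
      ∑ j, c j * (κ j : ℝ) + q * ((Fintype.card P : ℝ) - 𝒩.card) * ∑ f, cf f

/-- R6. The lower bound for the merged book. -/
def MergeIneq : Prop := ∀ (P ι : Type) [Fintype P] [DecidableEq P] [Fintype ι] (k q : ℕ) (δ : ℝ)
  (pg : ι → Option P) (s : ι → ℕ) (w : ι → Fin k → ℤ) (κ : ι → ℕ), IsBook q δ pg s w κ →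
  (∀ p, ∃ j, pg j = some p) → ∀ 𝒩 : Finset P, MergeCond q pg s w κ 𝒩 →
  ∀ (c : ι → ℝ) (cf : (P → ι) → ℝ), (∀ j, 0 ≤ c j) →
  (∀ f, 0 ≤ cf f) → (∀ j p, pg j = some p → p ∉ 𝒩 → c j = 0) →
  (∀ f, ¬ Ch 𝒩 pg f → cf f = 0) →
  ∀ (η : P → ℤ) (b : Fin k → ℤ), (∀ p ∈ 𝒩, (η p : ℝ) = psum pg s c p - ∑ f, cf f) →
  (∀ i, (b i : ℝ) = ∑ j, c j * (w j i : ℝ) + ∑ f, cf f * ∑ p ∈ 𝒩ᶜ, (w (f p) i : ℝ)) →
  (b ≠ 0 ∨ ∃ p ∈ 𝒩, η p ≠ 0) →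
  ∀ μ : ℝ, μ ≤ ∑ f, cf f → (∀ p ∈ 𝒩, μ ≤ psum pg s c p) →
  (μ = ∑ f, cf f ∨ ∃ p ∈ 𝒩, μ = psum pg s c p) →
  min δ (1 / 2) ≤ ∑ j, c j * (κ j : ℝ) + q * ∑ f, cf f - q * ((𝒩.card : ℝ) - 1) * μ

/-- R7. Merging the pages outside `𝒩`. -/
def CaseM : Prop := ∀ (n k q : ℕ) (δ : ℝ), 0 < δ → ∃ k₀ : ℕ, 0 < k₀ ∧
  ∀ (P ι : Type) [Fintype P] [DecidableEq P] [Fintype ι]
  (pg : ι → Option P) (s : ι → ℕ) (w : ι → Fin k → ℤ) (κ : ι → ℕ), IsBook q δ pg s w κ →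
  HasReal q pg s w κ → (∀ p, ∃ j, pg j = some p) → ∀ 𝒩 : Finset P, MergeCond q pg s w κ 𝒩 →
  𝒩.card = n → ∀ K : ℕ, k₀ ∣ K → 0 < K → Goal q K pg s w κ

/-- R8. All pages but two are trivial with a single ray. -/
def CaseE : Prop := ∀ (k q : ℕ) (δ : ℝ), 0 < δ → ∃ k₀ : ℕ, 0 < k₀ ∧
  ∀ (P ι : Type) [Fintype P] [DecidableEq P] [Fintype ι]
  (pg : ι → Option P) (s : ι → ℕ) (w : ι → Fin k → ℤ) (κ : ι → ℕ), IsBook q δ pg s w κ →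
  HasReal q pg s w κ → (∀ p, ∃ j, pg j = some p) → ∀ p₁ p₂ : P, p₁ ≠ p₂ →
  (∀ p, p ≠ p₁ → p ≠ p₂ → Triv q pg s κ p) →
  (∀ p, p ≠ p₁ → p ≠ p₂ → ∀ j j', pg j = some p → pg j' = some p → w j = w j') →
  ∀ K : ℕ, k₀ ∣ K → 0 < K → Goal q K pg s w κ

/-- R9. Some page has no rays. -/
def CaseA : Prop := ∀ (k q : ℕ) (δ : ℝ), 0 < δ → ∃ k₀ : ℕ, 0 < k₀ ∧
  ∀ (P ι : Type) [Fintype P] [DecidableEq P] [Fintype ι]
  (pg : ι → Option P) (s : ι → ℕ) (w : ι → Fin k → ℤ) (κ : ι → ℕ), IsBook q δ pg s w κ →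
  HasReal q pg s w κ → ∀ p₁ : P, (∀ j, pg j ≠ some p₁) →
  ∀ K : ℕ, k₀ ∣ K → 0 < K → Goal q K pg s w κ

/-- R10. All books. -/
def BookAll : Prop := ∀ (k q : ℕ) (δ : ℝ), 0 < q → 0 < δ → ∃ k₀ : ℕ, 0 < k₀ ∧
  ∀ (P ι : Type) [Fintype P] [DecidableEq P] [Fintype ι]
  (pg : ι → Option P) (s : ι → ℕ) (w : ι → Fin k → ℤ) (κ : ι → ℕ), IsBook q δ pg s w κ →
  HasReal q pg s w κ → ∀ K : ℕ, k₀ ∣ K → 0 < K → Goal q K pg s w κ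

section Expos

variable {R k N M : ℕ}

/-- The rays `v j` in terms of pages and multiplicities. -/
def Link (v : Fin N → Fin (R + 1) ⊕ Fin k → ℤ) (pg : Fin N → Option (Option (Fin (R + 1))))
    (s : Fin N → ℕ) : Prop :=
  ∀ j i, v j (Sum.inl i) =
    (pg j).elim 0 (fun p => p.elim (-(s j : ℤ)) (fun i' => if i = i' then (s j : ℤ) else 0))

/-- The lower bound for the log discrepancies at the lattice points. -/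
def LcPt (ε : ℝ) (r : ℕ) (v : Fin N → Fin (R + 1) ⊕ Fin k → ℤ)
    (E : Fin (M + 1) → Fin (R + 1) ⊕ Fin k → ℤ) : Prop :=
  ∀ α, OnPage α → InCone v α → α ≠ 0 → ε ≤ (logDisc α : ℝ) - (ordMono E α : ℝ) / r

end Expos

/-- R11. The book of a pair. -/
def ToBook : Prop := ∀ (q : ℕ) (ε : ℝ), 0 < q → 0 < ε → ∀ (R k N M r : ℕ)
  (v : Fin N → Fin (R + 1) ⊕ Fin k → ℤ) (E : Fin (M + 1) → Fin (R + 1) ⊕ Fin k → ℤ)
  (κ : Fin N → ℕ), 0 < r → (∀ j, OnPage (v j)) →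
  (∀ j, (κ j : ℚ) = q * toricDisc r E (v j)) → (∀ j, κ j ≤ q) → LcPt ε r v E →
  ∃ (pg : Fin N → Option (Option (Fin (R + 1)))) (s : Fin N → ℕ), Link v pg s ∧
    IsBook q (q * ε) pg s (fun j l => v j (Sum.inr l)) κ ∧
    HasReal q pg s (fun j l => v j (Sum.inr l)) κ

/-- R12. The exponents of the complement. -/
def BookExpos : Prop := ∀ (k q : ℕ) (ε : ℝ), 0 < q → 0 < ε → ∃ k₀ : ℕ, 0 < k₀ ∧
  ∀ (R N M r : ℕ) (v : Fin N → Fin (R + 1) ⊕ Fin k → ℤ)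
  (E : Fin (M + 1) → Fin (R + 1) ⊕ Fin k → ℤ) (κ : Fin N → ℕ), 0 < r → (∀ j, OnPage (v j)) →
  (∀ j, (κ j : ℚ) = q * toricDisc r E (v j)) → (∀ j, κ j ≤ q) → LcPt ε r v E →
  IsSubdivision v E → ∀ K : ℕ, k₀ ∣ K → 0 < K →
  ∃ Ee : Finset (Fin (R + 1) ⊕ Fin k → ℤ), Ee.Nonempty ∧
    (∀ γ ∈ Ee, ∀ α, OnPage α → InCone v α →
      (K : ℚ) * q * ((ordMono E α : ℚ) / r) ≤ ((∑ x, γ x * α x : ℤ) : ℚ)) ∧
    ∀ α, OnPage α → InCone v α → α ≠ 0 → ∃ γ ∈ Ee, ∑ x, γ x * α x < K * (q * logDisc α)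

/-! ## Geometry -/

/-- `L = ℂ(x, z_1, …, z_k)` is purely transcendental. -/
structure IsRat {L : Type} [Field L] [Algebra ℂ L] {k : ℕ} (x : L) (z : Fin k → L) : Prop where
  gen : IntermediateField.adjoin ℂ (insert x (Set.range z)) = ⊤
  ind : AlgebraicIndependent ℂ (Fin.cons x z : Fin (k + 1) → L)

section Chart

variable {L : Type} [Field L] [Algebra ℂ L] {k r : ℕ}

/-- The units `A_i + B_i x` of a chart. -/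
noncomputable def lin (x : L) (A B : Fin r → ℂ) (i : Fin r) : L :=
  algebraMap ℂ L (A i) + algebraMap ℂ L (B i) * x

/-- The coordinates of a chart. -/
noncomputable def chartY (x : L) (z : Fin k → L) (A B : Fin r → ℂ) : Fin (k + 2) → L :=
  Fin.cons x (Fin.cons (∏ i, lin x A B i)⁻¹ z)

/-- The equation of a chart. -/
noncomputable def chartF (k : ℕ) (A B : Fin r → ℂ) : MvPolynomial (Fin (k + 2)) ℂ :=
  X 1 * ∏ i, (C (A i) + C (B i) * X 0) - 1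

/-- A term. -/
noncomputable def term (x : L) (z : Fin k → L) (A B : Fin r → ℂ)
    (e : ℤ × (Fin r → ℤ) × (Fin k → ℤ)) : L :=
  x ^ e.1 * (∏ i, lin x A B i ^ e.2.1 i) * ∏ l, z l ^ e.2.2 l

/-- The weight of a term. -/
noncomputable def twt (w : AddValuation L (WithTop ℤ)) (x : L) (z : Fin k → L)
    (e : ℤ × (Fin r → ℤ) × (Fin k → ℤ)) : ℤ :=
  e.1 * ov w x + ∑ l, e.2.2 l * ov w (z l)

end Chart

/-- G1. The equation of a chart. -/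
def ChartHyp : Prop := ∀ (k r : ℕ) (L : Type) [Field L] [Algebra ℂ L] (x : L) (z : Fin k → L)
  (A B : Fin r → ℂ), IsRat x z → (∀ i, A i ≠ 0) → H647.HypData (chartY x z A B) (chartF k A B)

/-- G2. The residue form of a chart. -/
def ChartRes : Prop := ∀ (k r : ℕ) (L : Type) [Field L] [Algebra ℂ L] (x : L) (z : Fin k → L)
  (A B : Fin r → ℂ), IsRat x z → (∀ i, A i ≠ 0) → ∀ (D' : Fin (k + 1) → Derivation ℂ L L) (h : L),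
  h * Q.jac D' (Fin.cons x z) = 1 →
  H647.ResForm (chartY x z A B) (chartF k A B) D' (-(∏ i, lin x A B i) * h)

/-- G3. Values and orders in a chart. -/
def ChartBound : Prop := ∀ (k r : ℕ) (L : Type) [Field L] [Algebra ℂ L] (x : L) (z : Fin k → L)
  (A B : Fin r → ℂ), IsRat x z → (∀ i, A i ≠ 0) →
  ∀ (Ee : Finset (ℤ × (Fin r → ℤ) × (Fin k → ℤ))) (lam : ℤ × (Fin r → ℤ) × (Fin k → ℤ) → ℂ),
  Ee.Nonempty → (∀ e₀ ∈ Ee, ∃ δ : Derivation ℚ ℂ ℂ, (∀ i, δ (A i) = 0) ∧ (∀ i, δ (B i) = 0) ∧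
    δ (lam e₀) = 1 ∧ ∀ e ∈ Ee, e ≠ e₀ → δ (lam e) = 0) →
  ∑ e ∈ Ee, algebraMap ℂ L (lam e) * term x z A B e ≠ 0 ∧
  ∀ (w : AddValuation L (WithTop ℤ)), Q.IsDivisorial (k + 1) w → 0 ≤ ov w x →
    (∀ i, ov w (lin x A B i) = 0) → ∀ (D' : Fin (k + 1) → Derivation ℂ L L) (h : L),
    h * Q.jac D' (Fin.cons x z) = 1 → ∀ m' : ℤ, Q.FormOrder w D' m' →
    ∀ e₀ ∈ Ee, (∀ e ∈ Ee, twt w x z e₀ ≤ twt w x z e) →
    ov w h + ov w x + ∑ l, ov w (z l) +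
      (ov w (∑ e ∈ Ee, algebraMap ℂ L (lam e) * term x z A B e) - twt w x z e₀) ≤ 1 + m'

/-- G4. Divisorial valuations with given weights. -/
def ChartExist : Prop := ∀ (k r : ℕ) (L : Type) [Field L] [Algebra ℂ L] (x : L) (z : Fin k → L)
  (A B : Fin r → ℂ), IsRat x z → (∀ i, A i ≠ 0) → ∀ (s : ℕ) (ω : Fin k → ℤ), (s ≠ 0 ∨ ω ≠ 0) →
  ∃ w : AddValuation L (WithTop ℤ), Q.IsDivisorial (k + 1) w ∧ ∃ c : ℕ, 0 < c ∧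
    (c : ℤ) * ov w x = s ∧ (∀ l, (c : ℤ) * ov w (z l) = ω l) ∧ (∀ i, ov w (lin x A B i) = 0) ∧
    ∀ (D' : Fin (k + 1) → Derivation ℂ L L) (h : L), h * Q.jac D' (Fin.cons x z) = 1 →
      ∀ m' : ℤ, Q.FormOrder w D' m' → (c : ℤ) * (1 + m' - ov w h) = s + ∑ l, ω l

section Wts

variable {L : Type} [Field L] [Algebra ℂ L] {R k N M : ℕ}

/-- The weights of a valuation. -/
noncomputable def wts (w : AddValuation L (WithTop ℤ)) (t : L) (a : Fin (R + 1) → ℂ)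
    (z : Fin k → L) : Fin (R + 1) ⊕ Fin k → ℤ := fun x => ov w (coord t a z x)

/-- The lc condition for the pull-back of the pair. -/
def LcB (v : Fin N → Fin (R + 1) ⊕ Fin k → ℤ) (t : L) (a : Fin (R + 1) → ℂ) (z : Fin k → L)
    (D' : Fin (k + 1) → Derivation ℂ L L) (h : L) (r : ℕ)
    (E : Fin (M + 1) → Fin (R + 1) ⊕ Fin k → ℤ) (ε : ℝ) : Prop :=
  ∀ (w : AddValuation L (WithTop ℤ)) (m' : ℤ), Q.IsDivisorial (k + 1) w →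
    InCone v (wts w t a z) → Q.FormOrder w D' m' →
    ε ≤ 1 + m' - ov w h - (ordMono E (wts w t a z) : ℝ) / r

end Wts

/-- G5. Generic functions with given exponents. -/
def GenericF : Prop := ∀ (R k : ℕ) (L : Type) [Field L] [Algebra ℂ L] (t : L)
  (a : Fin (R + 1) → ℂ) (z : Fin k → L), IsRat t z → Function.Injective a →
  ∀ Ee : Finset (Fin (R + 1) ⊕ Fin k → ℤ), Ee.Nonempty → ∃ F : L, F ≠ 0 ∧
    (∀ w : AddValuation L (WithTop ℤ), (∀ c : ℂ, c ≠ 0 → w (algebraMap ℂ L c) = 0) →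
      ∀ B : ℤ, (∀ γ ∈ Ee, B ≤ ∑ x, γ x * wts w t a z x) → B ≤ ov w F) ∧
    ∀ w : AddValuation L (WithTop ℤ), Q.IsDivisorial (k + 1) w →
      ∀ (D' : Fin (k + 1) → Derivation ℂ L L) (h : L), h * Q.jac D' (Fin.cons t z) = 1 →
      ∀ m' : ℤ, Q.FormOrder w D' m' → ∀ γ₀ ∈ Ee,
      (∀ γ ∈ Ee, ∑ x, γ₀ x * wts w t a z x ≤ ∑ x, γ x * wts w t a z x) →
      ov w h + logDisc (wts w t a z) + (ov w F - ∑ x, γ₀ x * wts w t a z x) ≤ 1 + m'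

/-- G6. The weights of a valuation lie on a page. -/
def WtsPage : Prop := ∀ (R k : ℕ) (L : Type) [Field L] [Algebra ℂ L] (t : L)
  (a : Fin (R + 1) → ℂ) (z : Fin k → L), IsRat t z → Function.Injective a →
  ∀ w : AddValuation L (WithTop ℤ), (∀ c : ℂ, c ≠ 0 → w (algebraMap ℂ L c) = 0) →
    OnPage (wts w t a z)

/-- G7. The log discrepancies at the lattice points. -/
def LcPoint : Prop := ∀ (R k N M r : ℕ) (L : Type) [Field L] [Algebra ℂ L] (t : L)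
  (a : Fin (R + 1) → ℂ) (z : Fin k → L), IsRat t z → Function.Injective a →
  ∀ (v : Fin N → Fin (R + 1) ⊕ Fin k → ℤ) (E : Fin (M + 1) → Fin (R + 1) ⊕ Fin k → ℤ) (ε : ℝ),
  0 < ε → 0 < r → ∀ (D' : Fin (k + 1) → Derivation ℂ L L) (h : L),
  h * Q.jac D' (Fin.cons t z) = 1 → LcB v t a z D' h r E ε → LcPt ε r v E

end Vale.Agent.P283.T647
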