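import Vale.Agent.P283.T647.Props

/-!
Row G1: the function field of a chart.
-/

set_option linter.all false

namespace Vale.Agent.P283.T647

open MvPolynomial

namespace G1

section Chart

variable {L : Type} [Field L] [Algebra ℂ L] {k r : ℕ}

/-- the inclusion of the variables `x, z` -/
def sg (k : ℕ) : Fin (k + 1) → Fin (k + 2) := Fin.cons 0 (fun l => l.succ.succ)

/-- the product of the units -/
noncomputable def q0 (k : ℕ) (A B : Fin r → ℂ) : MvPolynomial (Fin (k + 1)) ℂ :=
  ∏ i, (C (A i) + C (B i) * X 0)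

theorem sg_zero : sg k 0 = 0 := rfl

theorem sg_succ (l : Fin k) : sg k l.succ = l.succ.succ := rfl

theorem chartY_sg (x : L) (z : Fin k → L) (A B : Fin r → ℂ) :
    chartY x z A B ∘ sg k = Fin.cons x z := by
  funext l
  refine Fin.cases ?_ (fun l => ?_) l
  · rfl
  · rfl

theorem lin_ne {x : L} {z : Fin k → L} (H : IsRat x z) {A B : Fin r → ℂ} (hA : ∀ i, A i ≠ 0)
    (i : Fin r) : lin x A B i ≠ 0 := by
  intro h0
  have h1 : aeval (Fin.cons x z : Fin (k + 1) → L)
      (C (A i) + C (B i) * X 0 : MvPolynomial (Fin (k + 1)) ℂ) = 0 := by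
    rw [map_add, map_mul, aeval_C, aeval_C, aeval_X, Fin.cons_zero]
    exact h0
  have h2 := H.ind.eq_zero_of_aeval_eq_zero _ h1
  have h3 := congrArg constantCoeff h2
  rw [map_add, map_mul, constantCoeff_C, constantCoeff_X, mul_zero, add_zero, map_zero] at h3
  exact hA i h3

theorem prod_lin_ne {x : L} {z : Fin k → L} (H : IsRat x z) {A B : Fin r → ℂ}
    (hA : ∀ i, A i ≠ 0) : ∏ i, lin x A B i ≠ 0 :=
  Finset.prod_ne_zero_iff.2 fun i _ => lin_ne H hA i

theorem coords_ne {x : L} {z : Fin k → L} (H : IsRat x z) (l : Fin (k + 1)) :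
    (Fin.cons x z : Fin (k + 1) → L) l ≠ 0 := H.ind.ne_zero l

theorem chartY_ne {x : L} {z : Fin k → L} (H : IsRat x z) {A B : Fin r → ℂ}
    (hA : ∀ i, A i ≠ 0) (j : Fin (k + 2)) : chartY x z A B j ≠ 0 := by
  unfold chartY
  refine Fin.cases ?_ (fun j => ?_) j
  · rw [Fin.cons_zero]
    exact coords_ne H 0
  · rw [Fin.cons_succ]
    refine Fin.cases ?_ (fun l => ?_) j
    · rw [Fin.cons_zero]
      exact inv_ne_zero (prod_lin_ne H hA)
    · rw [Fin.cons_succ]
      have := coords_ne H l.succ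
      rwa [Fin.cons_succ] at this

theorem rename_q0 (A B : Fin r → ℂ) : rename (sg k) (q0 k A B) =
    ∏ i, (C (A i) + C (B i) * X 0) := by
  unfold q0
  rw [map_prod]
  refine Finset.prod_congr rfl fun i _ => ?_
  rw [map_add, map_mul, rename_C, rename_C, rename_X, sg_zero]

theorem chartF_eq (A B : Fin r → ℂ) : chartF k A B = X 1 * rename (sg k) (q0 k A B) - 1 := by
  rw [rename_q0]; rfl

theorem aeval_prod (x : L) (z : Fin k → L) (A B : Fin r → ℂ) :
    aeval (chartY x z A B) (∏ i, (C (A i) + C (B i) * X 0) : MvPolynomial (Fin (k + 2)) ℂ) =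
      ∏ i, lin x A B i := by
  rw [map_prod]
  refine Finset.prod_congr rfl fun i _ => ?_
  rw [map_add, map_mul, aeval_C, aeval_C, aeval_X]
  rfl

theorem aeval_chartF {x : L} {z : Fin k → L} (H : IsRat x z) {A B : Fin r → ℂ}
    (hA : ∀ i, A i ≠ 0) : aeval (chartY x z A B) (chartF k A B) = 0 := by
  unfold chartF
  rw [map_sub, map_mul, aeval_X, map_one, aeval_prod]
  have : chartY x z A B 1 = (∏ i, lin x A B i)⁻¹ := rfl
  rw [this, inv_mul_cancel₀ (prod_lin_ne H hA), sub_self]

/-- elimination of the variable `1` -/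
theorem elim (A B : Fin r → ℂ) (P : MvPolynomial (Fin (k + 2)) ℂ) :
    ∃ (n : ℕ) (P' : MvPolynomial (Fin (k + 1)) ℂ),
      chartF k A B ∣ rename (sg k) (q0 k A B) ^ n * P - rename (sg k) P' := by
  induction P using MvPolynomial.induction_on with
  | C a =>
    refine ⟨0, C a, ?_⟩
    rw [pow_zero, one_mul, rename_C, sub_self]
    exact dvd_zero _
  | add P₁ P₂ h₁ h₂ =>
    obtain ⟨n₁, Q₁, h₁⟩ := h₁
    obtain ⟨n₂, Q₂, h₂⟩ := h₂
    refine ⟨n₁ + n₂, q0 k A B ^ n₂ * Q₁ + q0 k A B ^ n₁ * Q₂, ?_⟩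
    have h3 : rename (sg k) (q0 k A B) ^ (n₁ + n₂) * (P₁ + P₂) -
        rename (sg k) (q0 k A B ^ n₂ * Q₁ + q0 k A B ^ n₁ * Q₂) =
        rename (sg k) (q0 k A B) ^ n₂ * (rename (sg k) (q0 k A B) ^ n₁ * P₁ - rename (sg k) Q₁) +
        rename (sg k) (q0 k A B) ^ n₁ *
          (rename (sg k) (q0 k A B) ^ n₂ * P₂ - rename (sg k) Q₂) := by
      rw [map_add, map_mul, map_mul, map_pow, map_pow]
      ring
    rw [h3]
    exact dvd_add (h₁.mul_left _) (h₂.mul_left _)
  | mul_X P i h =>
    obtain ⟨n, Q, h⟩ := h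
    have hgen : ∀ j : Fin (k + 1), chartF k A B ∣ rename (sg k) (q0 k A B) ^ n * (P * X (sg k j)) -
        rename (sg k) (Q * X j) := by
      intro j
      have h3 : rename (sg k) (q0 k A B) ^ n * (P * X (sg k j)) - rename (sg k) (Q * X j) =
          (rename (sg k) (q0 k A B) ^ n * P - rename (sg k) Q) * X (sg k j) := by
        rw [map_mul, rename_X]
        ring
      rw [h3]
      exact h.mul_right _
    refine Fin.cases ?_ (fun i => ?_) i
    · exact ⟨n, Q * X 0, hgen 0⟩
    · refine Fin.cases ?_ (fun l => ?_) i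
      · refine ⟨n + 1, Q, ?_⟩
        have h3 : rename (sg k) (q0 k A B) ^ (n + 1) * (P * X (Fin.succ 0)) -
            rename (sg k) Q = (rename (sg k) (q0 k A B) ^ n * P - rename (sg k) Q) +
              rename (sg k) (q0 k A B) ^ n * P * chartF k A B := by
          rw [chartF_eq]
          have : (X (Fin.succ 0) : MvPolynomial (Fin (k + 2)) ℂ) = X 1 := rfl
          rw [this]
          ring
        rw [h3]
        exact dvd_add h (dvd_mul_left _ _)
      · exact ⟨n, Q * X l.succ, hgen l.succ⟩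

theorem chart_hyp {x : L} {z : Fin k → L} (H : IsRat x z) {A B : Fin r → ℂ}
    (hA : ∀ i, A i ≠ 0) : H647.HypData (chartY x z A B) (chartF k A B) where
  gen := by
    intro g
    have h1 : g ∈ IntermediateField.adjoin ℂ (Set.range (Fin.cons x z : Fin (k + 1) → L)) := by
      rw [Fin.range_cons, H.gen]
      exact IntermediateField.mem_top
    obtain ⟨P, Q, h2⟩ := (IntermediateField.mem_adjoin_range_iff ℂ _ g).1 h1
    by_cases hQ : aeval (Fin.cons x z : Fin (k + 1) → L) Q = 0
    · refine ⟨0, 1, ?_, ?_⟩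
      · rw [map_one]
        exact one_ne_zero
      · rw [h2, hQ, div_zero, map_zero, zero_div]
    · refine ⟨rename (sg k) P, rename (sg k) Q, ?_, ?_⟩
      · rw [aeval_rename, chartY_sg]
        exact hQ
      · rw [aeval_rename, aeval_rename, chartY_sg]
        exact h2
  ker := by
    intro P
    constructor
    · intro hP
      obtain ⟨n, P', h⟩ := elim A B P
      have h1 : aeval (chartY x z A B) (rename (sg k) (q0 k A B) ^ n * P - rename (sg k) P') = 0 := by
        obtain ⟨g, hg⟩ := h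
        rw [hg, map_mul, aeval_chartF H hA, zero_mul]
      rw [map_sub, map_mul, hP, mul_zero, zero_sub, neg_eq_zero, aeval_rename, chartY_sg] at h1
      have h2 := H.ind.eq_zero_of_aeval_eq_zero _ h1
      rw [h2, map_zero, sub_zero] at h
      have h3 : IsCoprime (chartF k A B) (rename (sg k) (q0 k A B) ^ n) := by
        refine IsCoprime.pow_right ⟨-1, X 1, ?_⟩
        rw [chartF_eq]
        ring
      exact h3.dvd_of_dvd_mul_left h
    · rintro ⟨g, rfl⟩
      rw [map_mul, aeval_chartF H hA, zero_mul]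
  f0 := by
    intro h0
    have h1 := congrArg constantCoeff h0
    unfold chartF at h1
    rw [map_sub, map_mul, constantCoeff_X, zero_mul, map_one, map_zero] at h1
    norm_num at h1
  x0 := chartY_ne H hA

end Chart

end G1

/-- G1. -/
theorem g1 : ChartHyp := fun _ _ _ _ _ _ _ _ _ H hA => G1.chart_hyp H hA

end Vale.Agent.P283.T647
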