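import Vale.Agent.P283.T647.Props
import Vale.Agent.P283.Z647.Lc

/-!
Row G4: divisorial valuations with given weights in a chart.
-/

set_option linter.all false

namespace Vale.Agent.P283.T647

open MvPolynomial Finset
open Vale.Agent.P283.H647 (ResForm HypData DiagData)
open Vale.Agent.P283.Z647 (wtZ IsMinZ RegZ inFormZ psi_valZ)

section Eqn

variable {k r : ℕ}

/-- The product of the units of a chart, as a polynomial in one variable. -/
noncomputable def qPoly (A B : Fin r → ℂ) : Polynomial ℂ :=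
  ∏ i, (Polynomial.C (A i) + Polynomial.C (B i) * Polynomial.X)

theorem qPoly_coeff_zero (A B : Fin r → ℂ) : (qPoly A B).coeff 0 = ∏ i, A i := by
  unfold qPoly
  rw [Polynomial.coeff_zero_prod]
  exact Finset.prod_congr rfl fun i _ => by simp

theorem chartF_eq (A B : Fin r → ℂ) : chartF k A B =
    ∑ n ∈ Finset.range ((qPoly A B).natDegree + 1),
      monomial (Finsupp.single (0 : Fin (k + 2)) n + Finsupp.single 1 1) ((qPoly A B).coeff n) -
      monomial 0 1 := by
  have h1 : ∏ i, (C (A i) + C (B i) * X 0) =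
      Polynomial.aeval (X 0 : MvPolynomial (Fin (k + 2)) ℂ) (qPoly A B) := by
    unfold qPoly
    rw [map_prod]
    refine Finset.prod_congr rfl fun i _ => ?_
    rw [map_add, map_mul, Polynomial.aeval_C, Polynomial.aeval_C, Polynomial.aeval_X]
    rfl
  unfold chartF
  rw [h1, Polynomial.aeval_eq_sum_range, Finset.mul_sum]
  congr 1
  refine Finset.sum_congr rfl fun n _ => ?_
  rw [smul_eq_C_mul, X_pow_eq_monomial, C_mul_monomial, mul_one, X, monomial_mul, one_mul,
    add_comm (Finsupp.single (1 : Fin (k + 2)) 1)]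

theorem coeff_chartF (A B : Fin r → ℂ) (α : Fin (k + 2) →₀ ℕ) : coeff α (chartF k A B) =
    ∑ n ∈ Finset.range ((qPoly A B).natDegree + 1),
      (if Finsupp.single (0 : Fin (k + 2)) n + Finsupp.single 1 1 = α then (qPoly A B).coeff n
        else 0) - (if (0 : Fin (k + 2) →₀ ℕ) = α then 1 else 0) := by
  classical
  rw [chartF_eq, coeff_sub, coeff_sum, coeff_monomial]
  congr 1
  exact Finset.sum_congr rfl fun n _ => by rw [coeff_monomial]

theorem mem_chartF {A B : Fin r → ℂ} {α : Fin (k + 2) →₀ ℕ} (h : α ∈ (chartF k A B).support) :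
    α = 0 ∨ ∃ n, α = Finsupp.single (0 : Fin (k + 2)) n + Finsupp.single 1 1 := by
  classical
  by_contra hcon
  push Not at hcon
  rw [mem_support_iff, coeff_chartF] at h
  apply h
  rw [if_neg (Ne.symm hcon.1), sub_zero]
  exact Finset.sum_eq_zero fun n _ => if_neg (Ne.symm (hcon.2 n))

theorem ne_zero_exp (n : ℕ) :
    Finsupp.single (0 : Fin (k + 2)) n + Finsupp.single 1 1 ≠ (0 : Fin (k + 2) →₀ ℕ) := by
  intro h
  have h1 := DFunLike.congr_fun h 1
  simp at h1

theorem coeff_zero_chartF (A B : Fin r → ℂ) : coeff 0 (chartF k A B) = -1 := by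
  classical
  rw [coeff_chartF, if_pos rfl, Finset.sum_eq_zero fun n _ => if_neg (ne_zero_exp n)]
  ring

theorem coeff_one_chartF (A B : Fin r → ℂ) :
    coeff (Finsupp.single 1 1) (chartF k A B) = ∏ i, A i := by
  classical
  rw [coeff_chartF, if_neg (by
    intro h
    have h1 := DFunLike.congr_fun h 1
    simp at h1), sub_zero, Finset.sum_eq_single 0]
  · rw [if_pos (by simp), qPoly_coeff_zero]
  · intro n _ hn
    rw [if_neg]
    intro h
    have h1 := DFunLike.congr_fun h 0
    simp at h1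
    exact hn h1
  · intro h
    exact absurd (Finset.mem_range.2 (Nat.succ_pos _)) h

theorem wtZ_chart (s : ℕ) (ω : Fin k → ℤ) (n : ℕ) :
    wtZ (Fin.cons (s : ℤ) (Fin.cons 0 ω) : Fin (k + 2) → ℤ)
      (Finsupp.single (0 : Fin (k + 2)) n + Finsupp.single 1 1) = s * n := by
  unfold wtZ
  rw [Fin.sum_univ_succ, Fin.sum_univ_succ]
  simp [Finsupp.single_apply, Fin.ext_iff]

theorem isMin_chart {A B : Fin r → ℂ} (s : ℕ) (ω : Fin k → ℤ) :
    IsMinZ (chartF k A B) (Fin.cons (s : ℤ) (Fin.cons 0 ω)) 0 := by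
  constructor
  · refine ⟨0, ?_, by simp [wtZ]⟩
    rw [mem_support_iff, coeff_zero_chartF]
    norm_num
  · intro β hβ
    rcases mem_chartF hβ with rfl | ⟨n, rfl⟩
    · simp [wtZ]
    · rw [wtZ_chart]; positivity

theorem reg_chart {A B : Fin r → ℂ} (a : Fin (k + 2) → ℤ)
    (ha : IsMinZ (chartF k A B) a 0) : RegZ (chartF k A B) a := by
  classical
  intro ξ hξ h0
  refine ⟨1, ?_⟩
  have h1 : X 1 * pderiv 1 (inFormZ (chartF k A B) a) = inFormZ (chartF k A B) a + 1 := by
    unfold inFormZ
    have hmem : (0 : Fin (k + 2) →₀ ℕ) ∈ (chartF k A B).support.filter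
        (fun α => ∀ β ∈ (chartF k A B).support, wtZ a α ≤ wtZ a β) := by
      rw [Finset.mem_filter, mem_support_iff, coeff_zero_chartF]
      refine ⟨by norm_num, fun β hβ => ?_⟩
      have := ha.2 β hβ
      simpa [wtZ] using this
    rw [← Finset.sum_erase_add _ _ hmem, map_add, mul_add, map_sum, Finset.mul_sum,
      coeff_zero_chartF]
    have h2 : X 1 * pderiv 1 (monomial (0 : Fin (k + 2) →₀ ℕ) (-1 : ℂ)) = 0 := by
      rw [pderiv_monomial]; simp
    have h3 : monomial (0 : Fin (k + 2) →₀ ℕ) (-1 : ℂ) = -1 := by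
      simp
    rw [h2, h3]
    have h4 : ∀ α ∈ ((chartF k A B).support.filter
        (fun α => ∀ β ∈ (chartF k A B).support, wtZ a α ≤ wtZ a β)).erase 0,
        X 1 * pderiv 1 (monomial α (coeff α (chartF k A B))) =
          monomial α (coeff α (chartF k A B)) := by
      intro α hα
      rw [Finset.mem_erase, Finset.mem_filter] at hα
      rcases mem_chartF hα.2.1 with h | ⟨n, hn⟩
      · exact absurd h hα.1
      · rw [X_mul_pderiv_monomial]
        have h5 : α 1 = 1 := by rw [hn]; simp
        rw [h5, one_smul]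
    rw [Finset.sum_congr rfl h4]
    ring
  have h2 := congrArg (eval ξ) h1
  rw [map_mul, map_add, h0, eval_X, map_one, zero_add] at h2
  intro h3
  rw [h3, mul_zero] at h2
  exact zero_ne_one h2

end Eqn

theorem g4 (hyp : ChartHyp) (res : ChartRes) : ChartExist := by
  classical
  intro k r L _ _ x z A B hrat hA s ω hsω
  have H := hyp k r L x z A B hrat hA
  set a : Fin (k + 2) → ℤ := Fin.cons (s : ℤ) (Fin.cons 0 ω) with ha
  have ha0 : a ≠ 0 := by
    intro h
    rcases hsω with h1 | h1
    · apply h1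
      have h2 := congrFun h 0
      simp only [ha, Fin.cons_zero, Pi.zero_apply] at h2
      exact_mod_cast h2
    · apply h1
      funext l
      have h2 := congrFun h l.succ.succ
      simp only [ha, Fin.cons_succ, Pi.zero_apply] at h2
      exact h2
  have hmin : IsMinZ (chartF k A B) a 0 := isMin_chart s ω
  have hreg : RegZ (chartF k A B) a := reg_chart a hmin
  have hα : (0 : Fin (k + 2) →₀ ℕ) ∈ (chartF k A B).support := by
    rw [mem_support_iff, coeff_zero_chartF]; norm_num
  have hβ : (Finsupp.single 1 1 : Fin (k + 2) →₀ ℕ) ∈ (chartF k A B).support := by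
    rw [mem_support_iff, coeff_one_chartF]
    exact Finset.prod_ne_zero_iff.2 fun i _ => hA i
  have hαw : wtZ a 0 = 0 := by simp [wtZ]
  have hβw : wtZ a (Finsupp.single 1 1) = 0 := by
    have := wtZ_chart s ω 0
    simp only [Finsupp.single_zero, zero_add, Nat.cast_zero, mul_zero] at this
    exact this
  have hαβ : (0 : Fin (k + 2) →₀ ℕ) ≠ Finsupp.single 1 1 := by
    intro h
    have h1 := DFunLike.congr_fun h 1
    simp at h1
  have HD : DiagData L (chartY x z A B) (chartF k A B) (⊥ : Subgroup (L ≃ₐ[ℂ] L)) :=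
    { gen := H.gen
      ker := H.ker
      f0 := H.f0
      x0 := H.x0
      fin := inferInstance
      diag := by
        intro τ hτ j
        rw [Subgroup.mem_bot] at hτ
        exact ⟨1, by rw [hτ]; simp⟩
      fix := by
        intro z
        refine ⟨fun _ τ hτ => ?_, fun _ => ⟨z, rfl⟩⟩
        rw [Subgroup.mem_bot] at hτ
        rw [hτ]; rfl }
  obtain ⟨c₁, e₀, v', w, hc₁, he₀, hv', hw, hvw, hx, hord⟩ :=
    psi_valZ HD a hreg ha0 1 one_pos (fun _ _ => by simp) hmin hα hβ hαw hβw hαβ
  have he1 : e₀ = 1 := by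
    obtain ⟨t, ht⟩ := hw.normalized
    have ht0 : t ≠ 0 := ne_zero_of_eq w (n := 1) (by simpa using ht)
    have h1 := hvw t
    have h2 : (algebraMap L L t) = t := rfl
    rw [h2, ht, ← coe_ov v' ht0, ← WithTop.coe_nsmul, nsmul_eq_mul] at h1
    have h3 : (1 : ℤ) = e₀ * ov v' t := by exact_mod_cast h1
    have h4 : (e₀ : ℤ) ∣ 1 := ⟨_, h3⟩
    have h5 := Int.eq_one_of_dvd_one (by positivity) h4
    exact_mod_cast h5
  subst he1
  have hxA : ∀ j, (c₁ : ℤ) * ov w (chartY x z A B j) = a j := by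
    intro j
    have h1 := hx j
    push_cast at h1
    rw [one_mul, one_mul] at h1
    exact h1
  have hc0 : (0 : ℤ) < c₁ := by exact_mod_cast hc₁
  have hwx : (c₁ : ℤ) * ov w x = s := hxA 0
  have hwz : ∀ l, (c₁ : ℤ) * ov w (z l) = ω l := fun l => hxA l.succ.succ
  have hwp : ov w (∏ i, lin x A B i) = 0 := by
    have h1 := hxA 1
    have h2 : chartY x z A B 1 = (∏ i, lin x A B i)⁻¹ := rfl
    have h3 : a 1 = 0 := rfl
    rw [h2, h3, ov_inv] at h1
    rcases mul_eq_zero.1 h1 with h4 | h4
    · omega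
    · omega
  have hp0 : ∏ i, lin x A B i ≠ 0 := by
    have h1 := H.x0 1
    have h2 : chartY x z A B 1 = (∏ i, lin x A B i)⁻¹ := rfl
    rw [h2] at h1
    exact fun h => h1 (by rw [h, inv_zero])
  have hl0 : ∀ i, lin x A B i ≠ 0 := fun i => Finset.prod_ne_zero_iff.1 hp0 i (Finset.mem_univ i)
  have hx0 : x ≠ 0 := H.x0 0
  have hwx0 : 0 ≤ ov w x := by
    have h1 : (0 : ℤ) ≤ (c₁ : ℤ) * ov w x := by rw [hwx]; positivity
    exact nonneg_of_mul_nonneg_right h1 hc0
  have hln : ∀ i, 0 ≤ ov w (lin x A B i) := by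
    intro i
    have h1 : (0 : WithTop ℤ) ≤ w (lin x A B i) := by
      unfold lin
      refine le_trans (le_min ?_ ?_) (w.map_add _ _)
      · by_cases h : A i = 0
        · rw [h, map_zero, AddValuation.map_zero]; exact le_top
        · rw [hw.const _ h]
      · rw [AddValuation.map_mul]
        refine add_nonneg ?_ ((nonneg_iff w hx0).2 hwx0)
        by_cases h : B i = 0
        · rw [h, map_zero, AddValuation.map_zero]; exact le_top
        · rw [hw.const _ h]
    exact (nonneg_iff w (hl0 i)).1 h1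
  have hl : ∀ i, ov w (lin x A B i) = 0 := by
    rw [ov_prod _ _ fun i _ => hl0 i] at hwp
    intro i
    exact (Finset.sum_eq_zero_iff_of_nonneg fun i _ => hln i).1 hwp i (Finset.mem_univ i)
  refine ⟨w, hw, c₁, hc₁, hwx, hwz, hl, ?_⟩
  intro D' h hh m' hm'
  have hR := res k r L x z A B hrat hA D' h hh
  have h1 := hord D' _ hR m' hm'
  have hh0 : h ≠ 0 := by
    rintro rfl
    rw [zero_mul] at hh
    exact zero_ne_one hh
  have h2 : ov w (-(∏ i, lin x A B i) * h) = ov w h := by
    rw [neg_mul, ← mul_neg, ov_mul w hp0 (neg_ne_zero.2 hh0), hwp, zero_add]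
    unfold ov
    rw [AddValuation.map_neg]
  rw [h2] at h1
  have h3 : ∑ j, a j = s + ∑ l, ω l := by
    rw [Fin.sum_univ_succ, Fin.sum_univ_succ]
    simp [ha]
  rw [h3] at h1
  push_cast at h1
  linarith

end Vale.Agent.P283.T647
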