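import Vale.Agent.P283.T647.Ch
import Vale.Agent.P283.H647.Gen

/-!
G5. Generic functions with given exponents.
-/

set_option linter.all false

namespace Vale.Agent.P283.T647

open MvPolynomial

theorem prod_zpow_sum {L ι : Type} [Field L] (s : Finset ι) {x : L} (hx : x ≠ 0) (f : ι → ℤ) :
    ∏ i ∈ s, x ^ f i = x ^ ∑ i ∈ s, f i := by
  classical
  induction s using Finset.induction_on with
  | empty => simp
  | insert i s hi ih => rw [Finset.prod_insert hi, Finset.sum_insert hi, ih, zpow_add₀ hx]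

section

variable {L : Type} [Field L] [Algebra ℂ L] {R k : ℕ} {t : L} {a : Fin (R + 1) → ℂ}
  {z : Fin k → L}

/-- The exponents in the chart of a page. -/
def pphi (p : Option (Fin (R + 1))) (γ : Fin (R + 1) ⊕ Fin k → ℤ) :
    ℤ × (Fin (R + 1) → ℤ) × (Fin k → ℤ) :=
  (∑ j, pn p j * γ (Sum.inl j), fun j => γ (Sum.inl j), fun l => γ (Sum.inr l))

theorem elim_pphi (p : Option (Fin (R + 1))) (γ : Fin (R + 1) ⊕ Fin k → ℤ) :
    Sum.elim (pphi p γ).2.1 (pphi p γ).2.2 = γ := by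
  funext x
  cases x <;> rfl

theorem pphi_inj (p : Option (Fin (R + 1))) : Function.Injective (pphi (k := k) p) := by
  intro γ γ' h
  rw [← elim_pphi p γ, ← elim_pphi p γ', h]

theorem term_pphi (h : IsRat t z) (p : Option (Fin (R + 1))) (γ : Fin (R + 1) ⊕ Fin k → ℤ) :
    term (px t a p) z (pA a p) (pB a p) (pphi p γ) = ∏ x, coord t a z x ^ γ x := by
  have hx := px_ne (a := a) h p
  rw [Fintype.prod_sum_type]
  unfold term
  congr 1
  show px t a p ^ (∑ j, pn p j * γ (Sum.inl j)) *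
    ∏ j, lin (px t a p) (pA a p) (pB a p) j ^ γ (Sum.inl j) =
      ∏ j, (t - algebraMap ℂ L (a j)) ^ γ (Sum.inl j)
  rw [← prod_zpow_sum Finset.univ hx, ← Finset.prod_mul_distrib]
  refine Finset.prod_congr rfl fun j _ => ?_
  rw [page_eq (a := a) h p j, mul_zpow, ← zpow_mul]

theorem coord_ne (h : IsRat t z) (x : Fin (R + 1) ⊕ Fin k) : coord t a z x ≠ 0 := by
  cases x with
  | inl j => exact h.ne_const _
  | inr l => exact h.z_ne l

end

theorem g5 (hB : ChartBound) : GenericF := by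
  classical
  intro R k L _ _ t a z hrat ha Ee hEe
  obtain ⟨c, hc⟩ := H647.gen_coeffs (Finset.univ.image a) Ee
  obtain ⟨c', hc'⟩ : ∃ c' : (Fin (R + 1) ⊕ Fin k → ℤ) → ℂ,
      ∀ γ (h : γ ∈ Ee), c' γ = c ⟨γ, h⟩ :=
    ⟨fun γ => if h : γ ∈ Ee then c ⟨γ, h⟩ else 0, fun γ h => by simp [h]⟩
  have hder : ∀ γ₀ ∈ Ee, ∃ δ : Derivation ℚ ℂ ℂ, (∀ j, δ (a j) = 0) ∧ δ (c' γ₀) = 1 ∧
      ∀ γ ∈ Ee, γ ≠ γ₀ → δ (c' γ) = 0 := by
    intro γ₀ hγ₀
    obtain ⟨δ, h1, h2, h3⟩ := hc ⟨γ₀, hγ₀⟩
    refine ⟨δ, fun j => h1 _ (Finset.mem_image_of_mem _ (Finset.mem_univ _)), ?_, ?_⟩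
    · rw [hc' _ hγ₀]; exact h2
    · intro γ hγ hne
      rw [hc' _ hγ]
      exact h3 ⟨γ, hγ⟩ fun h => hne (congrArg Subtype.val h)
  have hc0 : ∀ γ ∈ Ee, c' γ ≠ 0 := by
    intro γ hγ h0
    obtain ⟨δ, -, h2, -⟩ := hder γ hγ
    rw [h0, map_zero] at h2
    exact zero_ne_one h2
  set F : L := ∑ γ ∈ Ee, algebraMap ℂ L (c' γ) * ∏ x, coord t a z x ^ γ x with hFdef
  have hF : ∀ p : Option (Fin (R + 1)), ∑ e ∈ Ee.image (pphi p),
      algebraMap ℂ L (c' (Sum.elim e.2.1 e.2.2)) * term (px t a p) z (pA a p) (pB a p) e = F := by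
    intro p
    rw [Finset.sum_image fun γ _ γ' _ h => pphi_inj p h, hFdef]
    exact Finset.sum_congr rfl fun γ _ => by rw [elim_pphi, term_pphi hrat]
  have hBp := fun p : Option (Fin (R + 1)) => hB k (R + 1) L (px t a p) z (pA a p) (pB a p)
    (page_rat hrat p) (pA_ne ha p) (Ee.image (pphi p)) (fun e => c' (Sum.elim e.2.1 e.2.2))
    (hEe.image _) (by
      intro e₀ he₀
      obtain ⟨γ₀, hγ₀, rfl⟩ := Finset.mem_image.1 he₀
      obtain ⟨δ, h1, h2, h3⟩ := hder γ₀ hγ₀
      refine ⟨δ, fun i => ?_, fun i => ?_, by rw [elim_pphi]; exact h2, ?_⟩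
      · cases p with
        | none => exact δ.map_one_eq_zero
        | some j =>
          show δ (if j = i then (1 : ℂ) else a j - a i) = 0
          split_ifs
          · exact δ.map_one_eq_zero
          · rw [map_sub, h1, h1, sub_zero]
      · cases p with
        | none =>
          show δ (a 0 - a i) = 0
          rw [map_sub, h1, h1, sub_zero]
        | some j =>
          show δ (if j = i then (0 : ℂ) else 1) = 0
          split_ifs
          · exact map_zero δ
          · exact δ.map_one_eq_zero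
      · intro e he hne
        obtain ⟨γ, hγ, rfl⟩ := Finset.mem_image.1 he
        rw [elim_pphi]
        exact h3 γ hγ fun h => hne (by rw [h]))
  have hF0 : F ≠ 0 := by
    have := (hBp none).1
    rwa [hF] at this
  refine ⟨F, hF0, ?_, ?_⟩
  · intro w hw B hBd
    rw [← le_iff w hF0, hFdef]
    apply AddValuation.map_le_sum
    intro γ hγ
    have hprod : ∏ x, coord t a z x ^ γ x ≠ 0 :=
      Finset.prod_ne_zero_iff.2 fun x _ => zpow_ne_zero _ (coord_ne hrat x)
    rw [AddValuation.map_mul, hw _ (hc0 γ hγ), zero_add, le_iff w hprod,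
      ov_prod _ _ fun x _ => zpow_ne_zero _ (coord_ne hrat x)]
    refine (hBd γ hγ).trans (le_of_eq ?_)
    exact Finset.sum_congr rfl fun x _ => (ov_zpow w (coord_ne hrat x) _).symm
  · intro w hw D' h₀ hj m' hm' γ₀ hγ₀ hmin
    obtain ⟨p, hx, hlin, hwts, hld⟩ := exists_page hrat ha w hw.const
    have htwt : ∀ γ, twt w (px t a p) z (pphi p γ) = ∑ x, γ x * wts w t a z x := by
      intro γ
      rw [Fintype.sum_sum_type]
      unfold twt
      congr 1
      show (∑ j, pn p j * γ (Sum.inl j)) * ov w (px t a p) = _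
      rw [Finset.sum_mul]
      exact Finset.sum_congr rfl fun j _ => by rw [hwts]; ring
    have h10 : h₀ * Q.jac D' (Fin.cons t z) ≠ 0 := by rw [hj]; exact one_ne_zero
    have h0ne : h₀ ≠ 0 := left_ne_zero_of_mul h10
    have h1 := (hBp p).2 w hw hx hlin D' _ (jac_px hrat hj p) m' hm' (pphi p γ₀)
      (Finset.mem_image_of_mem _ hγ₀) (by
        intro e he
        obtain ⟨γ, hγ, rfl⟩ := Finset.mem_image.1 he
        rw [htwt, htwt]
        exact hmin γ hγ)
    rw [hF p, htwt, ov_h hrat w h0ne p] at h1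
    rw [hld]
    linarith

end Vale.Agent.P283.T647
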