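import Vale.Agent.P283.T647.Props

/-!
Row G6: the weights of a valuation lie on a page.
-/

set_option linter.all false

namespace Vale.Agent.P283.T647

namespace G6

section Wts

variable {L : Type} [Field L] [Algebra ℂ L] {R k : ℕ}

theorem sub_ne {t : L} {z : Fin k → L} (H : IsRat t z) (c : ℂ) : t - algebraMap ℂ L c ≠ 0 := by
  intro h0
  have h1 : MvPolynomial.aeval (Fin.cons t z : Fin (k + 1) → L)
      (MvPolynomial.X 0 - MvPolynomial.C c : MvPolynomial (Fin (k + 1)) ℂ) = 0 := by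
    rw [map_sub, MvPolynomial.aeval_C, MvPolynomial.aeval_X, Fin.cons_zero]
    exact h0
  have h2 := H.ind.eq_zero_of_aeval_eq_zero _ h1
  have h3 := congrArg (MvPolynomial.coeff (Finsupp.single 0 1)) h2
  have h4 : ¬ ((0 : Fin (k + 1) →₀ ℕ) = Finsupp.single 0 1) := by
    intro h4
    have h5 := DFunLike.congr_fun h4 0
    rw [Finsupp.single_eq_same, Finsupp.zero_apply] at h5
    exact zero_ne_one h5
  rw [MvPolynomial.coeff_sub, MvPolynomial.coeff_X, MvPolynomial.coeff_C, if_neg h4,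
    MvPolynomial.coeff_zero] at h3
  simp at h3

theorem page {w : AddValuation L (WithTop ℤ)} (hw : ∀ c : ℂ, c ≠ 0 → w (algebraMap ℂ L c) = 0)
    {t : L} {z : Fin k → L} (H : IsRat t z) {c d : ℂ} (hcd : c ≠ d)
    (hne : ov w (t - algebraMap ℂ L c) ≠ ov w (t - algebraMap ℂ L d)) :
    min (ov w (t - algebraMap ℂ L c)) (ov w (t - algebraMap ℂ L d)) = 0 := by
  have h1 : (t - algebraMap ℂ L c) - (t - algebraMap ℂ L d) = algebraMap ℂ L (d - c) := by
    rw [map_sub]; ring
  have h2 : w ((t - algebraMap ℂ L c) - (t - algebraMap ℂ L d)) = 0 := by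
    rw [h1]
    exact hw _ (sub_ne_zero.2 hcd.symm)
  have h3 := coe_ov w (sub_ne H c)
  have h4 := coe_ov w (sub_ne H d)
  have h5 : w (t - algebraMap ℂ L c) ≠ w (t - algebraMap ℂ L d) := by
    rw [← h3, ← h4]
    exact fun h => hne (WithTop.coe_injective h)
  have h6 : w ((t - algebraMap ℂ L c) - (t - algebraMap ℂ L d)) =
      min (w (t - algebraMap ℂ L c)) (w (t - algebraMap ℂ L d)) := by
    rw [sub_eq_add_neg, w.map_add_of_distinct_val, w.map_neg]
    rw [w.map_neg]
    exact h5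
  rw [h2, ← h3, ← h4, ← WithTop.coe_min] at h6
  exact (WithTop.coe_injective h6).symm

theorem page_le {w : AddValuation L (WithTop ℤ)} (hw : ∀ c : ℂ, c ≠ 0 → w (algebraMap ℂ L c) = 0)
    {t : L} {z : Fin k → L} (H : IsRat t z) {c d : ℂ} (hcd : c ≠ d) :
    min (ov w (t - algebraMap ℂ L c)) (ov w (t - algebraMap ℂ L d)) ≤ 0 := by
  have h1 : (t - algebraMap ℂ L c) - (t - algebraMap ℂ L d) = algebraMap ℂ L (d - c) := by
    rw [map_sub]; ring
  have h2 : w ((t - algebraMap ℂ L c) - (t - algebraMap ℂ L d)) = 0 := by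
    rw [h1]
    exact hw _ (sub_ne_zero.2 hcd.symm)
  have h3 := coe_ov w (sub_ne H c)
  have h4 := coe_ov w (sub_ne H d)
  have h6 := w.map_sub (t - algebraMap ℂ L c) (t - algebraMap ℂ L d)
  rw [h2, ← h3, ← h4, ← WithTop.coe_min] at h6
  exact_mod_cast h6

end Wts

end G6

/-- G6. -/
theorem g6 : WtsPage := by
  intro R k L _ _ t a z H ha w hw
  have h1 : ∀ i, wts w t a z (Sum.inl i) = ov w (t - algebraMap ℂ L (a i)) := fun i => rfl
  by_cases hp : ∃ i, 0 < wts w t a z (Sum.inl i)
  · obtain ⟨i, hi⟩ := hp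
    refine Or.inl ⟨i, hi.le, fun j hj => ?_⟩
    have h2 := G6.page_le hw H (ha.ne hj)
    by_cases h3 : ov w (t - algebraMap ℂ L (a j)) = ov w (t - algebraMap ℂ L (a i))
    · rw [h3, min_self] at h2
      rw [h1] at hi
      omega
    · have h4 := G6.page hw H (ha.ne hj) h3
      rw [h1] at hi ⊢
      rcases min_choice (ov w (t - algebraMap ℂ L (a j))) (ov w (t - algebraMap ℂ L (a i))) with
        h5 | h5
      · rw [← h5]; exact h4
      · rw [h5] at h4; omega
  · push Not at hp
    by_cases hn : ∃ i, wts w t a z (Sum.inl i) < 0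
    · obtain ⟨i, hi⟩ := hn
      refine Or.inr ⟨wts w t a z (Sum.inl i), hi.le, fun j => ?_⟩
      by_contra h2
      have hji : j ≠ i := by
        rintro rfl
        exact h2 rfl
      have h4 := G6.page hw H (ha.ne hji) h2
      have h5 := min_le_right (ov w (t - algebraMap ℂ L (a j))) (ov w (t - algebraMap ℂ L (a i)))
      rw [h1] at hi
      omega
    · push Not at hn
      have h0 : ∀ i, wts w t a z (Sum.inl i) = 0 := fun i => le_antisymm (hp i) (hn i)
      exact Or.inl ⟨0, (h0 0).ge, fun j _ => h0 j⟩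

end Vale.Agent.P283.T647
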