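import Vale.Agent.P283.T647.Props

/-!
All books: the case distinction.
-/

set_option linter.all false

namespace Vale.Agent.P283.T647

theorem r10 (hc : CountRow) (hM : CaseM) (hE : CaseE) (hA : CaseA) : BookAll := by
  classical
  intro k q δ hq hδ
  choose kM hkM hkM' using fun n => hM n k q δ hδ
  obtain ⟨kE, hkE, hkE'⟩ := hE k q δ hδ
  obtain ⟨kA, hkA, hkA'⟩ := hA k q δ hδ
  refine ⟨(∏ n ∈ Finset.range (4 * q + 2), kM n) * kE * kA,
    Nat.mul_pos (Nat.mul_pos (Finset.prod_pos fun n _ => hkM n) hkE) hkA, ?_⟩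
  intro P ι _ _ _ pg s w κ hB hR K hK hK0
  have hKM : ∀ n, n < 4 * q + 2 → kM n ∣ K := fun n hn =>
    ((Finset.dvd_prod_of_mem kM (Finset.mem_range.mpr hn)).trans
      ((Dvd.intro _ rfl).trans (Dvd.intro _ rfl))).trans hK
  have hKE : kE ∣ K := ((Dvd.intro_left _ rfl).trans (Dvd.intro _ rfl)).trans hK
  have hKA : kA ∣ K := (Dvd.intro_left _ rfl).trans hK
  by_cases hall : ∀ p, ∃ j, pg j = some p
  swap
  · push Not at hall
    obtain ⟨p₁, hp₁⟩ := hall
    exact hkA' P ι pg s w κ hB hR p₁ hp₁ K hKA hK0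
  set N0 : Finset P := Finset.univ.filter fun p => ¬ Triv q pg s κ p with hN0
  have hin : ∀ p ∈ N0, ¬ Triv q pg s κ p := fun p hp => (Finset.mem_filter.mp hp).2
  have hout : ∀ p, p ∉ N0 → Triv q pg s κ p := by
    intro p hp
    by_contra h
    exact hp (Finset.mem_filter.mpr ⟨Finset.mem_univ _, h⟩)
  have hcard : N0.card ≤ 4 * q := hc P ι k q δ pg s w κ hB hall N0 hin
  have main : ∀ 𝒩 : Finset P, MergeCond q pg s w κ 𝒩 → 𝒩.card < 4 * q + 2 →
      Goal q K pg s w κ := fun 𝒩 h h' =>
    hkM' 𝒩.card P ι pg s w κ hB hR hall 𝒩 h rfl K (hKM _ h') hK0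
  rcases Nat.lt_or_ge 2 N0.card with h3 | h3
  · exact main N0 ⟨hout, Or.inr ⟨hin, Or.inl h3⟩⟩ (by omega)
  rcases Nat.lt_or_ge 1 N0.card with h2 | h2
  · have h2' : N0.card = 2 := by omega
    by_cases hW : ∃ f f' : P → ι, Ch N0 pg f ∧ Ch N0 pg f' ∧
      ∃ i, ∑ p ∈ N0ᶜ, w (f p) i ≠ ∑ p ∈ N0ᶜ, w (f' p) i
    · exact main N0 ⟨hout, Or.inr ⟨hin, Or.inr ⟨h2', hW⟩⟩⟩ (by omega)
    · push Not at hW
      obtain ⟨p₁, p₂, hne, hpp⟩ := Finset.card_eq_two.mp h2'
      have hmem : ∀ p, p ≠ p₁ → p ≠ p₂ → p ∉ N0 := by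
        intro p h1 h2 hp
        rw [hpp, Finset.mem_insert, Finset.mem_singleton] at hp
        exact hp.elim h1 h2
      refine hkE' P ι pg s w κ hB hR hall p₁ p₂ hne (fun p h1 h2 => hout p (hmem p h1 h2)) ?_ K hKE
        hK0
      intro p h1 h2 j j' hj hj'
      choose f₀ hf₀ using hall
      have hpN := hmem p h1 h2
      have key := hW (Function.update f₀ p j) (Function.update f₀ p j') ?_ ?_
      · funext i
        have h := key i
        have e : ∀ x : ι, ∑ r ∈ N0ᶜ, w (Function.update f₀ p x r) i =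
            w x i + ∑ r ∈ N0ᶜ.erase p, w (f₀ r) i := by
          intro x
          rw [← Finset.add_sum_erase _ _ (Finset.mem_compl.mpr hpN), Function.update_self]
          congr 1
          refine Finset.sum_congr rfl fun r hr => ?_
          rw [Function.update_of_ne (Finset.ne_of_mem_erase hr)]
        rw [e, e] at h
        exact add_right_cancel h
      · intro r hr
        by_cases hrp : r = p
        · subst hrp; rw [Function.update_self]; exact hj
        · rw [Function.update_of_ne hrp]; exact hf₀ r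
      · intro r hr
        by_cases hrp : r = p
        · subst hrp; rw [Function.update_self]; exact hj'
        · rw [Function.update_of_ne hrp]; exact hf₀ r
  rcases Nat.lt_or_ge 0 N0.card with h1 | h1
  · exact main N0 ⟨hout, Or.inl (by omega)⟩ (by omega)
  · have h0 : N0 = ∅ := Finset.card_eq_zero.mp (by omega)
    have hP : 0 < Fintype.card P := by have := hB.two; omega
    obtain ⟨p⟩ := Fintype.card_pos_iff.mp hP
    refine main {p} ⟨fun r _ => hout r (by rw [h0]; exact Finset.notMem_empty r),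
      Or.inl (Finset.card_singleton p)⟩ ?_
    rw [Finset.card_singleton]
    omega

end Vale.Agent.P283.T647
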