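import Vale.Agent.P283.T647.Props

/-!
The book of a pair of complexity one.
-/

set_option linter.all false

namespace Vale.Agent.P283.T647

namespace R11

variable {R k N M : ℕ}

theorem mono_le {ι : Type} [Fintype ι] (E : Fin (M + 1) → ι → ℤ) (α : ι → ℤ)
    (i : Fin (M + 1)) : ordMono E α ≤ ∑ x, E i x * α x :=
  ciInf_le (Set.finite_range (fun i => ∑ x, E i x * α x)).bddBelow i

theorem mono_att {ι : Type} [Fintype ι] (E : Fin (M + 1) → ι → ℤ) (α : ι → ℤ) :
    ∃ i, ordMono E α = ∑ x, E i x * α x := by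
  obtain ⟨i, hi⟩ := exists_eq_ciInf_of_finite (f := fun i => ∑ x, E i x * α x)
  exact ⟨i, hi.symm⟩

theorem cone_dualT {ι : Type} [Fintype ι] (v : Fin N → ι → ℤ) (a : ι → ℤ)
    (h : ∀ u : ι → ℤ, (∀ j, 0 ≤ ∑ x, v j x * u x) → 0 ≤ ∑ x, a x * u x) : InCone v a := by
  classical
  let e : ι ≃ Fin (Fintype.card ι) := Fintype.equivFin ι
  have hs : ∀ (b : ι → ℤ) (u : Fin (Fintype.card ι) → ℤ),
      ∑ i, b (e.symm i) * u i = ∑ x, b x * u (e x) := by
    intro b u
    rw [← Equiv.sum_comp e (fun i => b (e.symm i) * u i)]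
    exact Finset.sum_congr rfl fun x _ => by rw [Equiv.symm_apply_apply]
  obtain ⟨c, hc, hac⟩ := Z647.cone_dual (fun j i => v j (e.symm i)) (fun i => a (e.symm i)) (by
    intro u hu
    rw [hs]
    refine h (fun x => u (e x)) fun j => ?_
    have := hu j
    rwa [hs] at this)
  refine ⟨c, hc, fun x => ?_⟩
  have := hac (e x)
  simpa using this

/-- The vector of the point `(o, s, w)`. -/
def vec (o : Option (Option (Fin (R + 1)))) (s : ℕ) (w : Fin k → ℤ) :
    Fin (R + 1) ⊕ Fin k → ℤ :=
  Sum.elim (fun i => o.elim 0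
    (fun p => p.elim (-(s : ℤ)) (fun i' => if i = i' then (s : ℤ) else 0))) w

/-- The values on the pages. -/
def ee (u : Fin (R + 1) ⊕ Fin k → ℤ) (p : Option (Fin (R + 1))) : ℤ :=
  p.elim (-∑ i, u (Sum.inl i)) (fun i => u (Sum.inl i))

theorem sum_ee (u : Fin (R + 1) ⊕ Fin k → ℤ) : ∑ p, ee u p = 0 := by
  rw [Fintype.sum_option]
  simp [ee]

theorem pair_vec (u : Fin (R + 1) ⊕ Fin k → ℤ) (o : Option (Option (Fin (R + 1)))) (s : ℕ)
    (w : Fin k → ℤ) : ∑ x, u x * vec o s w x =
      o.elim 0 (fun p => (s : ℤ) * ee u p) + ∑ l, u (Sum.inr l) * w l := by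
  rw [Fintype.sum_sum_type]
  simp only [vec, Sum.elim_inl, Sum.elim_inr]
  congr 1
  rcases o with _ | p | i'
  · simp
  · simp only [Option.elim, ee, ← Finset.sum_mul]
    ring
  · simp only [Option.elim, ee]
    simp [mul_comm]

theorem disc_vec (o : Option (Option (Fin (R + 1)))) (s : ℕ) (w : Fin k → ℤ) :
    logDisc (vec o s w) =
      o.elim 0 (fun p => p.elim (-(s : ℤ)) (fun _ => (s : ℤ))) + ∑ l, w l := by
  unfold logDisc
  rw [Fintype.sum_sum_type]
  simp only [vec, Sum.elim_inl, Sum.elim_inr]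
  rcases o with _ | p | i'
  · simp
  · simp only [Option.elim]
    rw [min_eq_right (by simp : -(s : ℤ) ≤ 0)]
    simp
    ring
  · simp only [Option.elim]
    rw [min_eq_left (by split_ifs <;> positivity)]
    simp

theorem onPage_vec (p : Option (Fin (R + 1))) (s : ℕ) (w : Fin k → ℤ) :
    OnPage (vec (some p) s w) := by
  rcases p with _ | i'
  · exact Or.inr ⟨-(s : ℤ), by simp, fun j => by simp [vec]⟩
  · refine Or.inl ⟨i', by simp [vec], fun j hj => by simp [vec, hj]⟩

theorem vec_ne {p : Option (Fin (R + 1))} {s : ℕ} {w : Fin k → ℤ} (h : s ≠ 0 ∨ w ≠ 0) :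
    vec (some p) s w ≠ 0 := by
  intro h0
  have hw : w = 0 := by
    funext l
    have := congrFun h0 (Sum.inr l)
    simpa [vec] using this
  rcases h with h | h
  · apply h
    rcases p with _ | i'
    · have := congrFun h0 (Sum.inl 0)
      simpa [vec] using this
    · have := congrFun h0 (Sum.inl i')
      simpa [vec] using this
  · exact h hw

/-- The page of a ray. -/
theorem exists_page (v : Fin (R + 1) ⊕ Fin k → ℤ) (h : OnPage v) :
    ∃ (o : Option (Option (Fin (R + 1)))) (s : ℕ), v = vec o s (fun l => v (Sum.inr l)) ∧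
      (o ≠ none → 0 < s) := by
  rcases h with ⟨i, hi, hj⟩ | ⟨s, hs, hall⟩
  · rcases eq_or_lt_of_le hi with h0 | hpos
    · refine ⟨none, 0, ?_, fun h => absurd rfl h⟩
      funext x
      rcases x with j | l
      · by_cases hji : j = i
        · subst hji; simp [vec, h0.symm]
        · simp [vec, hj j hji]
      · rfl
    · refine ⟨some (some i), (v (Sum.inl i)).toNat, ?_, fun _ => by omega⟩
      funext x
      rcases x with j | l
      · by_cases hji : j = i
        · subst hji
          simp only [vec, Sum.elim_inl, Option.elim, if_true]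
          omega
        · simp [vec, hj j hji, hji]
      · rfl
  · rcases eq_or_lt_of_le hs with h0 | hneg
    · refine ⟨none, 0, ?_, fun h => absurd rfl h⟩
      funext x
      rcases x with j | l
      · simp [vec, hall j, h0]
      · rfl
    · refine ⟨some none, (-s).toNat, ?_, fun _ => by omega⟩
      funext x
      rcases x with j | l
      · simp only [vec, Sum.elim_inl, Option.elim, hall j]
        omega
      · rfl

/-- The sum of the coordinates of the rays. -/
theorem sum_inl (pg : Fin N → Option (Option (Fin (R + 1)))) (s : Fin N → ℕ)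
    (w : Fin N → Fin k → ℤ) (c : Fin N → ℝ) (i : Fin (R + 1)) :
    ∑ j, c j * (vec (pg j) (s j) (w j) (Sum.inl i) : ℝ) =
      psum pg s c (some i) - psum pg s c none := by
  unfold psum
  rw [← Finset.sum_sub_distrib]
  refine Finset.sum_congr rfl fun j _ => ?_
  rcases hp : pg j with _ | p | i'
  · simp [vec]
  · simp [vec]
  · by_cases h : i = i'
    · subst h; simp [vec]
    · have h' : ¬ i' = i := fun h1 => h h1.symm
      simp [vec, h, h']

theorem sum_disc (pg : Fin N → Option (Option (Fin (R + 1)))) (s : Fin N → ℕ)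
    (w : Fin N → Fin k → ℤ) (c : Fin N → ℝ) :
    ∑ j, c j * (logDisc (vec (pg j) (s j) (w j)) : ℝ) =
      ∑ i : Fin (R + 1), psum pg s c (some i) - psum pg s c none +
        ∑ l, ∑ j, c j * (w j l : ℝ) := by
  have e1 : ∑ i : Fin (R + 1), psum pg s c (some i) =
      ∑ j, ∑ i : Fin (R + 1), if pg j = some (some i) then c j * (s j : ℝ) else 0 := by
    unfold psum
    exact Finset.sum_comm
  have e2 : ∑ l, ∑ j, c j * (w j l : ℝ) = ∑ j, ∑ l, c j * (w j l : ℝ) := Finset.sum_comm
  rw [e1, e2]
  unfold psum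
  rw [← Finset.sum_sub_distrib, ← Finset.sum_add_distrib]
  refine Finset.sum_congr rfl fun j _ => ?_
  rw [disc_vec]
  rcases hp : pg j with _ | p | i'
  · simp [Finset.mul_sum]
  · simp [Finset.mul_sum, mul_add]
  · simp [Finset.mul_sum, mul_add]

theorem conc {ι : Type} [Fintype ι] (v : Fin N → ι → ℤ) (E : Fin (M + 1) → ι → ℤ)
    (c : Fin N → ℝ) (hc : ∀ j, 0 ≤ c j) (α : ι → ℤ)
    (hα : ∀ x, (α x : ℝ) = ∑ j, c j * (v j x : ℝ)) :
    ∑ j, c j * (ordMono E (v j) : ℝ) ≤ (ordMono E α : ℝ) := by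
  obtain ⟨i, hi⟩ := mono_att E α
  rw [hi]
  push_cast
  simp only [hα, Finset.mul_sum]
  rw [Finset.sum_comm]
  refine Finset.sum_le_sum fun j _ => ?_
  have h1 : (ordMono E (v j) : ℝ) ≤ ∑ x, (E i x : ℝ) * (v j x : ℝ) := by
    exact_mod_cast mono_le E (v j) i
  calc c j * (ordMono E (v j) : ℝ) ≤ c j * ∑ x, (E i x : ℝ) * (v j x : ℝ) :=
        mul_le_mul_of_nonneg_left h1 (hc j)
    _ = ∑ x, (E i x : ℝ) * (c j * (v j x : ℝ)) := by
        rw [Finset.mul_sum]
        exact Finset.sum_congr rfl fun x _ => by ring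

theorem cone_real {ι : Type} [Fintype ι] (v : Fin N → ι → ℤ)
    (c : Fin N → ℝ) (hc : ∀ j, 0 ≤ c j) (α : ι → ℤ)
    (hα : ∀ x, (α x : ℝ) = ∑ j, c j * (v j x : ℝ)) : InCone v α := by
  apply cone_dualT
  intro u hu
  have h1 : ((∑ x, α x * u x : ℤ) : ℝ) = ∑ j, c j * ((∑ x, v j x * u x : ℤ) : ℝ) := by
    push_cast
    simp only [hα, Finset.sum_mul, Finset.mul_sum]
    rw [Finset.sum_comm]
    exact Finset.sum_congr rfl fun j _ => Finset.sum_congr rfl fun k _ => by ring
  have h2 : (0 : ℝ) ≤ ((∑ x, α x * u x : ℤ) : ℝ) := by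
    rw [h1]
    exact Finset.sum_nonneg fun j _ => mul_nonneg (hc j) (by exact_mod_cast hu j)
  exact_mod_cast h2

/-- The vector of the point of a relation. -/
theorem coord_vec (pg : Fin N → Option (Option (Fin (R + 1)))) (s : Fin N → ℕ)
    (w : Fin N → Fin k → ℤ) (c : Fin N → ℝ) (p₀ : Option (Fin (R + 1))) (μ : ℝ) (σ : ℕ)
    (b : Fin k → ℤ) (hp : ∀ p, psum pg s c p = μ + if p = p₀ then (σ : ℝ) else 0)
    (hb : ∀ i, (b i : ℝ) = ∑ j, c j * (w j i : ℝ)) (x : Fin (R + 1) ⊕ Fin k) :
    (vec (some p₀) σ b x : ℝ) = ∑ j, c j * (vec (pg j) (s j) (w j) x : ℝ) := by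
  rcases x with i | l
  · rw [sum_inl, hp, hp]
    rcases p₀ with _ | i'
    · simp [vec]
    · by_cases h : i = i'
      · subst h; simp [vec]
      · simp [vec, h]
  · simp [vec, hb]

theorem core (q : ℕ) (hq : 0 < q) (r : ℕ) (hr : 0 < r)
    (pg : Fin N → Option (Option (Fin (R + 1)))) (s : Fin N → ℕ)
    (w : Fin N → Fin k → ℤ) (E : Fin (M + 1) → Fin (R + 1) ⊕ Fin k → ℤ) (κ : Fin N → ℕ)
    (hκ : ∀ j, (κ j : ℝ) = q * ((logDisc (vec (pg j) (s j) (w j)) : ℝ) -
      (ordMono E (vec (pg j) (s j) (w j)) : ℝ) / r))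
    (c : Fin N → ℝ) (hc : ∀ j, 0 ≤ c j) (p₀ : Option (Fin (R + 1))) (μ : ℝ) (σ : ℕ)
    (b : Fin k → ℤ) (hp : ∀ p, psum pg s c p = μ + if p = p₀ then (σ : ℝ) else 0)
    (hb : ∀ i, (b i : ℝ) = ∑ j, c j * (w j i : ℝ)) :
    (q : ℝ) * ((logDisc (vec (some p₀) σ b) : ℝ) - (ordMono E (vec (some p₀) σ b) : ℝ) / r) ≤
      ∑ j, c j * κ j - q * R * μ := by
  have hrR : (0 : ℝ) < r := by exact_mod_cast hr
  have hqR : (0 : ℝ) < q := by exact_mod_cast hq
  have h1 : ∑ j, c j * (κ j : ℝ) = q * (∑ j, c j * (logDisc (vec (pg j) (s j) (w j)) : ℝ) -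
      (∑ j, c j * (ordMono E (vec (pg j) (s j) (w j)) : ℝ)) / r) := by
    rw [mul_sub, Finset.mul_sum, Finset.sum_div, Finset.mul_sum, ← Finset.sum_sub_distrib]
    exact Finset.sum_congr rfl fun j _ => by rw [hκ]; ring
  have h2 := conc (fun j => vec (pg j) (s j) (w j)) E c hc (vec (some p₀) σ b)
    (coord_vec pg s w c p₀ μ σ b hp hb)
  have h3 : ∑ j, c j * (logDisc (vec (pg j) (s j) (w j)) : ℝ) =
      R * μ + (logDisc (vec (some p₀) σ b) : ℝ) := by
    rw [sum_disc, disc_vec]
    simp only [hp, ← hb]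
    rcases p₀ with _ | i'
    · simp [Finset.sum_add_distrib]
      ring
    · simp [Finset.sum_add_distrib]
      ring
  rw [h1, h3]
  have h4 : (∑ j, c j * (ordMono E (vec (pg j) (s j) (w j)) : ℝ)) / r ≤
      (ordMono E (vec (some p₀) σ b) : ℝ) / r := div_le_div_of_nonneg_right h2 hrR.le
  have h5 := mul_le_mul_of_nonneg_left h4 hqR.le
  nlinarith

theorem common_den {ι : Type} [Fintype ι] (F : ι → ℚ) (hF : ∀ o, 0 ≤ F o) :
    ∃ (D : ℕ) (n : ι → ℕ), 0 < D ∧ ∀ o, (n o : ℚ) = D * F o := by
  classical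
  have h1 : ∀ o, ∃ n : ℕ, (n : ℚ) = ((∏ o, (F o).den : ℕ) : ℚ) * F o := by
    intro o
    obtain ⟨e, he⟩ := Finset.dvd_prod_of_mem (fun o => (F o).den) (Finset.mem_univ o)
    have h2 : (0 : ℤ) ≤ (F o).num := Rat.num_nonneg.2 (hF o)
    refine ⟨(F o).num.toNat * e, ?_⟩
    rw [he]
    push_cast
    have h3 : (((F o).num.toNat : ℕ) : ℚ) = (F o).num := by
      exact_mod_cast Int.toNat_of_nonneg h2
    rw [h3]
    have h4 : ((F o).den : ℚ) * F o = (F o).num := by
      rw [mul_comm]; exact Rat.mul_den_eq_num (F o)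
    rw [← h4]; ring
  choose n hn using h1
  exact ⟨_, n, Finset.prod_pos fun o _ => (F o).den_pos, hn⟩

end R11

theorem r11 (h : RatApprox) : ToBook := by
  classical
  intro q ε hq hε R k N M r v E κ hr hrays hκ hκq hlc
  choose pg s hv hpos using fun j => R11.exists_page (v j) (hrays j)
  have hrR : (0 : ℝ) < r := by exact_mod_cast hr
  have hqR : (0 : ℝ) < q := by exact_mod_cast hq
  obtain ⟨w, hw⟩ : ∃ w : Fin N → Fin k → ℤ, w = fun j l => v j (Sum.inr l) := ⟨_, rfl⟩
  have hvv : v = fun j => R11.vec (pg j) (s j) (w j) := by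
    funext j; rw [hw]; exact hv j
  have hwv : (fun j l => v j (Sum.inr l)) = w := hw.symm
  refine ⟨pg, s, ?_, ?_, ?_⟩
  · intro j i
    rw [hvv]
    rfl
  · rw [hwv]
    clear hv hwv hw
    subst hvv
    have hκR : ∀ j, (κ j : ℝ) = q * ((logDisc (R11.vec (pg j) (s j) (w j)) : ℝ) -
        (ordMono E (R11.vec (pg j) (s j) (w j)) : ℝ) / r) := by
      intro j
      have h1 := congrArg (Rat.cast : ℚ → ℝ) (hκ j)
      unfold toricDisc at h1
      push_cast at h1
      exact h1
    have hlc' : ∀ c : Fin N → ℝ, (∀ j, 0 ≤ c j) → ∀ (p₀ : Option (Fin (R + 1))) (μ : ℝ) (σ : ℕ)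
        (b : Fin k → ℤ),
        (∀ p, psum pg s c p = μ + if p = p₀ then (σ : ℝ) else 0) →
        (∀ i, (b i : ℝ) = ∑ j, c j * w j i) → (σ ≠ 0 ∨ b ≠ 0) →
        q * ε ≤ ∑ j, c j * κ j - q * R * μ := by
      intro c hc p₀ μ σ b hp hb hne
      have h1 := hlc (R11.vec (some p₀) σ b) (R11.onPage_vec p₀ σ b)
        (R11.cone_real _ c hc _ (R11.coord_vec pg s w c p₀ μ σ b hp hb)) (R11.vec_ne hne)
      exact (mul_le_mul_of_nonneg_left h1 hqR.le).trans
        (R11.core q hq r hr pg s w E κ hκR c hc p₀ μ σ b hp hb)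
    have hcard : ((Fintype.card (Option (Fin (R + 1))) : ℝ) - 2) = R := by
      simp; ring
    -- the rational case
    have hnnQ : ∀ c : Fin N → ℚ, (∀ j, 0 ≤ c j) → ∀ (p₀ : Option (Fin (R + 1))) (μ σ : ℚ),
        0 ≤ σ →
        (∀ p, psum pg s (fun j => (c j : ℝ)) p = μ + if p = p₀ then (σ : ℝ) else 0) →
        0 ≤ ∑ j, (c j : ℝ) * κ j - q * R * μ := by
      intro c hc p₀ μ σ hσ hp
      obtain ⟨D, n, hD, hn⟩ := R11.common_den (fun o : Option (Fin N) => o.elim σ c)
        (fun o => by rcases o with _ | j; exacts [hσ, hc j])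
      have hDR : (0 : ℝ) < D := by exact_mod_cast hD
      have hnR : ∀ j, ((n (some j) : ℕ) : ℝ) = D * (c j : ℝ) := by
        intro j
        have := congrArg (Rat.cast : ℚ → ℝ) (hn (some j))
        push_cast at this
        exact this
      have hnσ : ((n none : ℕ) : ℝ) = D * (σ : ℝ) := by
        have := congrArg (Rat.cast : ℚ → ℝ) (hn none)
        push_cast at this
        exact this
      have hp' : ∀ p, psum pg s (fun j => ((n (some j) : ℕ) : ℝ)) p =
          D * μ + if p = p₀ then ((n none : ℕ) : ℝ) else 0 := by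
        intro p
        have h1 : psum pg s (fun j => ((n (some j) : ℕ) : ℝ)) p =
            D * psum pg s (fun j => (c j : ℝ)) p := by
          unfold psum
          rw [Finset.mul_sum]
          refine Finset.sum_congr rfl fun j _ => ?_
          simp only [hnR]
          split_ifs <;> ring
        rw [h1, hp, mul_add, hnσ]
        split_ifs <;> simp
      obtain ⟨b, hb⟩ : ∃ b : Fin k → ℤ, b = fun i => ∑ j, (n (some j) : ℤ) * w j i := ⟨_, rfl⟩
      have hb' : ∀ i, (b i : ℝ) = ∑ j, ((n (some j) : ℕ) : ℝ) * (w j i : ℝ) := by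
        intro i; rw [hb]; push_cast; rfl
      have hfin : ∑ j, ((n (some j) : ℕ) : ℝ) * (κ j : ℝ) - q * R * (D * μ) =
          D * (∑ j, (c j : ℝ) * κ j - q * R * μ) := by
        rw [mul_sub, Finset.mul_sum]
        congr 1
        · exact Finset.sum_congr rfl fun j _ => by rw [hnR]; ring
        · ring
      have hge : 0 ≤ D * (∑ j, (c j : ℝ) * κ j - q * R * μ) := by
        rw [← hfin]
        by_cases hne : n none ≠ 0 ∨ b ≠ 0
        · exact (mul_pos hqR hε).le.trans
            (hlc' _ (fun j => Nat.cast_nonneg _) p₀ _ _ b hp' hb' hne)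
        · push Not at hne
          have h1 := R11.core q hq r hr pg s w E κ hκR _ (fun j => Nat.cast_nonneg _) p₀ _ _ b
            hp' hb'
          refine le_trans ?_ h1
          have h0 : R11.vec (R := R) (some p₀) (n none) b = 0 := by
            rw [hne.1, hne.2]
            funext x
            rcases x with i | l
            · rcases p₀ with _ | i' <;> simp [R11.vec]
            · simp [R11.vec]
          rw [h0]
          obtain ⟨i, hi⟩ := R11.mono_att E (0 : Fin (R + 1) ⊕ Fin k → ℤ)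
          rw [hi]
          simp [logDisc]
      exact nonneg_of_mul_nonneg_right hge hDR
    refine ⟨hq, mul_pos hqR hε, by simp, ?_, hκq, ?_, ?_⟩
    · intro j p hjp
      exact hpos j (by rw [hjp]; exact Option.some_ne_none _)
    · intro c hc p₀ μ σ b hμ hp hb hne
      rw [hcard]
      exact hlc' c hc p₀ μ σ b hp hb hne
    · intro c hc p₀ μ σ hμ hσ hp
      rw [hcard]
      obtain ⟨p₁, hp₁⟩ := exists_ne p₀
      -- the linear function
      let a : Fin N → ℝ := fun j => κ j - q * R * (if pg j = some p₁ then (s j : ℝ) else 0)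
      have hL : ∀ c' : Fin N → ℝ, ∑ j, c' j * (κ j : ℝ) - q * R * psum pg s c' p₁ =
          ∑ j, c' j * a j := by
        intro c'
        unfold psum
        rw [Finset.mul_sum, ← Finset.sum_sub_distrib]
        refine Finset.sum_congr rfl fun j _ => ?_
        simp only [a]
        split_ifs <;> ring
      have hμ1 : psum pg s c p₁ = μ := by rw [hp, if_neg hp₁, add_zero]
      rw [← hμ1, hL]
      by_contra hneg
      push Not at hneg
      have hA : 0 ≤ ∑ j, |a j| := Finset.sum_nonneg fun j _ => abs_nonneg _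
      let t : Option (Fin (R + 1)) → Fin N → ℕ := fun p j => if pg j = some p then s j else 0
      let d : Option (Fin (R + 1)) → ℕ := fun p => if p = p₀ then 1 else 0
      have hps : ∀ (c' : Fin N → ℝ) (p : Option (Fin (R + 1))),
          psum pg s c' p = ∑ j, c' j * (t p j : ℝ) := by
        intro c' p
        unfold psum
        refine Finset.sum_congr rfl fun j _ => ?_
        simp only [t]
        split_ifs <;> simp
      have hd : ∀ (x : ℝ) (p : Option (Fin (R + 1))),
          (if p = p₀ then x else 0) = d p * x := by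
        intro x p
        simp only [d]
        split_ifs <;> simp
      obtain ⟨c', hc', heq, hclose⟩ := h (Option (Fin N)) (Option (Fin (R + 1)))
        (fun p o => o.elim (-(d p : ℚ)) (fun j => (t p j : ℚ) - (t p₁ j : ℚ)))
        (fun o => o.elim σ c) (fun o => by rcases o with _ | j; exacts [hσ, hc j])
        (by
          intro p
          rw [Fintype.sum_option]
          simp only [Option.elim]
          push_cast
          have h1 : ∑ j, (((t p j : ℝ) - (t p₁ j : ℝ)) * c j) =
              psum pg s c p - psum pg s c p₁ := by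
            rw [hps, hps, ← Finset.sum_sub_distrib]
            exact Finset.sum_congr rfl fun j _ => by ring
          rw [h1, hμ1, hp, hd]
          ring)
        (-(∑ j, c j * a j) / (∑ j, |a j| + 1)) (div_pos (by linarith) (by linarith))
      have hp'' : ∀ p, psum pg s (fun j => ((c' (some j) : ℚ) : ℝ)) p =
          ((∑ j, c' (some j) * (t p₁ j : ℚ) : ℚ) : ℝ) +
            if p = p₀ then ((c' none : ℚ) : ℝ) else 0 := by
        intro p
        have h1 := congrArg (Rat.cast : ℚ → ℝ) (heq p)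
        rw [Fintype.sum_option] at h1
        simp only [Option.elim] at h1
        push_cast at h1
        have h2 : ∑ j, (((t p j : ℝ) - (t p₁ j : ℝ)) * ((c' (some j) : ℚ) : ℝ)) =
              psum pg s (fun j => ((c' (some j) : ℚ) : ℝ)) p -
                ∑ j, ((c' (some j) : ℚ) : ℝ) * (t p₁ j : ℝ) := by
          rw [hps, ← Finset.sum_sub_distrib]
          exact Finset.sum_congr rfl fun j _ => by ring
        rw [h2] at h1
        push_cast
        rw [hd]
        linarith
      have h3 := hnnQ (fun j => c' (some j)) (fun j => hc' _) p₀ _ (c' none) (hc' _) hp''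
      have h4 : ((∑ j, c' (some j) * (t p₁ j : ℚ) : ℚ) : ℝ) =
          psum pg s (fun j => ((c' (some j) : ℚ) : ℝ)) p₁ := by
        rw [hps]
        push_cast
        rfl
      rw [h4, hL] at h3
      have h5 : ∑ j, (((c' (some j) : ℚ) : ℝ) - c j) * a j ≤
          (-(∑ j, c j * a j) / (∑ j, |a j| + 1)) * ∑ j, |a j| := by
        rw [Finset.mul_sum]
        refine Finset.sum_le_sum fun j _ => ?_
        calc (((c' (some j) : ℚ) : ℝ) - c j) * a j ≤ |(((c' (some j) : ℚ) : ℝ) - c j) * a j| :=
              le_abs_self _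
          _ = |((c' (some j) : ℚ) : ℝ) - c j| * |a j| := abs_mul _ _
          _ ≤ _ := mul_le_mul_of_nonneg_right (hclose (some j)).le (abs_nonneg _)
      have h6 : ∑ j, (((c' (some j) : ℚ) : ℝ) - c j) * a j =
          ∑ j, ((c' (some j) : ℚ) : ℝ) * a j - ∑ j, c j * a j := by
        rw [← Finset.sum_sub_distrib]
        exact Finset.sum_congr rfl fun j _ => by ring
      rw [h6] at h5
      have h7 : (-(∑ j, c j * a j) / (∑ j, |a j| + 1)) * ∑ j, |a j| < -(∑ j, c j * a j) := by
        rw [div_mul_eq_mul_div, div_lt_iff₀ (by linarith)]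
        nlinarith
      linarith
  · rw [hwv]
    clear hv hwv hw
    subst hvv
    intro p₀ σ a hne hin
    have hcone : InCone (fun j => R11.vec (pg j) (s j) (w j)) (R11.vec (some p₀) σ a) := by
      apply R11.cone_dualT
      intro u hu
      have hcomm : ∀ y : Fin (R + 1) ⊕ Fin k → ℤ, ∑ x, y x * u x = ∑ x, u x * y x := fun y =>
        Finset.sum_congr rfl fun x _ => mul_comm _ _
      rw [hcomm, R11.pair_vec]
      have h1 := hin (R11.ee u) (fun l => u (Sum.inr l)) (R11.sum_ee u).le (fun j => by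
        have h2 := hu j
        rw [hcomm, R11.pair_vec] at h2
        exact h2)
      exact h1
    have h1 := hlc _ (R11.onPage_vec p₀ σ a) hcone (R11.vec_ne hne)
    obtain ⟨i, hi⟩ := R11.mono_att E (R11.vec (some p₀) σ a)
    have hκZ : ∀ j, (r : ℤ) * κ j = q * (r * logDisc (R11.vec (pg j) (s j) (w j)) -
        ordMono E (R11.vec (pg j) (s j) (w j))) := by
      intro j
      have h2 := hκ j
      unfold toricDisc at h2
      have hrQ : (r : ℚ) ≠ 0 := by exact_mod_cast hr.ne'
      have h3 : (r : ℚ) * κ j = q * (r * logDisc (R11.vec (pg j) (s j) (w j)) -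
        ordMono E (R11.vec (pg j) (s j) (w j))) := by
        rw [h2]; field_simp
      exact_mod_cast h3
    -- the value of the functional
    have hval : ∀ (o : Option (Option (Fin (R + 1)))) (s' : ℕ) (w' : Fin k → ℤ),
        o.elim 0 (fun p => (s' : ℤ) * (q * r - (p.elim (2 * r * q - q * ∑ i', E i (Sum.inl i'))
          (fun i' => q * E i (Sum.inl i')) : ℤ))) +
          ∑ l, ((r : ℤ) * q - q * E i (Sum.inr l)) * w' l =
        q * (r * logDisc (R11.vec o s' w') - ∑ x, E i x * R11.vec o s' w' x) := by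
      intro o s' w'
      rw [R11.disc_vec, R11.pair_vec]
      simp only [sub_mul, Finset.sum_sub_distrib, mul_assoc, ← Finset.mul_sum]
      rcases o with _ | p | i'
      · simp only [Option.elim]; ring
      · simp only [Option.elim, R11.ee]; ring
      · simp only [Option.elim, R11.ee]; ring
    refine ⟨r, fun p => p.elim (2 * r * q - q * ∑ i', E i (Sum.inl i'))
          (fun i' => q * E i (Sum.inl i')), fun l => (r : ℤ) * q - q * E i (Sum.inr l), hr,
          ⟨?_, fun j => ?_⟩, ?_⟩
    · rw [Fintype.sum_option]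
      simp only [Option.elim, ← Finset.mul_sum]
      apply le_of_eq
      ring
    · unfold fval
      rw [hval, hκZ]
      have h2 := R11.mono_le E (R11.vec (pg j) (s j) (w j)) i
      have hq0 : (0 : ℤ) ≤ q := by positivity
      nlinarith
    · refine lt_of_lt_of_eq ?_ (hval (some p₀) σ a).symm
      rw [← hi]
      have h3 : (0 : ℝ) < q * (r * (logDisc (R11.vec (some p₀) σ a) : ℝ) -
          (ordMono E (R11.vec (some p₀) σ a) : ℝ)) := by
        have h4 : (r : ℝ) * ε ≤ r * (logDisc (R11.vec (some p₀) σ a) : ℝ) -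
          (ordMono E (R11.vec (some p₀) σ a) : ℝ) := by
          have h5 := mul_le_mul_of_nonneg_left h1 hrR.le
          have h6 : (r : ℝ) * ((logDisc (R11.vec (some p₀) σ a) : ℝ) -
            (ordMono E (R11.vec (some p₀) σ a) : ℝ) / r) =
            r * (logDisc (R11.vec (some p₀) σ a) : ℝ) -
            (ordMono E (R11.vec (some p₀) σ a) : ℝ) := by field_simp
          rw [h6] at h5
          exact h5
        have h5 := mul_pos hrR hε
        exact mul_pos hqR (by linarith)
      exact_mod_cast h3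

end Vale.Agent.P283.T647
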