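import Vale.Agent.P283.T647.Props

/-!
R12: the exponents of the complement.
-/

set_option linter.all false

namespace Vale.Agent.P283.T647

section

variable {R k N M : ℕ}

/-- The point of the multiplicity `σ` on a page (or on the spine) with the spine part `a`. -/
def ptv (o : Option (Option (Fin (R + 1)))) (σ : ℤ) (a : Fin k → ℤ) : Fin (R + 1) ⊕ Fin k → ℤ :=
  Sum.elim (fun i => o.elim 0 (fun p => p.elim (-σ) (fun i' => if i = i' then σ else 0))) a

/-- A functional which vanishes on the relation between the pages. -/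
theorem lin_val (e : Option (Fin (R + 1)) → ℤ) (c : Fin k → ℤ) (he : ∑ p, e p = 0)
    (o : Option (Option (Fin (R + 1)))) (σ : ℤ) (a : Fin k → ℤ) :
    ∑ x, Sum.elim (fun i => e (some i)) c x * ptv o σ a x =
      o.elim 0 (fun p => σ * e p) + ∑ i, c i * a i := by
  rw [Fintype.sum_sum_type]
  simp only [Sum.elim_inl, Sum.elim_inr, ptv]
  congr 1
  rw [Fintype.sum_option] at he
  rcases o with _ | _ | i
  · simp
  · simp only [Option.elim]
    rw [← Finset.sum_mul]
    linear_combination (-σ) * he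
  · simp only [Option.elim]
    rw [Finset.sum_eq_single i]
    · rw [if_pos rfl]; ring
    · intro b _ hb
      rw [if_neg hb, mul_zero]
    · intro h
      exact absurd (Finset.mem_univ _) h

/-- The log discrepancy of a point. -/
theorem logDisc_ptv (o : Option (Option (Fin (R + 1)))) (σ : ℤ) (hσ : 0 ≤ σ) (a : Fin k → ℤ) :
    logDisc (ptv o σ a) = o.elim 0 (fun p => p.elim (-σ) (fun _ => σ)) + ∑ l, a l := by
  unfold logDisc
  rw [Fintype.sum_sum_type]
  simp only [Sum.elim_inl, Sum.elim_inr, ptv]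
  rcases o with _ | _ | i
  · simp
  · simp only [Option.elim]
    rw [Finset.sum_const, Finset.card_univ, Fintype.card_fin, min_eq_right (by linarith)]
    simp only [nsmul_eq_mul]
    push_cast
    ring
  · simp only [Option.elim]
    rw [Finset.sum_ite_eq' Finset.univ i (fun _ => σ), if_pos (Finset.mem_univ _), min_eq_left]
    · ring
    · split_ifs
      · exact hσ
      · exact le_rfl

/-- The exponent of a functional. -/
def gam (q K : ℕ) (b : Option (Fin (R + 1)) → ℤ) (c : Fin k → ℤ) : Fin (R + 1) ⊕ Fin k → ℤ :=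
  Sum.elim (fun i => b (some i)) (fun l => (K : ℤ) * q - c l)

theorem gam_val (q K : ℕ) (b : Option (Fin (R + 1)) → ℤ) (c : Fin k → ℤ)
    (hb : ∑ p, b p = 2 * q * K) (o : Option (Option (Fin (R + 1)))) (σ : ℤ) (hσ : 0 ≤ σ)
    (a : Fin k → ℤ) :
    K * (q * logDisc (ptv o σ a)) - ∑ x, gam q K b c x * ptv o σ a x =
      o.elim 0 (fun p => σ * (q * K - b p)) + ∑ i, c i * a i := by
  rw [logDisc_ptv o σ hσ, Fintype.sum_sum_type]
  simp only [Sum.elim_inl, Sum.elim_inr, ptv, gam]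
  have h1 : ∑ l, ((K : ℤ) * q - c l) * a l = K * q * ∑ l, a l - ∑ l, c l * a l := by
    simp only [sub_mul, Finset.sum_sub_distrib, Finset.mul_sum]
  rw [h1]
  rw [Fintype.sum_option] at hb
  rcases o with _ | _ | i
  · simp only [Option.elim]
    simp
    ring
  · simp only [Option.elim]
    rw [← Finset.sum_mul]
    linear_combination σ * hb
  · simp only [Option.elim]
    rw [Finset.sum_eq_single i]
    · rw [if_pos rfl]; ring
    · intro b _ hb
      rw [if_neg hb, mul_zero]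
    · intro h
      exact absurd (Finset.mem_univ _) h

/-- Raising a function on a page other than `p₀`. -/
theorem raise {P : Type} [Fintype P] [DecidableEq P] (h2 : 2 ≤ Fintype.card P) (p₀ : P)
    (b : P → ℤ) (T : ℤ) (hb : ∑ p, b p ≤ T) :
    ∃ b' : P → ℤ, (∀ p, b p ≤ b' p) ∧ b' p₀ = b p₀ ∧ ∑ p, b' p = T := by
  obtain ⟨p₁, hp₁⟩ : ∃ p₁, p₁ ≠ p₀ := by
    haveI : Nontrivial P := Fintype.one_lt_card_iff_nontrivial.1 (by omega)
    exact exists_ne p₀
  refine ⟨Function.update b p₁ (b p₁ + (T - ∑ p, b p)), fun p => ?_, ?_, ?_⟩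
  · by_cases h : p = p₁
    · subst h
      rw [Function.update_self]
      linarith
    · rw [Function.update_of_ne h]
  · rw [Function.update_of_ne hp₁.symm]
  · rw [Finset.sum_update_of_mem (Finset.mem_univ _)]
    have h1 : ∑ p, b p = b p₁ + ∑ p ∈ Finset.univ \ {p₁}, b p := by
      rw [← Finset.sum_sdiff (Finset.subset_univ {p₁}), Finset.sum_singleton]
      ring
    rw [h1]
    ring

theorem ptv_link {v : Fin N → Fin (R + 1) ⊕ Fin k → ℤ} {pg : Fin N → Option (Option (Fin (R + 1)))}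
    {s : Fin N → ℕ} (h : Link v pg s) (j : Fin N) :
    v j = ptv (pg j) (s j) (fun l => v j (Sum.inr l)) := by
  funext x
  rcases x with i | l
  · rw [h j i]
    rfl
  · rfl

/-- The points of the cone on a page. -/
theorem onPage_ptv {α : Fin (R + 1) ⊕ Fin k → ℤ} (h : OnPage α) :
    ∃ (p₀ : Option (Fin (R + 1))) (σ : ℕ), α = ptv (some p₀) σ (fun l => α (Sum.inr l)) := by
  rcases h with ⟨i, hi, hi'⟩ | ⟨s, hs, hs'⟩
  · refine ⟨some i, (α (Sum.inl i)).toNat, ?_⟩
    funext x
    rcases x with i' | l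
    · simp only [ptv, Sum.elim_inl, Option.elim]
      rw [Int.toNat_of_nonneg hi]
      split_ifs with h
      · rw [h]
      · exact hi' i' h
    · rfl
  · refine ⟨none, (-s).toNat, ?_⟩
    funext x
    rcases x with i' | l
    · simp only [ptv, Sum.elim_inl, Option.elim]
      rw [Int.toNat_of_nonneg (by omega), hs' i']
      ring
    · rfl

theorem inCone_pair {ι : Type} [Fintype ι] {v : Fin N → ι → ℤ} {α : ι → ℤ} {t : Fin N → ℚ}
    (hta : ∀ x, (α x : ℚ) = ∑ j, t j * v j x) (γ : ι → ℤ) :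
    ((∑ i, γ i * α i : ℤ) : ℚ) = ∑ j, t j * ((∑ i, γ i * v j i : ℤ) : ℚ) := by
  push_cast
  simp only [hta, Finset.mul_sum]
  rw [Finset.sum_comm]
  exact Finset.sum_congr rfl fun j _ => Finset.sum_congr rfl fun k _ => by ring

theorem inBook_of_inCone {v : Fin N → Fin (R + 1) ⊕ Fin k → ℤ}
    {pg : Fin N → Option (Option (Fin (R + 1)))} {s : Fin N → ℕ} (hl : Link v pg s)
    {p₀ : Option (Fin (R + 1))} {σ : ℕ} {a : Fin k → ℤ} (h : InCone v (ptv (some p₀) σ a)) :
    InBook pg s (fun j l => v j (Sum.inr l)) p₀ σ a := by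
  intro e c he hj
  obtain ⟨e', he1, he2, he3⟩ := raise (by rw [Fintype.card_option, Fintype.card_fin]; omega) p₀ e 0 he
  obtain ⟨t, ht, hta⟩ := h
  have h1 := lin_val e' c he3 (some p₀) σ a
  simp only [Option.elim] at h1
  rw [← he2, ← h1]
  have h2 := inCone_pair hta (Sum.elim (fun i => e' (some i)) c)
  have h3 : (0 : ℚ) ≤ ((∑ x, Sum.elim (fun i => e' (some i)) c x * ptv (some p₀) σ a x : ℤ) : ℚ) := by
    rw [h2]
    refine Finset.sum_nonneg fun j _ => mul_nonneg (ht j) ?_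
    have h4 : ∑ x, Sum.elim (fun i => e' (some i)) c x * v j x =
        (pg j).elim 0 (fun p => (s j : ℤ) * e' p) + ∑ i, c i * v j (Sum.inr i) := by
      conv_lhs => rw [ptv_link hl j]
      exact lin_val e' c he3 (pg j) (s j) _
    rw [h4]
    have h5 := hj j
    have h6 : (pg j).elim 0 (fun p => (s j : ℤ) * e p) ≤ (pg j).elim 0 (fun p => (s j : ℤ) * e' p) := by
      rcases pg j with _ | p
      · exact le_rfl
      · exact mul_le_mul_of_nonneg_left (he1 p) (by positivity)
    have h7 : (0 : ℤ) ≤ (pg j).elim 0 (fun p => (s j : ℤ) * e' p) + ∑ i, c i * v j (Sum.inr i) :=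
      le_trans h5 (by linarith)
    exact_mod_cast h7
  exact_mod_cast h3

end

theorem ordMono_att {ι : Type} [Fintype ι] {M : ℕ} (E : Fin (M + 1) → ι → ℤ) (α : ι → ℤ) :
    ∃ i, ordMono E α = ∑ x, E i x * α x := by
  obtain ⟨i, hi⟩ := exists_eq_ciInf_of_finite (f := fun i => ∑ x, E i x * α x)
  exact ⟨i, hi.symm⟩

theorem r12 (hB : BookAll) (hT : ToBook) : BookExpos := by
  classical
  intro k q ε hq hε
  have hqε : 0 < q * ε := by positivity
  obtain ⟨k₀, hk₀, hmain⟩ := hB k q (q * ε) hq hqε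
  refine ⟨k₀, hk₀, ?_⟩
  intro R N M r v E κ hr hv hκ hκq hlc hsub K hK hK0
  obtain ⟨pg, s, hlink, hbook, hreal⟩ := hT q ε hq hε R k N M r v E κ hr hv hκ hκq hlc
  have hgoal := hmain _ _ pg s _ κ hbook hreal K hK hK0
  by_cases hex : ∃ α, OnPage α ∧ InCone v α ∧ α ≠ 0
  swap
  · push Not at hex
    refine ⟨{0}, Finset.singleton_nonempty _, ?_, fun α h1 h2 h3 => absurd (hex α h1 h2) h3⟩
    intro γ hγ α h1 h2
    rw [Finset.mem_singleton] at hγ
    subst hγ
    have h0 : α = 0 := hex α h1 h2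
    subst h0
    have h1 : ordMono E (0 : Fin (R + 1) ⊕ Fin k → ℤ) = 0 := by
      obtain ⟨i, hi⟩ := ordMono_att E (0 : Fin (R + 1) ⊕ Fin k → ℤ)
      rw [hi]; simp
    rw [h1]; simp
  let T : Fin N → ℤ := fun j => q * logDisc (v j) - κ j
  have hT : ∀ j, (T j : ℚ) = q * ((ordMono E (v j) : ℚ) / r) := by
    intro j
    have h1 := hκ j
    simp only [T]
    push_cast
    rw [h1]
    unfold toricDisc
    ring
  have hpoint : ∀ α, OnPage α → InCone v α → α ≠ 0 → ∃ x : Fin (R + 1) ⊕ Fin k → ℤ,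
      (∀ j, K * T j ≤ ∑ i, x i * v j i) ∧ ∑ i, x i * α i < K * (q * logDisc α) := by
    intro α hα hc hα0
    obtain ⟨p₀, σ, hσ⟩ := onPage_ptv hα
    obtain ⟨a, ha⟩ : ∃ a : Fin k → ℤ, a = fun l => α (Sum.inr l) := ⟨_, rfl⟩
    rw [← ha] at hσ
    have hne : σ ≠ 0 ∨ a ≠ 0 := by
      by_contra hno
      push Not at hno
      refine hα0 ?_
      rw [hσ, hno.1, hno.2]
      funext x
      rcases x with i | l
      · rcases p₀ with _ | i'
        · simp [ptv]
        · simp [ptv]
      · simp [ptv]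
    rw [hσ] at hc
    obtain ⟨b, c, ⟨hb1, hb2⟩, hb3⟩ := hgoal p₀ σ a hne (inBook_of_inCone hlink hc)
    obtain ⟨b', h1, h2, h3⟩ := raise hbook.two p₀ b (2 * q * K) hb1
    refine ⟨gam q K b' c, fun j => ?_, ?_⟩
    · have h4 := gam_val q K b' c h3 (pg j) (s j) (by positivity) (fun l => v j (Sum.inr l))
      rw [← ptv_link hlink j] at h4
      have h5 := hb2 j
      have h6 : (pg j).elim 0 (fun p => (s j : ℤ) * (q * K - b' p)) ≤
          (pg j).elim 0 (fun p => (s j : ℤ) * (q * K - b p)) := by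
        rcases pg j with _ | p
        · exact le_rfl
        · exact mul_le_mul_of_nonneg_left (by linarith [h1 p]) (by positivity)
      simp only [fval] at h5
      simp only [T]
      have h7 : (K : ℤ) * (q * logDisc (v j) - κ j) = K * (q * logDisc (v j)) - K * κ j := by ring
      rw [h7]
      linarith
    · have h4 := gam_val q K b' c h3 (some p₀) σ (by positivity) a
      rw [← hσ] at h4
      simp only [Option.elim] at h4
      rw [h2] at h4
      unfold tval at hb3
      linarith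
  -- finitely many exponents
  let P : Set (Fin (R + 1) ⊕ Fin k → ℤ) := {x | ∀ j, K * T j ≤ ∑ i, x i * v j i}
  let F : (Fin (R + 1) ⊕ Fin k → ℤ) → (Fin N → ℕ) := fun x j =>
    (∑ i, x i * v j i - K * T j).toNat
  have hF : ∀ x ∈ P, ∀ j, ((F x j : ℕ) : ℤ) = ∑ i, x i * v j i - K * T j := fun x hx j =>
    Int.toNat_of_nonneg (by have := hx j; linarith)
  obtain ⟨Ff, hFf1, hFf2⟩ := Z647.dickson (F '' P)
  choose! G hG1 hG2 using hFf1
  have hle : ∀ x ∈ P, ∃ γ ∈ Ff.image G, ∀ j, ∑ i, γ i * v j i ≤ ∑ i, x i * v j i := by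
    intro x hx
    obtain ⟨z, hz, hzx⟩ := hFf2 (F x) ⟨x, hx, rfl⟩
    refine ⟨G z, Finset.mem_image_of_mem G hz, fun j => ?_⟩
    have h1 := hF x hx j
    have h2 := hF (G z) (hG1 z hz) j
    have h3 : F (G z) j ≤ F x j := by rw [hG2 z hz]; exact hzx j
    have h4 : ((F (G z) j : ℕ) : ℤ) ≤ F x j := by exact_mod_cast h3
    linarith
  refine ⟨Ff.image G, ?_, ?_, ?_⟩
  · obtain ⟨α, h1, h2, h3⟩ := hex
    obtain ⟨x, hx, -⟩ := hpoint α h1 h2 h3
    obtain ⟨γ, hγ, -⟩ := hle x hx
    exact ⟨γ, hγ⟩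
  · intro γ hγ α hα hc
    obtain ⟨z, hz, rfl⟩ := Finset.mem_image.1 hγ
    obtain ⟨t, ht, hta, htE⟩ := hsub α hα hc
    have h2 : (K : ℚ) * q * ((ordMono E α : ℚ) / r) = ∑ j, t j * (K * T j) := by
      rw [htE]
      simp only [hT, Finset.mul_sum, Finset.sum_div]
      exact Finset.sum_congr rfl fun j _ => by ring
    rw [inCone_pair hta, h2]
    refine Finset.sum_le_sum fun j _ => mul_le_mul_of_nonneg_left ?_ (ht j)
    exact_mod_cast hG1 z hz j
  · intro α hα hc hα0
    obtain ⟨x, hx, hlt⟩ := hpoint α hα hc hα0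
    obtain ⟨γ, hγ, hγx⟩ := hle x hx
    refine ⟨γ, hγ, lt_of_le_of_lt ?_ hlt⟩
    obtain ⟨t, ht, hta⟩ := hc
    have h1 : ((∑ i, γ i * α i : ℤ) : ℚ) ≤ ((∑ i, x i * α i : ℤ) : ℚ) := by
      rw [inCone_pair hta, inCone_pair hta]
      refine Finset.sum_le_sum fun j _ => mul_le_mul_of_nonneg_left ?_ (ht j)
      exact_mod_cast hγx j
    exact_mod_cast h1

end Vale.Agent.P283.T647
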