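import Vale.Agent.P283.T647.Props

set_option linter.all false

namespace Vale.Agent.P283.T647

/-- A finite family of reals is a combination of rationals with coefficients which are linearly
independent over the rationals. -/
theorem r1_basis {ι : Type} [Fintype ι] (c : ι → ℝ) :
    ∃ (n : ℕ) (e : Fin n → ℝ) (q : Fin n → ι → ℚ), LinearIndependent ℚ e ∧
      ∀ j, c j = ∑ l, (q l j : ℝ) * e l := by
  classical
  let S : Submodule ℚ ℝ := Submodule.span ℚ (Set.range c)
  haveI : FiniteDimensional ℚ S := FiniteDimensional.span_of_finite ℚ (Set.finite_range c)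
  let b := Module.finBasis ℚ S
  refine ⟨Module.finrank ℚ S, fun l => (b l : ℝ),
    fun l j => b.repr ⟨c j, Submodule.subset_span ⟨j, rfl⟩⟩ l, ?_, ?_⟩
  · have := b.linearIndependent.map' S.subtype (Submodule.ker_subtype S)
    exact this
  · intro j
    have h := b.sum_repr ⟨c j, Submodule.subset_span ⟨j, rfl⟩⟩
    have h' := congrArg (S.subtype) h
    rw [map_sum] at h'
    simp only [map_smul, Submodule.subtype_apply] at h'
    rw [← h']
    refine Finset.sum_congr rfl fun l _ => ?_
    rw [Rat.smul_def]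

theorem r1b : RatApprox := by
  classical
  intro ι μ _ _ M c hc hM η hη
  obtain ⟨n, e, q, hind, hcq⟩ := r1_basis c
  have hzero : ∀ a : Fin n → ℚ, ∑ l, (a l : ℝ) * e l = 0 → ∀ l, a l = 0 := by
    intro a ha
    have := (Fintype.linearIndependent_iff.1 hind) a (by
      simpa [Rat.smul_def] using ha)
    exact this
  -- approximations
  set B : ℝ := ∑ l, ∑ j, |(q l j : ℝ)| + 1 with hB
  have hBpos : 0 < B := by
    have : 0 ≤ ∑ l, ∑ j, |(q l j : ℝ)| :=
      Finset.sum_nonneg fun l _ => Finset.sum_nonneg fun j _ => abs_nonneg _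
    linarith
  -- the smallest positive coordinate
  obtain ⟨θ, hθ, hθc⟩ : ∃ θ : ℝ, 0 < θ ∧ ∀ j, 0 < c j → θ ≤ c j := by
    by_cases hne : (Finset.univ.filter fun j => 0 < c j).Nonempty
    · obtain ⟨j, hj, hmin⟩ := Finset.exists_min_image _ c hne
      refine ⟨c j, (Finset.mem_filter.1 hj).2, fun i hi => hmin i ?_⟩
      simp [hi]
    · refine ⟨1, one_pos, fun j hj => (hne ⟨j, by simp [hj]⟩).elim⟩
  set δ : ℝ := min η θ / B with hδ
  have hδpos : 0 < δ := div_pos (lt_min hη hθ) hBpos
  have happ : ∀ l, ∃ r : ℚ, |(r : ℝ) - e l| < δ := by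
    intro l
    obtain ⟨r, h1, h2⟩ := exists_rat_btwn (show e l - δ < e l by linarith)
    exact ⟨r, by rw [abs_lt]; constructor <;> linarith⟩
  choose r hr using happ
  have hdiff : ∀ j, |((∑ l, q l j * r l : ℚ) : ℝ) - c j| < min η θ := by
    intro j
    have h1 : ((∑ l, q l j * r l : ℚ) : ℝ) - c j = ∑ l, (q l j : ℝ) * ((r l : ℝ) - e l) := by
      rw [hcq j]
      push_cast
      rw [← Finset.sum_sub_distrib]
      exact Finset.sum_congr rfl fun l _ => by ring
    rw [h1]
    have h2 : |∑ l, (q l j : ℝ) * ((r l : ℝ) - e l)| ≤ (∑ l, |(q l j : ℝ)|) * δ := by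
      refine (Finset.abs_sum_le_sum_abs _ _).trans ?_
      rw [Finset.sum_mul]
      refine Finset.sum_le_sum fun l _ => ?_
      rw [abs_mul]
      exact mul_le_mul_of_nonneg_left (hr l).le (abs_nonneg _)
    have h3 : ∑ l, |(q l j : ℝ)| < B := by
      have : ∑ l, |(q l j : ℝ)| ≤ ∑ l, ∑ j, |(q l j : ℝ)| :=
        Finset.sum_le_sum fun l _ =>
          Finset.single_le_sum (f := fun j => |(q l j : ℝ)|) (fun _ _ => abs_nonneg _)
            (Finset.mem_univ j)
      linarith
    have h4 : (∑ l, |(q l j : ℝ)|) * δ < B * δ := mul_lt_mul_of_pos_right h3 hδpos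
    have h5 : B * δ = min η θ := by
      rw [hδ]; field_simp
    linarith
  refine ⟨fun j => ∑ l, q l j * r l, fun j => ?_, fun i => ?_, fun j => ?_⟩
  · rcases (hc j).eq_or_lt with h0 | h0
    · have hq : ∀ l, q l j = 0 := hzero (fun l => q l j) (by rw [← hcq j, ← h0])
      simp [hq]
    · have h1 := (abs_lt.1 (hdiff j)).1
      have h2 : min η θ ≤ c j := (min_le_right _ _).trans (hθc j h0)
      have h3 : (0 : ℝ) < ((∑ l, q l j * r l : ℚ) : ℝ) := by linarith
      exact_mod_cast h3.le
  · have h1 : ∀ l, ∑ j, M i j * q l j = 0 := by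
      refine hzero (fun l => ∑ j, M i j * q l j) ?_
      rw [← hM i]
      simp only [hcq]
      push_cast
      simp only [Finset.sum_mul, Finset.mul_sum]
      rw [Finset.sum_comm]
      exact Finset.sum_congr rfl fun j _ => Finset.sum_congr rfl fun l _ => by ring
    have h2 : ∑ j, M i j * ∑ l, q l j * r l = ∑ l, (∑ j, M i j * q l j) * r l := by
      simp only [Finset.sum_mul, Finset.mul_sum]
      rw [Finset.sum_comm]
      exact Finset.sum_congr rfl fun j _ => Finset.sum_congr rfl fun l _ => by ring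
    rw [h2]
    simp [h1]
  · exact (hdiff j).trans_le (min_le_left _ _)

end Vale.Agent.P283.T647
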