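import Vale.Agent.P283.T647.Props

/-!
Bounded solutions, a bounded number of rays.
-/

set_option linter.all false

namespace Vale.Agent.P283.T647

open Finset hiding val
open Vale.Agent.P283.F647

theorem r2 : PointGen := by
  classical
  intro N q δ hδ
  choose k1 hk1 hk1' using fun (x : (Fin N → Fin (q + 1)) × Finset (Fin N)) =>
    exists_cvxAt (fun i : ↥x.2 => ((x.1 i : Fin (q + 1)) : ℕ)) hδ
  choose k2 hk2 hk2' using fun (x : (Fin N → Fin (q + 1)) × Finset (Fin N)) =>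
    exists_cplAt (fun i : ↥x.2 => ((x.1 i : Fin (q + 1)) : ℕ)) hδ
  refine ⟨∏ x, (k1 x * k2 x), Finset.prod_pos fun x _ => Nat.mul_pos (hk1 x) (hk2 x), ?_⟩
  intro m v Ls T κ hκq htopN H k hk hk0 a ha ha0 hreal
  let κ' : Fin N → Fin (q + 1) := fun j => ⟨κ j, Nat.lt_succ_of_le (hκq j)⟩
  have hdvd : ∀ J, k1 (κ', J) * k2 (κ', J) ∣ k := fun J =>
    dvd_trans (Finset.dvd_prod_of_mem (fun x => k1 x * k2 x)
      (Finset.mem_univ (κ', J))) hk
  have hd1 : ∀ J, k1 (κ', J) ∣ k := fun J => dvd_trans (Dvd.intro _ rfl) (hdvd J)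
  have hd2 : ∀ J, k2 (κ', J) ∣ k := fun J => dvd_trans (Dvd.intro_left _ rfl) (hdvd J)
  obtain ⟨J, cQ, hcQ, hcQ', haQ, u, hu, hu'⟩ := cone_face' v a ha
  let c : Fin N → ℝ := fun j => (cQ j : ℝ)
  have hc : ∀ j ∈ J, 0 < c j := fun j hj => by
    have := hcQ j hj
    show (0 : ℝ) < ((cQ j : ℚ) : ℝ)
    exact_mod_cast this
  have hca : ∀ k, (a k : ℝ) = ∑ j ∈ J, c j * v j k := by
    intro k
    have h1 := congrArg (Rat.cast : ℚ → ℝ) (haQ k)
    push_cast at h1
    rw [h1]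
    symm
    apply Finset.sum_subset (Finset.subset_univ J)
    intro j _ hj
    show ((cQ j : ℚ) : ℝ) * (v j k : ℝ) = 0
    rw [hcQ' j hj]; simp
  have hcaJ : ∀ k, (a k : ℝ) = ∑ j : ↥J, c j * v (j : Fin N) k := by
    intro k
    rw [hca k, sum_coe J fun j => c j * v j k]
  have ext : ∀ (c' : ↥J → ℝ) (F : Fin N → ℝ),
      ∑ j, (if h : j ∈ J then c' ⟨j, h⟩ else 0) * F j = ∑ i : ↥J, c' i * F i := by
    intro c' F
    have h1 : ∑ j, (if h : j ∈ J then c' ⟨j, h⟩ else 0) * F j =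
        ∑ j ∈ J, (if h : j ∈ J then c' ⟨j, h⟩ else 0) * F j := by
      symm
      apply Finset.sum_subset (Finset.subset_univ J)
      intro j _ hj
      rw [dif_neg hj, zero_mul]
    rw [h1, ← sum_coe J]
    refine Finset.sum_congr rfl fun i _ => ?_
    rw [dif_pos i.2]
  have HJ : ∀ c' : ↥J → ℝ, (∀ j, 0 < c' j) → ∀ b : Fin m → ℤ, b ≠ 0 →
      (∀ i, (b i : ℝ) = ∑ j : ↥J, c' j * v (j : Fin N) i) →
      ∃ ℓ ∈ Ls, δ ≤ ∑ j : ↥J, c' j * ((pr ℓ (v (j : Fin N)) : ℝ) - T j) := by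
    intro c' hc' b hb0 hb
    obtain ⟨ℓ, hℓ, hle⟩ := H (fun j => if h : j ∈ J then c' ⟨j, h⟩ else 0) (fun j => by
      show 0 ≤ if h : j ∈ J then c' ⟨j, h⟩ else 0
      by_cases h : j ∈ J
      · rw [dif_pos h]; exact (hc' _).le
      · rw [dif_neg h]) b hb0 (fun i => by
      rw [hb i, ← ext c' fun j => (v j i : ℝ)])
    exact ⟨ℓ, hℓ, by rw [← ext c' fun j => (pr ℓ (v j) : ℝ) - T j]; exact hle⟩
  -- a solution on the face
  have hface : ∃ X : Fin m → ℤ, (∀ j ∈ J, k * T j ≤ pr X (v j)) ∧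
      ∃ ℓ ∈ Ls, pr X a < k * pr ℓ a := by
    have htop : ∀ ℓ ∈ Ls, ∀ j : ↥J, pr ℓ (v j) ≤ T j + κ j := fun ℓ hℓ j => htopN ℓ hℓ j
    have hconcl : ∀ X : Fin m → ℤ, (∃ ℓ ∈ Ls, ∑ j : ↥J, c j * (pr X (v j) : ℝ) <
        k * ∑ j : ↥J, c j * (pr ℓ (v j) : ℝ)) → ∃ ℓ ∈ Ls, pr X a < k * pr ℓ a := by
      rintro X ⟨ℓ, hℓ, hlt⟩
      refine ⟨ℓ, hℓ, ?_⟩
      rw [← pr_real hcaJ, ← pr_real hcaJ] at hlt
      exact_mod_cast hlt
    by_cases hρ : ∃ ρ : ↥J → ℝ, (∀ j, 0 < ρ j) ∧ ∀ k, ∑ j, ρ j * (v (j : Fin N) k : ℝ) = 0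
    · obtain ⟨r, Y, hY1, ℓ₀, hℓ₀, hY2⟩ := hreal
      obtain ⟨X, -, hX1, hX2⟩ := hk2' (κ', J) k (hd2 J) hk0 m (fun i => v i) ⊤ Ls (fun i => T i)
        (fun _ _ _ _ => AddSubgroup.mem_top _) htop
        (by
          obtain ⟨ρ, hρ1, hρ2⟩ := hρ
          refine ⟨ρ, hρ1, fun u _ => ?_⟩
          have h2 : ∑ i : ↥J, ρ i * (pr u (v i) : ℝ) =
              ∑ k, (u k : ℝ) * ∑ i : ↥J, ρ i * (v (i : Fin N) k : ℝ) := by
            unfold pr
            push_cast
            simp only [Finset.mul_sum]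
            rw [Finset.sum_comm]
            exact Finset.sum_congr rfl fun _ _ => Finset.sum_congr rfl fun _ _ => by ring
          rw [h2]
          exact Finset.sum_eq_zero fun k _ => by rw [hρ2 k, mul_zero])
        (by
          intro c' hc' hint hne
          have hz : ∀ l, ∃ z : ℤ, (z : ℝ) = ∑ i : ↥J, c' i * (v (i : Fin N) l : ℝ) := by
            intro l
            obtain ⟨z, hz⟩ := hint (Pi.single l 1) (AddSubgroup.mem_top _)
            refine ⟨z, ?_⟩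
            rw [← hz]
            exact Finset.sum_congr rfl fun i _ => by rw [pr_single]
          choose z hz using hz
          have hz0 : z ≠ 0 := by
            intro h0
            apply hne
            intro u _
            rw [← pr_real hz, h0, pr_zero_right]
            simp
          exact HJ c' hc' z hz0 hz)
        (fun i => c i) (fun i => hc i i.2)
        ⟨r, Y, fun _ _ => AddSubgroup.mem_top _, fun i => hY1 i, ℓ₀, hℓ₀, by
          have h1 := pr_real hcaJ Y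
          have h2 := pr_real hcaJ ℓ₀
          rw [← h1, ← h2]
          exact_mod_cast hY2⟩
      exact ⟨X, fun j hj => hX1 ⟨j, hj⟩, hconcl X hX2⟩
    · obtain ⟨X, hX1, hX2⟩ := hk1' (κ', J) k (hd1 J) hk0 m (fun i => v i) Ls (fun i => T i) htop
        (by
          intro c' hc' b hb
          refine HJ c' hc' b ?_ hb
          rintro rfl
          refine hρ ⟨c', hc', fun l => ?_⟩
          rw [← hb l]
          simp)
        (fun i => c i) (fun i => hc i i.2)
      exact ⟨X, fun j hj => hX1 ⟨j, hj⟩, hconcl X hX2⟩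
  -- lifting
  obtain ⟨X, hX1, ℓ, hℓ, hX2⟩ := hface
  have huv : ∀ j, pr u (v j) = ∑ k, v j k * u k := fun j =>
    Finset.sum_congr rfl fun k _ => mul_comm _ _
  have hua : pr u a = 0 := by
    have h1 : (pr u a : ℝ) = 0 := by
      rw [pr_real hcaJ]
      refine Finset.sum_eq_zero fun j _ => ?_
      rw [huv, hu j j.2]; simp
    exact_mod_cast h1
  let t : ℤ := ∑ j, |k * T j - pr X (v j)|
  have ht : ∀ j, |k * T j - pr X (v j)| ≤ t := fun j =>
    Finset.single_le_sum (f := fun j => |k * T j - pr X (v j)|) (fun j _ => abs_nonneg _)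
      (Finset.mem_univ j)
  have ht0 : 0 ≤ t := Finset.sum_nonneg fun j _ => abs_nonneg _
  refine ⟨X + t • u, fun j => ?_, ℓ, hℓ, ?_⟩
  · rw [pr_add, pr_smul, huv]
    by_cases hj : j ∈ J
    · rw [hu j hj, mul_zero, add_zero]; exact hX1 j hj
    · have h1 := hu' j hj
      have h2 := ht j
      have h3 := le_abs_self (k * T j - pr X (v j))
      nlinarith
  · rw [pr_add, pr_smul, hua, mul_zero, add_zero]; exact hX2

end Vale.Agent.P283.T647
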