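import Vale.Agent.P283.T647.Props

/-!
R3: bounded solutions, any number of rays, bounded dimension.
-/

set_option linter.all false

namespace Vale.Agent.P283.T647

open F647 (pr)

theorem r3_core (h : PointGen) (m q : ℕ) (δ : ℝ) (hδ : 0 < δ) : ∃ k₀ : ℕ, 0 < k₀ ∧
  ∀ (N : ℕ) (v : Fin N → Fin m → ℤ) (Ls : Finset (Fin m → ℤ)) (T : Fin N → ℤ) (κ : Fin N → ℕ),
    (∀ j, κ j ≤ q) → (∀ ℓ ∈ Ls, ∀ j, pr ℓ (v j) ≤ T j + κ j) →
    (∀ c : Fin N → ℝ, (∀ j, 0 ≤ c j) → ∀ b : Fin m → ℤ, b ≠ 0 →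
      (∀ i, (b i : ℝ) = ∑ j, c j * v j i) →
      ∃ ℓ ∈ Ls, δ ≤ ∑ j, c j * ((pr ℓ (v j) : ℝ) - T j)) →
    ∀ k : ℕ, k₀ ∣ k → 0 < k → ∀ a : Fin m → ℤ, Z647.InCone v a → a ≠ 0 →
      (∃ (r : ℕ) (Y : Fin m → ℤ), (∀ j, r * T j ≤ pr Y (v j)) ∧
        ∃ ℓ ∈ Ls, pr Y a < r * pr ℓ a) →
      ∃ Y : Fin m → ℤ, (∀ j, k * T j ≤ pr Y (v j)) ∧
        ∃ ℓ ∈ Ls, pr Y a < k * pr ℓ a := by
  classical
  choose k₀ hk₀ hmain using fun N' : ℕ => h N' q δ hδ
  refine ⟨∏ N' ∈ Finset.range (2 ^ m + (m + 1) + 1), k₀ N', Finset.prod_pos fun N' _ => hk₀ N', ?_⟩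
  intro N v Ls T κ hκ hL hlc k hk hk0 a ha ha0 hreal
  have hLne : Ls.Nonempty := by
    obtain ⟨r, Y, -, ℓ, hℓ, -⟩ := hreal
    exact ⟨ℓ, hℓ⟩
  obtain ⟨ls, hls, hmax⟩ := Ls.exists_max_image (fun ℓ => pr ℓ a) hLne
  by_contra hno0
  have hno : ∀ Y : Fin m → ℤ, (∀ j, k * T j ≤ pr Y (v j)) → k * pr ls a ≤ pr Y a := by
    intro Y hY
    by_contra hlt
    push Not at hlt
    exact hno0 ⟨Y, hY, ls, hls, hlt⟩
  obtain ⟨I, hI, hI'⟩ := Z647.doignon (ι := Option (Fin N))
    (fun o => o.elim a (fun j => -(v j))) (fun o => o.elim (k * pr ls a - 1) (fun j => -(k * T j)))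
    (by
      intro x
      by_cases hx : ∀ j, k * T j ≤ pr x (v j)
      · refine ⟨none, ?_⟩
        have h1 := hno x hx
        simp only [Option.elim]
        rw [Finset.sum_congr rfl fun i _ => mul_comm (a i) (x i)]
        have h2 : pr x a = ∑ i, x i * a i := rfl
        rw [← h2]
        omega
      · push Not at hx
        obtain ⟨j, hj⟩ := hx
        refine ⟨some j, ?_⟩
        simp only [Option.elim, Pi.neg_apply, neg_mul, Finset.sum_neg_distrib]
        rw [Finset.sum_congr rfl fun i _ => mul_comm (v j i) (x i)]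
        have h2 : pr x (v j) = ∑ i, x i * v j i := rfl
        rw [← h2]
        omega)
  obtain ⟨Ic, hIc, cc, hcc, hcc', hac⟩ := F647.cone_car v a ha
  let I' : Finset (Fin N) := (Finset.univ.filter fun j => some j ∈ I) ∪ Ic
  have hI'mem : ∀ j, some j ∈ I → j ∈ I' := fun j hj => by simp [I', hj]
  have hI'c : ∀ j ∈ Ic, j ∈ I' := fun j hj => by simp [I', hj]
  have hcard : I'.card ≤ 2 ^ m + (m + 1) := by
    refine le_trans (Finset.card_union_le _ _) (add_le_add (le_trans ?_ hI) hIc)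
    exact Finset.card_le_card_of_injOn some (fun j hj => by
      have := (Finset.mem_filter.1 hj).2
      exact this)
      (fun _ _ _ _ h => Option.some_injective _ h)
  -- no solution of the subsystem
  have hnosol : ∀ x : Fin m → ℤ, (∀ j ∈ I', k * T j ≤ pr x (v j)) →
      ¬ pr x a < k * pr ls a := by
    intro x hx hlt
    obtain ⟨o, ho, ho'⟩ := hI' x
    rcases o with _ | j
    · simp only [Option.elim] at ho'
      rw [Finset.sum_congr rfl fun i _ => mul_comm (a i) (x i)] at ho'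
      have h2 : pr x a = ∑ i, x i * a i := rfl
      rw [← h2] at ho'
      omega
    · simp only [Option.elim, Pi.neg_apply, neg_mul, Finset.sum_neg_distrib] at ho'
      rw [Finset.sum_congr rfl fun i _ => mul_comm (v j i) (x i)] at ho'
      have h2 : pr x (v j) = ∑ i, x i * v j i := rfl
      rw [← h2] at ho'
      have := hx j (hI'mem j ho)
      omega
  let N' := I'.card
  let φ : Fin N' → Fin N := fun j => (I'.equivFin.symm j : Fin N)
  have hφ : ∀ j, φ j ∈ I' := fun j => (I'.equivFin.symm j).2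
  have hφs : ∀ j ∈ I', ∃ j', φ j' = j := fun j hj => ⟨I'.equivFin ⟨j, hj⟩, by simp [φ]⟩
  have hφi : Function.Injective φ := fun i j hij =>
    I'.equivFin.symm.injective (Subtype.ext hij)
  let v' : Fin N' → Fin m → ℤ := fun j => v (φ j)
  have hav' : Z647.InCone v' a := by
    apply Z647.cone_dual
    intro u hu
    have h1 : ((∑ k, a k * u k : ℤ) : ℚ) = ∑ j, cc j * ((∑ k, v j k * u k : ℤ) : ℚ) := by
      push_cast
      simp only [hac, Finset.sum_mul, Finset.mul_sum]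
      rw [Finset.sum_comm]
      exact Finset.sum_congr rfl fun j _ => Finset.sum_congr rfl fun k _ => by ring
    have h2 : (0 : ℚ) ≤ ((∑ k, a k * u k : ℤ) : ℚ) := by
      rw [h1]
      refine Finset.sum_nonneg fun j _ => ?_
      by_cases hj : j ∈ Ic
      · obtain ⟨j', rfl⟩ := hφs j (hI'c j hj)
        exact mul_nonneg (hcc _) (by exact_mod_cast hu j')
      · rw [hcc' j hj, zero_mul]
    exact_mod_cast h2
  -- extension by zero
  have hext : ∀ (c : Fin N' → ℝ) (g : Fin N → ℝ),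
      ∑ j, (if hj : j ∈ I' then c (I'.equivFin ⟨j, hj⟩) else 0) * g j = ∑ j, c j * g (φ j) := by
    intro c g
    have h1 : ∑ j, (if hj : j ∈ I' then c (I'.equivFin ⟨j, hj⟩) else 0) * g j =
        ∑ j ∈ I', (if hj : j ∈ I' then c (I'.equivFin ⟨j, hj⟩) else 0) * g j := by
      symm
      refine Finset.sum_subset (Finset.subset_univ _) fun j _ hj => ?_
      rw [dif_neg hj, zero_mul]
    rw [h1, ← Finset.sum_coe_sort I', ← I'.equivFin.symm.sum_comp]
    refine Finset.sum_congr rfl fun j _ => ?_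
    have h2 : ((I'.equivFin.symm j : I') : Fin N) ∈ I' := (I'.equivFin.symm j).2
    rw [dif_pos h2]
    simp only [Subtype.coe_eta, Equiv.apply_symm_apply]
    rfl
  obtain ⟨x, hx1, ℓ, hℓ, hx2⟩ := hmain N' m v' Ls (fun j => T (φ j)) (fun j => κ (φ j))
    (fun j => hκ (φ j)) (fun ℓ hℓ j => hL ℓ hℓ (φ j))
    (by
      intro c hc b hb hbc
      obtain ⟨ℓ, hℓ, hℓ'⟩ := hlc (fun j => if hj : j ∈ I' then c (I'.equivFin ⟨j, hj⟩) else 0)
        (fun j => by
          show 0 ≤ dite _ _ _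
          split_ifs
          · exact hc _
          · exact le_rfl) b hb (fun i => by
          rw [hbc i]
          exact (hext c fun j => (v j i : ℝ)).symm)
      refine ⟨ℓ, hℓ, ?_⟩
      rw [hext c fun j => ((pr ℓ (v j) : ℝ) - T j)] at hℓ'
      exact hℓ')
    k (dvd_trans (Finset.dvd_prod_of_mem k₀ (Finset.mem_range.2 (Nat.lt_succ_of_le hcard))) hk)
    hk0 a hav' ha0
    (by
      obtain ⟨r, Y, hY, ℓ, hℓ, hYa⟩ := hreal
      exact ⟨r, Y, fun j => hY (φ j), ℓ, hℓ, hYa⟩)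
  refine hnosol x (fun j hj => ?_) (lt_of_lt_of_le hx2 ?_)
  · obtain ⟨j', rfl⟩ := hφs j hj
    exact hx1 j'
  · exact mul_le_mul_of_nonneg_left (hmax ℓ hℓ) (by positivity)

theorem r3 (h : PointGen) : PointDoi := by
  classical
  intro m q δ hδ
  obtain ⟨k₀, hk₀, hmain⟩ := r3_core h m q δ hδ
  refine ⟨k₀, hk₀, ?_⟩
  intro X ι _ _ hX v Ls T κ hκ hL hlc k hk hk0 a ha0 hdual hreal
  let eX : X ≃ Fin m := Fintype.equivFinOfCardEq hX
  let eι : ι ≃ Fin (Fintype.card ι) := Fintype.equivFin ι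
  let tr : (X → ℤ) → (Fin m → ℤ) := fun f i => f (eX.symm i)
  let bk : (Fin m → ℤ) → (X → ℤ) := fun f x => f (eX x)
  have htb : ∀ f, tr (bk f) = f := fun f => by funext i; simp [tr, bk]
  have hbt : ∀ f, bk (tr f) = f := fun f => by funext i; simp [tr, bk]
  have hpr : ∀ f g : X → ℤ, pr (tr f) (tr g) = ∑ x, f x * g x := fun f g =>
    eX.symm.sum_comp fun x => f x * g x
  have hpr' : ∀ (f : Fin m → ℤ) (g : X → ℤ), pr f (tr g) = ∑ x, bk f x * g x := fun f g => by
    rw [← hpr, htb]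
  have hsum : ∀ g : ι → ℝ, ∑ j, g (eι.symm j) = ∑ j, g j := fun g => eι.symm.sum_comp g
  obtain ⟨Y, hY, ℓ, hℓ, hYa⟩ := hmain (Fintype.card ι) (fun j => tr (v (eι.symm j)))
    (Ls.image tr) (fun j => T (eι.symm j)) (fun j => κ (eι.symm j)) (fun j => hκ _)
    (by
      intro ℓ hℓ j
      obtain ⟨ℓ', hℓ', rfl⟩ := Finset.mem_image.1 hℓ
      rw [hpr]
      exact hL ℓ' hℓ' _)
    (by
      intro c hc b hb hbc
      obtain ⟨ℓ, hℓ, hℓ'⟩ := hlc (fun j => c (eι j)) (fun j => hc _) (bk b)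
        (by
          intro h0
          refine hb ?_
          rw [← htb b, h0]
          rfl)
        (by
          intro x
          have h1 := hbc (eX x)
          show ((b (eX x) : ℤ) : ℝ) = _
          rw [h1, ← hsum]
          refine Finset.sum_congr rfl fun j _ => ?_
          simp [tr])
      refine ⟨tr ℓ, Finset.mem_image_of_mem _ hℓ, ?_⟩
      rw [← hsum] at hℓ'
      simp only [hpr]
      simpa using hℓ')
    k hk hk0 (tr a)
    (by
      apply Z647.cone_dual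
      intro u hu
      have h1 := hdual (bk u) (fun j => by
        have h2 := hu (eι j)
        have h3 : ∑ i, tr (v (eι.symm (eι j))) i * u i = ∑ x, v j x * bk u x := by
          rw [Equiv.symm_apply_apply]
          conv_lhs => rw [← htb u]
          exact hpr (v j) (bk u)
        rwa [h3] at h2)
      have h3 : ∑ i, tr a i * u i = ∑ x, a x * bk u x := by
        conv_lhs => rw [← htb u]
        exact hpr a (bk u)
      rw [h3]
      exact h1)
    (by
      intro h0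
      refine ha0 ?_
      rw [← hbt a, h0]
      rfl)
    (by
      obtain ⟨r, Y, hY, ℓ, hℓ, hYa⟩ := hreal
      refine ⟨r, tr Y, fun j => ?_, tr ℓ, Finset.mem_image_of_mem _ hℓ, ?_⟩
      · rw [hpr]
        exact hY _
      · rw [hpr, hpr]
        exact hYa)
  obtain ⟨ℓ', hℓ', rfl⟩ := Finset.mem_image.1 hℓ
  refine ⟨bk Y, fun j => ?_, ℓ', hℓ', ?_⟩
  · have h1 := hY (eι j)
    rw [hpr'] at h1
    simpa using h1
  · rw [hpr', hpr] at hYa
    exact hYa

end Vale.Agent.P283.T647
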