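import Vale.Agent.P283.T647.Props

/-!
R5: from the merged book to the original book.
-/

set_option linter.all false

namespace Vale.Agent.P283.T647

section

variable {P ι : Type} [Fintype P] [DecidableEq P] [Fintype ι]

/-- The coefficients of the original book. -/
noncomputable def lift5 (𝒩 : Finset P) (c : ι → ℝ) (cf : (P → ι) → ℝ) (j : ι) : ℝ :=
  open scoped Classical in c j + ∑ f, cf f * ∑ p ∈ 𝒩ᶜ, if f p = j then (1 : ℝ) else 0

theorem lift5_sum (𝒩 : Finset P) (c : ι → ℝ) (cf : (P → ι) → ℝ) (g : ι → ℝ) :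
    ∑ j, lift5 𝒩 c cf j * g j = ∑ j, c j * g j + ∑ f, cf f * ∑ p ∈ 𝒩ᶜ, g (f p) := by
  classical
  unfold lift5
  simp only [add_mul, Finset.sum_add_distrib, Finset.sum_mul]
  congr 1
  rw [Finset.sum_comm]
  refine Finset.sum_congr rfl fun f _ => ?_
  have h1 : ∀ j, cf f * (∑ p ∈ 𝒩ᶜ, if f p = j then (1 : ℝ) else 0) * g j =
      cf f * ∑ p ∈ 𝒩ᶜ, if f p = j then g j else 0 := by
    intro j
    rw [mul_assoc, Finset.sum_mul]
    congr 1
    refine Finset.sum_congr rfl fun p _ => ?_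
    split_ifs <;> simp
  simp only [h1]
  rw [← Finset.mul_sum, Finset.sum_comm]
  congr 1
  refine Finset.sum_congr rfl fun p _ => ?_
  rw [Finset.sum_ite_eq]
  simp

theorem psum_eq (pg : ι → Option P) (s : ι → ℕ) (c : ι → ℝ) (p : P) :
    psum pg s c p = ∑ j, c j * (if pg j = some p then (s j : ℝ) else 0) := by
  unfold psum
  refine Finset.sum_congr rfl fun j _ => ?_
  split_ifs <;> simp

end

theorem r5 : MergeLift := by
  classical
  intro P ι _ _ _ k q pg s w κ 𝒩 htriv c cf hc hcf hc0 hcf0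
  have hpage : ∀ f, cf f ≠ 0 → ∀ p ∈ 𝒩ᶜ, pg (f p) = some p ∧ s (f p) = 1 ∧ κ (f p) = q := by
    intro f hf p hp
    have hp' : p ∉ 𝒩 := Finset.mem_compl.1 hp
    have hch : Ch 𝒩 pg f := by
      by_contra h
      exact hf (hcf0 f h)
    have h1 := hch p hp'
    exact ⟨h1, htriv p hp' (f p) h1⟩
  have hterm : ∀ (g g' : (P → ι) → ℝ), (∀ f, cf f ≠ 0 → g f = g' f) →
      ∑ f, cf f * g f = ∑ f, cf f * g' f := by
    intro g g' h
    refine Finset.sum_congr rfl fun f _ => ?_
    by_cases hf : cf f = 0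
    · rw [hf, zero_mul, zero_mul]
    · rw [h f hf]
  refine ⟨lift5 𝒩 c cf, ?_, ?_, ?_, ?_, ?_⟩
  · intro j
    unfold lift5
    refine add_nonneg (hc j) (Finset.sum_nonneg fun f _ => mul_nonneg (hcf f)
      (Finset.sum_nonneg fun p _ => ?_))
    split_ifs <;> norm_num
  · intro p₀ hp₀
    rw [psum_eq, lift5_sum, ← psum_eq]
    rw [hterm _ (fun _ => 0) ?_]
    · simp
    · intro f hf
      refine Finset.sum_eq_zero fun p hp => ?_
      have h1 := (hpage f hf p hp).1
      have h2 : p ≠ p₀ := by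
        rintro rfl
        exact Finset.mem_compl.1 hp hp₀
      rw [h1, if_neg]
      intro h
      exact h2 (Option.some_injective _ h)
  · intro p₀ hp₀
    rw [psum_eq, lift5_sum, ← psum_eq]
    have h0 : psum pg s c p₀ = 0 := by
      rw [psum_eq]
      refine Finset.sum_eq_zero fun j _ => ?_
      split_ifs with h
      · rw [hc0 j p₀ h hp₀, zero_mul]
      · rw [mul_zero]
    rw [h0, zero_add, hterm _ (fun _ => 1) ?_]
    · simp
    · intro f hf
      rw [Finset.sum_eq_single p₀]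
      · obtain ⟨h1, h2, -⟩ := hpage f hf p₀ (Finset.mem_compl.2 hp₀)
        rw [h1, if_pos rfl, h2]
        norm_num
      · intro p hp hne
        rw [(hpage f hf p hp).1, if_neg]
        intro h
        exact hne (Option.some_injective _ h)
      · intro h
        exact absurd (Finset.mem_compl.2 hp₀) h
  · intro i
    exact lift5_sum 𝒩 c cf fun j => (w j i : ℝ)
  · rw [lift5_sum 𝒩 c cf fun j => (κ j : ℝ), hterm _ (fun _ => q * ((Fintype.card P : ℝ) - 𝒩.card)) ?_]
    · rw [← Finset.sum_mul]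
      ring
    · intro f hf
      have h1 : ∑ p ∈ 𝒩ᶜ, (κ (f p) : ℝ) = ∑ p ∈ 𝒩ᶜ, (q : ℝ) :=
        Finset.sum_congr rfl fun p hp => by rw [(hpage f hf p hp).2.2]
      rw [h1, Finset.sum_const, Finset.card_compl, nsmul_eq_mul,
        Nat.cast_sub (Finset.card_le_univ 𝒩)]
      ring

end Vale.Agent.P283.T647
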