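import Vale.Agent.P283.T647.Props

/-!
Row R8: all pages but two are trivial with a single ray.
-/

set_option linter.all false

namespace Vale.Agent.P283.T647

theorem sum_choice {P ι : Type} [Fintype ι] [DecidableEq ι] (O : Finset P) (g : P → ι) (μ : ℝ)
    (f : ι → ℝ) :
    ∑ j, (∑ p ∈ O, if g p = j then μ else 0) * f j = μ * ∑ p ∈ O, f (g p) := by
  simp only [Finset.sum_mul]
  rw [Finset.sum_comm, Finset.mul_sum]
  refine Finset.sum_congr rfl fun p _ => ?_
  simp

theorem r8 (h : PointDoi) : CaseE := by
  classical
  intro k q δ hδ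
  obtain ⟨k₀, hk₀, H⟩ := h (k + 1) q δ hδ
  refine ⟨k₀, hk₀, ?_⟩
  intro P ι _ instP _ pg s w κ B hreal hray p₁ p₂ hp12 htriv hsame K hK hK0
  choose g hg using hray
  let O : Finset P := (Finset.univ.erase p₁).erase p₂
  have hO : ∀ p, p ∈ O ↔ p ≠ p₂ ∧ p ≠ p₁ := by
    intro p; simp [O]
  let W : Fin k → ℤ := fun i => ∑ p ∈ O, w (g p) i
  have hsplitZ : ∀ f : P → ℤ, ∑ p, f p = f p₁ + (f p₂ + ∑ p ∈ O, f p) := by
    intro f
    rw [← Finset.add_sum_erase _ f (Finset.mem_univ p₁),
      ← Finset.add_sum_erase (Finset.univ.erase p₁) f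
        (Finset.mem_erase.2 ⟨hp12.symm, Finset.mem_univ p₂⟩)]
  have hOc : (O.card : ℝ) = (Fintype.card P : ℝ) - 2 := by
    have h1 : (Finset.univ.erase p₁).card = Fintype.card P - 1 := by
      rw [Finset.card_erase_of_mem (Finset.mem_univ _), Finset.card_univ]
    have h2 : O.card = Fintype.card P - 1 - 1 := by
      show ((Finset.univ.erase p₁).erase p₂).card = _
      rw [Finset.card_erase_of_mem (Finset.mem_erase.2 ⟨hp12.symm, Finset.mem_univ p₂⟩), h1]
    have h3 := B.two
    rw [h2, Nat.sub_sub, Nat.cast_sub (by omega)]
    norm_num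
  -- the functional of a page
  let comb : ℤ → (Fin k → ℤ) → ℤ → P → ℤ := fun x0 y D p =>
    if p = p₁ then x0 else if p = p₂ then D - x0 - ∑ i, y i * W i else ∑ i, y i * w (g p) i
  have hc1 : ∀ x0 y D, comb x0 y D p₁ = x0 := by
    intro x0 y D; simp [comb]
  have hc2 : ∀ x0 y D, comb x0 y D p₂ = D - x0 - ∑ i, y i * W i := by
    intro x0 y D; simp [comb, hp12.symm]
  have hc3 : ∀ x0 y D p, p ≠ p₁ → p ≠ p₂ → comb x0 y D p = ∑ i, y i * w (g p) i := by
    intro x0 y D p h1 h2; simp [comb, h1, h2]
  have hdW : ∀ y : Fin k → ℤ, ∑ p ∈ O, ∑ i, y i * w (g p) i = ∑ i, y i * W i := by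
    intro y
    rw [Finset.sum_comm]
    refine Finset.sum_congr rfl fun i _ => ?_
    rw [Finset.mul_sum]
  have hcs : ∀ x0 y D, ∑ p, comb x0 y D p = D := by
    intro x0 y D
    rw [hsplitZ, hc1, hc2]
    have h1 : ∑ p ∈ O, comb x0 y D p = ∑ p ∈ O, ∑ i, y i * w (g p) i :=
      Finset.sum_congr rfl fun p hp => hc3 x0 y D p ((hO p).1 hp).2 ((hO p).1 hp).1
    rw [h1, hdW]
    ring
  -- the rays
  let v : ι → Option (Fin k) → ℤ := fun j x =>
    x.elim (if pg j = some p₁ then (s j : ℤ) else if pg j = some p₂ then -(s j : ℤ) else 0)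
      (fun i => if pg j = some p₁ then w j i else if pg j = some p₂ then w j i + s j * W i
        else if pg j = none then w j i else 0)
  let T : ι → ℤ := fun j => if pg j = some p₁ then (q : ℤ) * s j - κ j
    else if pg j = some p₂ then -((q : ℤ) * s j) - κ j else if pg j = none then -(κ j : ℤ) else 0
  let κ' : ι → ℕ := fun j => if pg j = some p₁ then κ j
    else if pg j = some p₂ then κ j else if pg j = none then κ j else 0
  let ℓ : Option (Fin k) → ℤ := fun x => x.elim (q : ℤ) (fun _ => 0)
  have hn2 : ¬ (some p₂ = some p₁) := fun h => hp12 (Option.some.inj h).symm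
  have hv1 : ∀ j, pg j = some p₁ → ∀ Y : Option (Fin k) → ℤ,
      ∑ x, Y x * v j x = Y none * s j + ∑ i, Y (some i) * w j i := by
    intro j hj Y
    rw [Fintype.sum_option]
    simp only [v, Option.elim_none, Option.elim_some, hj, if_true]
  have hv2 : ∀ j, pg j = some p₂ → ∀ Y : Option (Fin k) → ℤ,
      ∑ x, Y x * v j x = -(Y none * s j) + ∑ i, Y (some i) * w j i +
        s j * ∑ i, Y (some i) * W i := by
    intro j hj Y
    rw [Fintype.sum_option]
    simp only [v, Option.elim_none, Option.elim_some, hj, if_true, hn2, if_false]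
    rw [Finset.mul_sum, add_assoc, ← Finset.sum_add_distrib]
    congr 1
    · ring
    · exact Finset.sum_congr rfl fun i _ => by ring
  have hv0 : ∀ j, pg j = none → ∀ Y : Option (Fin k) → ℤ,
      ∑ x, Y x * v j x = ∑ i, Y (some i) * w j i := by
    intro j hj Y
    rw [Fintype.sum_option]
    simp only [v, Option.elim_none, Option.elim_some, hj, if_true, reduceCtorEq, if_false,
      mul_zero, zero_add]
  have hvo : ∀ j p, pg j = some p → p ≠ p₁ → p ≠ p₂ → ∀ Y : Option (Fin k) → ℤ,
      ∑ x, Y x * v j x = 0 := by
    intro j p hj h1 h2 Y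
    have h1' : ¬ (some p = some p₁) := fun h => h1 (Option.some.inj h)
    have h2' : ¬ (some p = some p₂) := fun h => h2 (Option.some.inj h)
    rw [Fintype.sum_option]
    simp only [v, Option.elim_none, Option.elim_some, hj, h1', h2', reduceCtorEq, if_false,
      mul_zero, Finset.sum_const_zero, add_zero]
  have hT1 : ∀ j, pg j = some p₁ → T j = (q : ℤ) * s j - κ j := by
    intro j hj; simp only [T, hj, if_true]
  have hT2 : ∀ j, pg j = some p₂ → T j = -((q : ℤ) * s j) - κ j := by
    intro j hj; simp only [T, hj, if_true, hn2, if_false]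
  have hT0 : ∀ j, pg j = none → T j = -(κ j : ℤ) := by
    intro j hj; simp only [T, hj, if_true, reduceCtorEq, if_false]
  have hTo : ∀ j p, pg j = some p → p ≠ p₁ → p ≠ p₂ → T j = 0 := by
    intro j p hj h1 h2
    have h1' : ¬ (some p = some p₁) := fun h => h1 (Option.some.inj h)
    have h2' : ¬ (some p = some p₂) := fun h => h2 (Option.some.inj h)
    simp only [T, hj, h1', h2', reduceCtorEq, if_false]
  -- cases for the rays
  have hcases : ∀ j, pg j = some p₁ ∨ pg j = some p₂ ∨ pg j = none ∨
      ∃ p, pg j = some p ∧ p ≠ p₁ ∧ p ≠ p₂ := by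
    intro j
    rcases hj : pg j with _ | p
    · exact Or.inr (Or.inr (Or.inl rfl))
    · by_cases h1 : p = p₁
      · left; rw [h1]
      · by_cases h2 : p = p₂
        · right; left; rw [h2]
        · exact Or.inr (Or.inr (Or.inr ⟨p, rfl, h1, h2⟩))
  have hwo : ∀ j p, pg j = some p → p ≠ p₁ → p ≠ p₂ →
      s j = 1 ∧ κ j = q ∧ w j = w (g p) := by
    intro j p hj h1 h2
    exact ⟨(htriv p h1 h2 j hj).1, (htriv p h1 h2 j hj).2, hsame p h1 h2 j (g p) hj (hg p)⟩
  have hκ'v : ∀ j, ((κ' j : ℕ) : ℤ) = ∑ x, ℓ x * v j x - T j := by
    intro j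
    rcases hcases j with hj | hj | hj | ⟨p, hj, h1, h2⟩
    · rw [hv1 j hj, hT1 j hj]
      simp [κ', hj, ℓ]
    · rw [hv2 j hj, hT2 j hj]
      simp [κ', hj, ℓ, hn2]
    · rw [hv0 j hj, hT0 j hj]
      simp [κ', hj, ℓ]
    · rw [hvo j p hj h1 h2, hTo j p hj h1 h2]
      simp [κ', hj, h1, h2]
  have hcard : Fintype.card (Option (Fin k)) = k + 1 := by simp
  -- the lower bound
  have Hlc : ∀ c : ι → ℝ, (∀ j, 0 ≤ c j) → ∀ b : Option (Fin k) → ℤ, b ≠ 0 →
      (∀ x, (b x : ℝ) = ∑ j, c j * v j x) →
      δ ≤ ∑ j, c j * (κ' j : ℝ) := by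
    intro c hc b hb hbc
    let S : P → ℝ := fun p => ∑ j, if pg j = some p then c j * s j else 0
    let A : Fin k → ℝ := fun i => ∑ j, if pg j = some p₁ then c j * (w j i : ℝ)
      else if pg j = some p₂ then c j * (w j i : ℝ)
      else if pg j = none then c j * (w j i : ℝ) else 0
    have hb0 : (b none : ℝ) = S p₁ - S p₂ := by
      rw [hbc none]
      show _ = (∑ j, if pg j = some p₁ then c j * (s j : ℝ) else 0) -
        ∑ j, if pg j = some p₂ then c j * (s j : ℝ) else 0
      rw [← Finset.sum_sub_distrib]
      refine Finset.sum_congr rfl fun j _ => ?_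
      rcases hcases j with hj | hj | hj | ⟨p, hj, h1, h2⟩
      · have : ¬ (some p₁ = some p₂) := fun h => hn2 h.symm
        simp only [v, Option.elim_none, hj, if_true, this, if_false, sub_zero, Int.cast_natCast]
      · simp only [v, Option.elim_none, hj, if_true, hn2, if_false, zero_sub]
        push_cast; ring
      · simp [v, hj]
      · simp [v, hj, h1, h2]
    have hb1 : ∀ i, (b (some i) : ℝ) = A i + S p₂ * W i := by
      intro i
      rw [hbc (some i)]
      show _ = (∑ j, if pg j = some p₁ then c j * (w j i : ℝ)
        else if pg j = some p₂ then c j * (w j i : ℝ)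
        else if pg j = none then c j * (w j i : ℝ) else 0) +
        (∑ j, if pg j = some p₂ then c j * (s j : ℝ) else 0) * W i
      rw [Finset.sum_mul, ← Finset.sum_add_distrib]
      refine Finset.sum_congr rfl fun j _ => ?_
      rcases hcases j with hj | hj | hj | ⟨p, hj, h1, h2⟩
      · have : ¬ (some p₁ = some p₂) := fun h => hn2 h.symm
        simp only [v, Option.elim_some, hj, if_true, this, if_false, zero_mul, add_zero]
      · simp only [v, Option.elim_some, hj, if_true, hn2, if_false]
        push_cast; ring
      · simp [v, hj]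
      · simp [v, hj, h1, h2]
    have hS0 : ∀ p, 0 ≤ S p := by
      intro p
      refine Finset.sum_nonneg fun j _ => ?_
      split_ifs
      · exact mul_nonneg (hc j) (Nat.cast_nonneg _)
      · exact le_refl _
    -- the extension
    have key : ∀ μ : ℝ, 0 ≤ μ → ∃ c' : ι → ℝ, (∀ j, 0 ≤ c' j) ∧
        psum pg s c' p₁ = S p₁ ∧ psum pg s c' p₂ = S p₂ ∧
        (∀ p, p ≠ p₁ → p ≠ p₂ → psum pg s c' p = μ) ∧
        (∀ i, ∑ j, c' j * (w j i : ℝ) = A i + μ * W i) ∧
        ∑ j, c' j * (κ j : ℝ) = ∑ j, c j * (κ' j : ℝ) + μ * (q * ((Fintype.card P : ℝ) - 2)) := by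
      intro μ hμ
      let d : ι → ℝ := fun j => if pg j = some p₁ then c j
        else if pg j = some p₂ then c j else if pg j = none then c j else 0
      let c' : ι → ℝ := fun j => d j + ∑ p ∈ O, if g p = j then μ else 0
      have hd : ∀ j, 0 ≤ d j := by
        intro j
        simp only [d]
        split_ifs
        · exact hc j
        · exact hc j
        · exact hc j
        · exact le_refl _
      have hsum : ∀ f : ι → ℝ, ∑ j, c' j * f j = ∑ j, d j * f j + μ * ∑ p ∈ O, f (g p) := by
        intro f
        rw [← sum_choice O g μ f, ← Finset.sum_add_distrib]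
        exact Finset.sum_congr rfl fun j _ => add_mul _ _ _
      have hps : ∀ p, psum pg s c' p =
          ∑ j, d j * (if pg j = some p then (s j : ℝ) else 0) +
            μ * ∑ p' ∈ O, if p' = p then (s (g p') : ℝ) else 0 := by
        intro p
        unfold psum
        have h1 : ∀ j, (if pg j = some p then c' j * (s j : ℝ) else 0) =
            c' j * (if pg j = some p then (s j : ℝ) else 0) := by
          intro j; rw [mul_ite, mul_zero]
        simp only [h1]
        rw [hsum]
        congr 2
        refine Finset.sum_congr rfl fun p' _ => ?_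
        rw [hg p']
        by_cases h2 : p' = p
        · simp [h2]
        · have : ¬ (some p' = some p) := fun h => h2 (Option.some.inj h)
          simp [h2, this]
      refine ⟨c', fun j => add_nonneg (hd j) (Finset.sum_nonneg fun p _ => ?_), ?_, ?_, ?_, ?_, ?_⟩
      · split_ifs
        · exact hμ
        · exact le_refl _
      · rw [hps p₁]
        have h1 : ∑ p' ∈ O, (if p' = p₁ then (s (g p') : ℝ) else 0) = 0 :=
          Finset.sum_eq_zero fun p' hp' => by rw [if_neg ((hO p').1 hp').2]
        rw [h1, mul_zero, add_zero]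
        refine Finset.sum_congr rfl fun j _ => ?_
        by_cases hj : pg j = some p₁
        · simp only [d, hj, if_true]
        · simp only [hj, if_false, mul_zero]
      · rw [hps p₂]
        have h1 : ∑ p' ∈ O, (if p' = p₂ then (s (g p') : ℝ) else 0) = 0 :=
          Finset.sum_eq_zero fun p' hp' => by rw [if_neg ((hO p').1 hp').1]
        rw [h1, mul_zero, add_zero]
        refine Finset.sum_congr rfl fun j _ => ?_
        by_cases hj : pg j = some p₂
        · simp only [d, hj, if_true, hn2, if_false]
        · simp only [hj, if_false, mul_zero]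
      · intro p h1 h2
        rw [hps p]
        have h3 : ∑ j, d j * (if pg j = some p then (s j : ℝ) else 0) = 0 := by
          refine Finset.sum_eq_zero fun j _ => ?_
          by_cases hj : pg j = some p
          · have h1' : ¬ (some p = some p₁) := fun h => h1 (Option.some.inj h)
            have h2' : ¬ (some p = some p₂) := fun h => h2 (Option.some.inj h)
            simp only [d, hj, h1', h2', reduceCtorEq, if_false, zero_mul]
          · simp only [hj, if_false, mul_zero]
        rw [h3, zero_add, Finset.sum_ite_eq' O p]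
        have h4 : p ∈ O := (hO p).2 ⟨h2, h1⟩
        rw [if_pos h4, (hwo (g p) p (hg p) h1 h2).1]
        norm_num
      · intro i
        rw [hsum (fun j => (w j i : ℝ))]
        congr 1
        · show _ = ∑ j, if pg j = some p₁ then c j * (w j i : ℝ)
            else if pg j = some p₂ then c j * (w j i : ℝ)
            else if pg j = none then c j * (w j i : ℝ) else 0
          refine Finset.sum_congr rfl fun j _ => ?_
          simp only [d]
          split_ifs <;> simp
        · simp only [W]
          push_cast
          rfl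
      · rw [hsum (fun j => (κ j : ℝ))]
        congr 1
        · refine Finset.sum_congr rfl fun j _ => ?_
          simp only [d, κ']
          split_ifs <;> simp
        · congr 1
          have h1 : ∑ p ∈ O, (κ (g p) : ℝ) = ∑ p ∈ O, (q : ℝ) :=
            Finset.sum_congr rfl fun p hp => by
              rw [(hwo (g p) p (hg p) ((hO p).1 hp).2 ((hO p).1 hp).1).2.1]
          rw [h1, Finset.sum_const, nsmul_eq_mul, hOc]
          ring
    by_cases hη : 0 ≤ b none
    · obtain ⟨c', hc', e1, e2, e3, e4, e5⟩ := key (S p₂) (hS0 p₂)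
      have hcast : ((b none).toNat : ℝ) = (b none : ℝ) := by
        have : ((b none).toNat : ℤ) = b none := Int.toNat_of_nonneg hη
        exact_mod_cast this
      have h1 := B.lc c' hc' p₁ (S p₂) (b none).toNat (fun i => b (some i)) (hS0 p₂)
        (fun p => by
          by_cases hp : p = p₁
          · subst hp
            rw [if_pos rfl, e1, hcast, hb0]; ring
          · rw [if_neg hp, add_zero]
            by_cases hp2 : p = p₂
            · rw [hp2, e2]
            · exact e3 p hp hp2)
        (fun i => by rw [e4, hb1])
        (by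
          by_contra hcon
          rw [not_or, not_not, not_not] at hcon
          apply hb
          funext x
          cases x with
          | none =>
            have := hcon.1
            show b none = 0
            omega
          | some i => exact congrFun hcon.2 i)
      rw [e5] at h1
      linarith
    · rw [not_le] at hη
      obtain ⟨c', hc', e1, e2, e3, e4, e5⟩ := key (S p₁) (hS0 p₁)
      have hcast : ((-b none).toNat : ℝ) = -(b none : ℝ) := by
        have : ((-b none).toNat : ℤ) = -b none := Int.toNat_of_nonneg (by omega)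
        exact_mod_cast this
      have h1 := B.lc c' hc' p₂ (S p₁) (-b none).toNat (fun i => b (some i) + b none * W i)
        (hS0 p₁)
        (fun p => by
          by_cases hp : p = p₂
          · subst hp
            rw [if_pos rfl, e2, hcast, hb0]; ring
          · rw [if_neg hp, add_zero]
            by_cases hp1 : p = p₁
            · rw [hp1, e1]
            · exact e3 p hp1 hp)
        (fun i => by
          push_cast
          rw [e4, hb1, hb0]; ring)
        (Or.inl (by omega))
      rw [e5] at h1
      linarith
  -- solving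
  have solve : ∀ a : Option (Fin k) → ℤ, a ≠ 0 →
      (∀ u : Option (Fin k) → ℤ, (∀ j, 0 ≤ ∑ x, v j x * u x) → 0 ≤ ∑ x, a x * u x) →
      (∃ (r : ℕ) (Y : Option (Fin k) → ℤ), (∀ j, r * T j ≤ ∑ x, Y x * v j x) ∧
        ∑ x, Y x * a x < r * (q * a none)) →
      ∃ Y : Option (Fin k) → ℤ, (∀ j, K * T j ≤ ∑ x, Y x * v j x) ∧
        ∑ x, Y x * a x < K * (q * a none) := by
    intro a ha hu hex
    have hℓa : ∑ x, ℓ x * a x = q * a none := by
      rw [Fintype.sum_option]
      simp [ℓ]
    obtain ⟨Y, hYf, ℓ', hℓ', hYt⟩ := H (Option (Fin k)) ι hcard v {ℓ} T κ'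
      (fun j => by
        show κ' j ≤ q
        simp only [κ']
        split_ifs
        · exact B.κq j
        · exact B.κq j
        · exact B.κq j
        · exact Nat.zero_le _)
      (fun ℓ' hℓ' j => by
        rw [Finset.mem_singleton] at hℓ'
        subst hℓ'
        have := hκ'v j
        linarith)
      (fun c hc b hb hbc => by
        refine ⟨ℓ, Finset.mem_singleton_self _, ?_⟩
        refine (Hlc c hc b hb hbc).trans (le_of_eq (Finset.sum_congr rfl fun j _ => ?_))
        congr 1
        have h1 := congrArg (Int.cast : ℤ → ℝ) (hκ'v j)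
        rw [Int.cast_sub] at h1
        exact_mod_cast h1)
      K hK hK0 a ha hu
      (by
        obtain ⟨r, Y, h1, h2⟩ := hex
        exact ⟨r, Y, h1, ℓ, Finset.mem_singleton_self _, by rw [hℓa]; exact h2⟩)
    rw [Finset.mem_singleton] at hℓ'
    subst hℓ'
    rw [hℓa] at hYt
    exact ⟨Y, hYf, hYt⟩
  -- from solutions of the point problem to the book
  have build : ∀ Y : Option (Fin k) → ℤ, (∀ j, K * T j ≤ ∑ x, Y x * v j x) →
      Sol q K pg s w κ (comb (Y none) (fun i => -Y (some i)) (2 * q * K))
        (fun i => -Y (some i)) := by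
    intro Y hY
    refine ⟨(hcs _ _ _).le, fun j => ?_⟩
    unfold fval
    have h1 := hY j
    rcases hcases j with hj | hj | hj | ⟨p, hj, hp1, hp2⟩
    · rw [hv1 j hj, hT1 j hj] at h1
      rw [hj]
      simp only [Option.elim_some, hc1, neg_mul, Finset.sum_neg_distrib]
      linarith
    · rw [hv2 j hj, hT2 j hj] at h1
      rw [hj]
      simp only [Option.elim_some, hc2, neg_mul, Finset.sum_neg_distrib]
      linarith
    · rw [hv0 j hj, hT0 j hj] at h1
      rw [hj]
      simp only [Option.elim_none, neg_mul, Finset.sum_neg_distrib]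
      linarith
    · rw [hj]
      simp only [Option.elim_some]
      rw [hc3 _ _ _ p hp1 hp2]
      obtain ⟨e1, e2, e3⟩ := hwo j p hj hp1 hp2
      rw [e1, e2, e3]
      push_cast
      linarith
  -- from the book to the point problem
  have hlow : ∀ (r : ℕ) (b : P → ℤ) (c : Fin k → ℤ), Sol q r pg s w κ b c →
      b p₁ ≤ 2 * q * r - b p₂ - ∑ i, c i * W i := by
    intro r b c hs
    have h1 := hs.1
    rw [hsplitZ] at h1
    have h2 : ∑ p ∈ O, ∑ i, c i * w (g p) i ≤ ∑ p ∈ O, b p := by
      refine Finset.sum_le_sum fun p hp => ?_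
      obtain ⟨hp2, hp1⟩ := (hO p).1 hp
      have h3 := hs.2 (g p)
      unfold fval at h3
      rw [hg p] at h3
      simp only [Option.elim_some] at h3
      rw [(hwo (g p) p (hg p) hp1 hp2).1, (hwo (g p) p (hg p) hp1 hp2).2.1] at h3
      push_cast at h3
      linarith
    rw [hdW] at h2
    linarith
  have unbuild : ∀ (r : ℕ) (b : P → ℤ) (c : Fin k → ℤ) (e : ℤ), Sol q r pg s w κ b c →
      b p₁ ≤ e → e ≤ 2 * q * r - b p₂ - ∑ i, c i * W i →
      ∀ j, r * T j ≤ ∑ x, (fun x : Option (Fin k) => x.elim e (fun i => -c i)) x * v j x := by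
    intro r b c e hs he1 he2 j
    have h1 := hs.2 j
    unfold fval at h1
    rcases hcases j with hj | hj | hj | ⟨p, hj, hp1, hp2⟩
    · rw [hv1 j hj, hT1 j hj]
      rw [hj] at h1
      simp only [Option.elim_some, Option.elim_none, neg_mul, Finset.sum_neg_distrib] at h1 ⊢
      have h2 : (s j : ℤ) * b p₁ ≤ s j * e := mul_le_mul_of_nonneg_left he1 (by positivity)
      linarith
    · rw [hv2 j hj, hT2 j hj]
      rw [hj] at h1
      simp only [Option.elim_some, Option.elim_none, neg_mul, Finset.sum_neg_distrib] at h1 ⊢
      have h2 : (s j : ℤ) * e ≤ s j * (2 * q * r - b p₂ - ∑ i, c i * W i) :=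
        mul_le_mul_of_nonneg_left he2 (by positivity)
      linarith
    · rw [hv0 j hj, hT0 j hj]
      rw [hj] at h1
      simp only [Option.elim_some, Option.elim_none, neg_mul, Finset.sum_neg_distrib] at h1 ⊢
      linarith
    · rw [hvo j p hj hp1 hp2, hTo j p hj hp1 hp2]
      simp
  -- the dual description of the cone
  have dual : ∀ (p₀ : P) (σ : ℕ) (a : Fin k → ℤ), InBook pg s w p₀ σ a →
      ∀ u : Option (Fin k) → ℤ, (∀ j, 0 ≤ ∑ x, v j x * u x) →
        0 ≤ (σ : ℤ) * comb (u none) (fun i => -u (some i)) 0 p₀ + ∑ i, u (some i) * a i := by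
    intro p₀ σ a hin u hu
    refine hin (comb (u none) (fun i => -u (some i)) 0) (fun i => u (some i)) (hcs _ _ _).le
      (fun j => ?_)
    have h1 := hu j
    have h2 : ∑ x, v j x * u x = ∑ x, u x * v j x := Finset.sum_congr rfl fun x _ => mul_comm _ _
    rw [h2] at h1
    rcases hcases j with hj | hj | hj | ⟨p, hj, hp1, hp2⟩
    · rw [hv1 j hj] at h1
      rw [hj]
      simp only [Option.elim_some, hc1]
      linarith
    · rw [hv2 j hj] at h1
      rw [hj]
      simp only [Option.elim_some, hc2, neg_mul, Finset.sum_neg_distrib]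
      linarith
    · rw [hv0 j hj] at h1
      rw [hj]
      simp only [Option.elim_none]
      linarith
    · rw [hj]
      simp only [Option.elim_some]
      rw [hc3 _ _ _ p hp1 hp2]
      obtain ⟨e1, e2, e3⟩ := hwo j p hj hp1 hp2
      rw [e1, e3]
      simp only [neg_mul, Finset.sum_neg_distrib]
      push_cast
      linarith
  -- the page p₁
  have case1 : ∀ (σ : ℕ) (a : Fin k → ℤ), (σ ≠ 0 ∨ a ≠ 0) → InBook pg s w p₁ σ a →
      ∃ Y : Option (Fin k) → ℤ, (∀ j, K * T j ≤ ∑ x, Y x * v j x) ∧
        Y none * σ + ∑ i, Y (some i) * a i < K * (q * σ) := by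
    intro σ a hne hin
    obtain ⟨Y, h1, h2⟩ := solve (fun x => x.elim (σ : ℤ) a)
      (by
        intro h0
        rcases hne with h1 | h1
        · apply h1
          have := congrFun h0 none
          simpa using this
        · apply h1
          funext i
          exact congrFun h0 (some i))
      (fun u hu => by
        have h3 := dual p₁ σ a hin u hu
        rw [hc1] at h3
        rw [Fintype.sum_option]
        simp only [Option.elim_none, Option.elim_some]
        have h4 : ∑ i, a i * u (some i) = ∑ i, u (some i) * a i :=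
          Finset.sum_congr rfl fun i _ => mul_comm _ _
        rw [h4]; exact h3)
      (by
        obtain ⟨r, b, c, hr, hsol, ht⟩ := hreal p₁ σ a hne hin
        refine ⟨r, fun x => x.elim (b p₁) (fun i => -c i),
          unbuild r b c (b p₁) hsol (le_refl _) (hlow r b c hsol), ?_⟩
        rw [Fintype.sum_option]
        unfold tval at ht
        simp only [Option.elim_none, Option.elim_some, neg_mul, Finset.sum_neg_distrib]
        linarith)
    refine ⟨Y, h1, ?_⟩
    rw [Fintype.sum_option] at h2
    exact h2
  intro p₀ σ a hne hin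
  by_cases hp1 : p₀ = p₁
  · subst hp1
    obtain ⟨Y, h1, h2⟩ := case1 σ a hne hin
    refine ⟨_, _, build Y h1, ?_⟩
    unfold tval
    rw [hc1]
    simp only [neg_mul, Finset.sum_neg_distrib]
    linarith
  by_cases hp2 : p₀ = p₂
  · subst hp2
    obtain ⟨Y, h1, h2⟩ := solve (fun x => x.elim (-(σ : ℤ)) (fun i => a i + σ * W i))
      (by
        intro h0
        have h00 : (σ : ℤ) = 0 := by
          have := congrFun h0 none
          simp only [Option.elim_none, Pi.zero_apply] at this
          omega
        rcases hne with h1 | h1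
        · apply h1
          exact_mod_cast h00
        · apply h1
          funext i
          have := congrFun h0 (some i)
          simp only [Option.elim_some, Pi.zero_apply, h00, zero_mul, add_zero] at this
          exact this)
      (fun u hu => by
        have h3 := dual p₀ σ a hin u hu
        rw [hc2] at h3
        rw [Fintype.sum_option]
        simp only [Option.elim_none, Option.elim_some]
        have h4 : ∑ i, (a i + σ * W i) * u (some i) = ∑ i, u (some i) * a i +
            σ * ∑ i, u (some i) * W i := by
          rw [Finset.mul_sum, ← Finset.sum_add_distrib]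
          exact Finset.sum_congr rfl fun i _ => by ring
        rw [h4]
        simp only [neg_mul, Finset.sum_neg_distrib] at h3
        linarith)
      (by
        obtain ⟨r, b, c, hr, hsol, ht⟩ := hreal p₀ σ a hne hin
        refine ⟨r, fun x => x.elim (2 * q * r - b p₀ - ∑ i, c i * W i) (fun i => -c i),
          unbuild r b c _ hsol (hlow r b c hsol) (le_refl _), ?_⟩
        rw [Fintype.sum_option]
        unfold tval at ht
        simp only [Option.elim_none, Option.elim_some]
        have h4 : ∑ i, (-c i) * (a i + σ * W i) = -(∑ i, c i * a i) -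
            σ * ∑ i, c i * W i := by
          rw [Finset.mul_sum, ← Finset.sum_neg_distrib, ← Finset.sum_sub_distrib]
          exact Finset.sum_congr rfl fun i _ => by ring
        rw [h4]
        linarith)
    refine ⟨_, _, build Y h1, ?_⟩
    rw [Fintype.sum_option] at h2
    unfold tval
    rw [hc2]
    simp only [Option.elim_none, Option.elim_some] at h2
    have h4 : ∑ i, Y (some i) * (a i + σ * W i) = ∑ i, Y (some i) * a i +
        σ * ∑ i, Y (some i) * W i := by
      rw [Finset.mul_sum, ← Finset.sum_add_distrib]
      exact Finset.sum_congr rfl fun i _ => by ring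
    rw [h4] at h2
    simp only [neg_mul, Finset.sum_neg_distrib]
    linarith
  -- the other pages
  have hrays := hwo (g p₀) p₀ (hg p₀) hp1 hp2
  by_cases ha : (fun i => a i - σ * w (g p₀) i) = 0
  · have ha' : ∀ i, a i = σ * w (g p₀) i := fun i => by
      have := congrFun ha i
      simp only [Pi.zero_apply] at this
      linarith
    have hσ : σ ≠ 0 := by
      rintro rfl
      rcases hne with h1 | h1
      · exact h1 rfl
      · apply h1
        funext i
        rw [ha' i]
        simp
    obtain ⟨Y, h1, h2⟩ := case1 (s (g p₁)) (w (g p₁))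
      (Or.inl (B.pos _ _ (hg p₁)).ne') (by
        intro e c he hc
        have := hc (g p₁)
        rw [hg p₁] at this
        simpa using this)
    refine ⟨_, _, build Y h1, ?_⟩
    unfold tval
    rw [hc3 _ _ _ p₀ hp1 hp2]
    have h3 : ∑ i, (-Y (some i)) * a i = σ * ∑ i, (-Y (some i)) * w (g p₀) i := by
      rw [Finset.mul_sum]
      exact Finset.sum_congr rfl fun i _ => by rw [ha' i]; ring
    rw [h3]
    have h4 : (0 : ℤ) < σ := by exact_mod_cast Nat.pos_of_ne_zero hσ
    have h5 : (0 : ℤ) < q := by exact_mod_cast B.q0
    have h6 : (0 : ℤ) < K := by exact_mod_cast hK0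
    have h7 : (0 : ℤ) < σ * (q * K) := by positivity
    linarith
  · have hin' : InBook pg s w p₀ 0 (fun i => a i - σ * w (g p₀) i) := by
      intro e c he hc
      have h1 := hc (g p₀)
      rw [hg p₀] at h1
      simp only [Option.elim_some] at h1
      rw [hrays.1] at h1
      push_cast at h1
      have h2 := hin (Function.update e p₀ (-∑ i, c i * w (g p₀) i)) c
        (by
          refine (Finset.sum_le_sum fun p _ => ?_).trans he
          by_cases hp : p = p₀
          · subst hp
            rw [Function.update_self]
            linarith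
          · rw [Function.update_of_ne hp])
        (fun j => by
          rcases hj : pg j with _ | p
          · have := hc j
            rw [hj] at this
            exact this
          · by_cases hp : p = p₀
            · subst hp
              obtain ⟨e1, e2, e3⟩ := hwo j p hj hp1 hp2
              simp only [Option.elim_some, Function.update_self]
              rw [e1, e3]
              push_cast
              linarith
            · have := hc j
              rw [hj] at this
              simp only [Option.elim_some] at this ⊢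
              rw [Function.update_of_ne hp]
              exact this)
      rw [Function.update_self] at h2
      have h3 : ∑ i, c i * (a i - σ * w (g p₀) i) = ∑ i, c i * a i -
          σ * ∑ i, c i * w (g p₀) i := by
        rw [Finset.mul_sum, ← Finset.sum_sub_distrib]
        exact Finset.sum_congr rfl fun i _ => by ring
      simp only [Nat.cast_zero, zero_mul, zero_add]
      rw [h3]
      linarith
    obtain ⟨Y, h1, h2⟩ := solve (fun x => x.elim 0 (fun i => a i - σ * w (g p₀) i))
      (by
        intro h0
        apply ha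
        funext i
        exact congrFun h0 (some i))
      (fun u hu => by
        have h3 := dual p₀ 0 _ hin' u hu
        rw [Fintype.sum_option]
        simp only [Option.elim_none, Option.elim_some, zero_mul, zero_add, Nat.cast_zero] at h3 ⊢
        have h4 : ∑ i, (a i - σ * w (g p₀) i) * u (some i) =
            ∑ i, u (some i) * (a i - σ * w (g p₀) i) :=
          Finset.sum_congr rfl fun i _ => mul_comm _ _
        rw [h4]; exact h3)
      (by
        obtain ⟨r, b, c, hr, hsol, ht⟩ := hreal p₀ 0 _ (Or.inr ha) hin'
        refine ⟨r, fun x => x.elim (b p₁) (fun i => -c i),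
          unbuild r b c (b p₁) hsol (le_refl _) (hlow r b c hsol), ?_⟩
        rw [Fintype.sum_option]
        unfold tval at ht
        simp only [Option.elim_none, Option.elim_some, neg_mul, Finset.sum_neg_distrib,
          Nat.cast_zero, zero_mul, zero_add, mul_zero] at ht ⊢
        linarith)
    refine ⟨_, _, build Y h1, ?_⟩
    rw [Fintype.sum_option] at h2
    simp only [Option.elim_none, Option.elim_some, mul_zero, zero_add] at h2
    unfold tval
    rw [hc3 _ _ _ p₀ hp1 hp2]
    have h3 : ∑ i, Y (some i) * (a i - σ * w (g p₀) i) = ∑ i, Y (some i) * a i -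
        σ * ∑ i, Y (some i) * w (g p₀) i := by
      rw [Finset.mul_sum, ← Finset.sum_sub_distrib]
      exact Finset.sum_congr rfl fun i _ => by ring
    rw [h3] at h2
    simp only [neg_mul, Finset.sum_neg_distrib]
    have h7 : (0 : ℤ) ≤ σ * (q * K) := by positivity
    linarith

end Vale.Agent.P283.T647
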