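import Vale.Agent.P283.T647.Main
import Vale.Agent.P283.T647.R1b
import Vale.Agent.P283.T647.R2
import Vale.Agent.P283.T647.R3
import Vale.Agent.P283.T647.R4
import Vale.Agent.P283.T647.R5
import Vale.Agent.P283.T647.R6
import Vale.Agent.P283.T647.R7
import Vale.Agent.P283.T647.R8
import Vale.Agent.P283.T647.R9
import Vale.Agent.P283.T647.R10
import Vale.Agent.P283.T647.R11
import Vale.Agent.P283.T647.R12
import Vale.Agent.P283.T647.G1
import Vale.Agent.P283.T647.G2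
import Vale.Agent.P283.T647.G3
import Vale.Agent.P283.T647.G4
import Vale.Agent.P283.T647.G5
import Vale.Agent.P283.T647.G6
import Vale.Agent.P283.T647.G7

/-!
Bounded klt complements for pairs of complexity one: the proof.
-/

set_option linter.all false

namespace Vale.Agent.P283.T647

theorem pointDoi : PointDoi := r3 r2

theorem bookAll : BookAll :=
  r10 r4 (r7 pointDoi (r6 r5)) (r8 pointDoi) (r9 pointDoi)

theorem chartBound : ChartBound := g3 g1 g2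

theorem lcPoint : LcPoint := g7 (g4 g1 g2)

theorem final (k J q : ℕ) (hq : 0 < q) (ε : ℝ) (hε : 0 < ε) :
    ∃ c₀ : ℕ, 0 < c₀ ∧ ∀ n : ℕ, 0 < n → c₀ ∣ n →
    ∀ (K L : Type) [Field K] [Field L] [Algebra ℂ K] [Algebra ℂ L] [Algebra K L]
      [IsScalarTower ℂ K L] (R M N : ℕ) (t : L) (a : Fin (R + 1) → ℂ) (z : Fin k → L)
      (v : Fin N → Fin (R + 1) ⊕ Fin k → ℤ)
      (G : Subgroup (L ≃ₐ[ℂ] L)) (A : Subalgebra ℂ K), IsTCover J t a z v G A →
    ∀ D : Fin (k + 1) → Derivation ℂ K K, (∃ z, Q.jac D z ≠ 0) →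
    ∀ (𝒞 : Set (Subalgebra ℂ K)) (B : ∀ C : Subalgebra ℂ K, Q.QDivisor C) (r : ℕ)
      (ψ : Subalgebra ℂ K → K), H207.IsPair D A 𝒞 B r ψ →
    ∀ (E : Fin (M + 1) → Fin (R + 1) ⊕ Fin k → ℤ), IsGeneratedT t a z E D 𝒞 r ψ →
      IsSubdivision v E →
      (∀ j, 0 ≤ toricDisc r E (v j) ∧ toricDisc r E (v j) ≤ 1 ∧
        ∃ z : ℤ, (q : ℚ) * toricDisc r E (v j) = z) →
      (∀ C ∈ 𝒞, Q.IsEpsLC D (B C) ε) → H207.HasGlobalKltComplement D 𝒞 B n :=
  core g1 (r12 bookAll (r11 r1b)) (g5 chartBound) g6 lcPoint k J q hq ε hε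

end Vale.Agent.P283.T647
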