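import Vale.Agent.P283.H207.Defs

/-!
Pairs `(X', B')` of complexity one: proper morphisms `X' → Z = Spec A`, where a torus of dimension
`k = d - 1` acts on a Galois cover of bounded degree of `X'`, with a rational quotient.
-/

namespace Vale.Agent.P283.T647

open Vale.Agent.P283.Q

variable {R k N M : ℕ}

/-- The functions `t - a_0, …, t - a_R, z_1, …, z_k`. -/
noncomputable def coord {L : Type} [Field L] [Algebra ℂ L] (t : L) (a : Fin (R + 1) → ℂ)
    (z : Fin k → L) : Fin (R + 1) ⊕ Fin k → L :=
  Sum.elim (fun i => t - algebraMap ℂ L (a i)) z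

/-- The weights `α` of the valuations of `L = ℂ(t, z_1, …, z_k)` on the functions `coord`. The
weight lies on the page of the point `a_i` if all `t - a_j`, `j ≠ i`, have the weight `0` and
`t - a_i` has a weight `≥ 0`; it lies on the page of the point `∞` if all `t - a_j` have the same
weight `≤ 0`. -/
def OnPage (α : Fin (R + 1) ⊕ Fin k → ℤ) : Prop :=
  (∃ i, 0 ≤ α (Sum.inl i) ∧ ∀ j, j ≠ i → α (Sum.inl j) = 0) ∨
    ∃ s : ℤ, s ≤ 0 ∧ ∀ j, α (Sum.inl j) = s

/-- `α` lies in the cone spanned by the vectors `v j`. -/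
def InCone {ι : Type} (v : Fin N → ι → ℤ) (α : ι → ℤ) : Prop :=
  ∃ c : Fin N → ℚ, (∀ j, 0 ≤ c j) ∧ ∀ x, (α x : ℚ) = ∑ j, c j * v j x

/-- The order of the fractional ideal generated by the monomials `∏ x, coord x ^ (E i x)`, in terms
of the orders `α x` of the functions `coord x`. -/
noncomputable def ordMono {ι : Type} [Fintype ι] (E : Fin (M + 1) → ι → ℤ) (α : ι → ℤ) : ℤ :=
  ⨅ i, ∑ x, E i x * α x

/-- The log discrepancy of the form `dt ∧ dz_1 ∧ ⋯ ∧ dz_k`, that is, one plus its order, along the
divisor with the weight `α`. On the page of a point `a_i` this is the sum of the weights of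
`t - a_i` and of the `z_l`; on the page of `∞`, where all `t - a_j` have the weight `s ≤ 0`, this
is `s` plus the sum of the weights of the `z_l`. -/
def logDisc (α : Fin (R + 1) ⊕ Fin k → ℤ) : ℤ :=
  ∑ x, α x - R * min 0 (α (Sum.inl 0))

/-- The log discrepancy of the pull-back of `(X', B')` along the divisor with the weight `α`. -/
noncomputable def toricDisc (r : ℕ) (E : Fin (M + 1) → Fin (R + 1) ⊕ Fin k → ℤ)
    (α : Fin (R + 1) ⊕ Fin k → ℤ) : ℚ :=
  logDisc α - (ordMono E α : ℚ) / r

/-- `Z = Spec A`, and `L = ℂ(t, z_1, …, z_k)` is a purely transcendental extension of `ℂ` with the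
action of the torus with the coordinates `z_l`; `K = L^G` for a group `G` of at most `J`
automorphisms of `L`; and `A ⊆ K` has the same integral closure in `L` as the ring generated by all
monomials in the `t - a_i` and `z_l` and their inverses with exponents in the dual of the cone `τ`
spanned by the vectors `v j`; every `v j` lies on the page of a point `a_i` or of `∞`. -/
structure IsTCover (J : ℕ) {K L : Type} [Field K] [Field L] [Algebra ℂ K] [Algebra ℂ L]
    [Algebra K L] (t : L) (a : Fin (R + 1) → ℂ) (z : Fin k → L)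
    (v : Fin N → Fin (R + 1) ⊕ Fin k → ℤ) (G : Subgroup (L ≃ₐ[ℂ] L)) (A : Subalgebra ℂ K) :
    Prop where
  generate : IntermediateField.adjoin ℂ (insert t (Set.range z)) = ⊤
  independent : AlgebraicIndependent ℂ (Fin.cons t z : Fin (k + 1) → L)
  marks : Function.Injective a
  rays : ∀ j, OnPage (v j)
  finite : Finite G
  card : Nat.card G ≤ J
  field : ∀ x : L, x ∈ Set.range (algebraMap K L) ↔ ∀ τ ∈ G, τ x = x
  cover : ∀ b ∈ A, IsIntegral (Algebra.adjoin ℂ {x : L | ∃ u : Fin (R + 1) ⊕ Fin k → ℤ,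
    (∀ j, 0 ≤ ∑ x, v j x * u x) ∧ x = ∏ l, coord t a z l ^ u l}) (algebraMap K L b)
  finiteCover : ∀ u : Fin (R + 1) ⊕ Fin k → ℤ, (∀ j, 0 ≤ ∑ x, v j x * u x) →
    IsIntegral A (∏ l, coord t a z l ^ u l)

/-- `π'^* (r (K_{X'} + B')) = r H + F` on the normalization `π' : Y' → X'` of `X'` in `L`, where the
fractional ideal generated by the monomials with the exponents `E i` in the functions `coord`
becomes the invertible sheaf `𝒪_{Y'}(-F)`. Here `H` is the divisor of `h`, where
`π'^* ω = h • dt ∧ dz_1 ∧ ⋯ ∧ dz_k`; the form `π'^* ω` is given by the extension `D'` of `D` to `L`.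
So `-(K_{X'} + B')` is, up to a multiple, generated by monomials over `Z`. The equality is tested
along every prime divisor `w` over `Y'`, which lies over the prime divisor `u` over `X'` with
ramification index `e`. -/
def IsGeneratedT {K L : Type} [Field K] [Field L] [Algebra ℂ K] [Algebra ℂ L]
    [Algebra K L] (t : L) (a : Fin (R + 1) → ℂ) (z : Fin k → L)
    (E : Fin (M + 1) → Fin (R + 1) ⊕ Fin k → ℤ)
    (D : Fin (k + 1) → Derivation ℂ K K) (𝒞 : Set (Subalgebra ℂ K)) (r : ℕ)
    (ψ : Subalgebra ℂ K → K) : Prop :=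
  ∀ (D' : Fin (k + 1) → Derivation ℂ L L) (h : L),
    (∀ (i : Fin (k + 1)) (x : K), D' i (algebraMap K L x) = algebraMap K L (D i x)) →
    h * jac D' (Fin.cons t z) = 1 →
    ∀ C ∈ 𝒞, ∀ (u : AddValuation K (WithTop ℤ)) (w : AddValuation L (WithTop ℤ)) (e : ℕ)
      (l b : ℤ) (α : Fin (R + 1) ⊕ Fin k → ℤ),
      IsDivisorial (k + 1) u → IsOver C u →
      0 < e → (∃ x, w x = 1) → (∀ x : K, w (algebraMap K L x) = e • u x) →
      u (ψ C) = (l : WithTop ℤ) → w h = (b : WithTop ℤ) →
      (∀ x, w (coord t a z x) = (α x : WithTop ℤ)) →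
        (e : ℤ) * l = r * b + ordMono E α

/-- The part of the cone on the pages has a subdivision with the rays `v j` such that the order of
the ideal generated by the monomials with the exponents `E i` is linear on its cones. -/
def IsSubdivision (v : Fin N → Fin (R + 1) ⊕ Fin k → ℤ)
    (E : Fin (M + 1) → Fin (R + 1) ⊕ Fin k → ℤ) : Prop :=
  ∀ α, OnPage α → InCone v α → ∃ c : Fin N → ℚ, (∀ j, 0 ≤ c j) ∧
    (∀ x, (α x : ℚ) = ∑ j, c j * v j x) ∧ (ordMono E α : ℚ) = ∑ j, c j * ordMono E (v j)

end Vale.Agent.P283.T647
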