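import Vale.Agent.P283.T647.G1

/-!
Row G2: the residue form of a chart.
-/

set_option linter.all false

namespace Vale.Agent.P283.T647

open MvPolynomial

namespace G2

section Chart

variable {L : Type} [Field L] [Algebra ℂ L] {k r : ℕ}

theorem sg_ne (l : Fin (k + 1)) : G1.sg k l ≠ 1 := by
  refine Fin.cases ?_ (fun l => ?_) l
  · rw [G1.sg_zero]
    exact (Fin.zero_ne_one (n := k))
  · rw [G1.sg_succ]
    intro h
    have h1 := congrArg Fin.val h
    rw [Fin.val_succ, Fin.val_succ, Fin.val_one] at h1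
    omega

theorem pd (A B : Fin r → ℂ) : pderiv 1 (chartF k A B) =
    ∏ i, (C (A i) + C (B i) * X 0) := by
  have h1 : pderiv 1 (rename (G1.sg k) (G1.q0 k A B)) = 0 := by
    apply pderiv_eq_zero_of_notMem_vars
    intro h
    classical
    obtain ⟨l, -, hl⟩ := Finset.mem_image.1 (vars_rename (G1.sg k) (G1.q0 k A B) h)
    exact sg_ne l hl
  rw [G1.chartF_eq, map_sub, Derivation.leibniz, h1, pderiv_X_self, smul_zero, zero_add,
    smul_eq_mul, mul_one, pderiv_one, sub_zero, G1.rename_q0]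

theorem succAbove (x : L) (z : Fin k → L) (A B : Fin r → ℂ) :
    chartY x z A B ∘ (1 : Fin (k + 2)).succAbove = Fin.cons x z := by
  funext l
  refine Fin.cases ?_ (fun l => ?_) l
  · rfl
  · have h1 : (1 : Fin (k + 2)).succAbove l.succ = l.succ.succ := by
      have h2 : (1 : Fin (k + 2)) = (0 : Fin (k + 1)).succ := rfl
      rw [h2, Fin.succ_succAbove_succ, Fin.zero_succAbove]
    rw [Function.comp_apply, h1]
    rfl

theorem chart_res {x : L} {z : Fin k → L} (H : IsRat x z) {A B : Fin r → ℂ}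
    (hA : ∀ i, A i ≠ 0) {D' : Fin (k + 1) → Derivation ℂ L L} {h : L}
    (hh : h * Q.jac D' (Fin.cons x z) = 1) :
    H647.ResForm (chartY x z A B) (chartF k A B) D' (-(∏ i, lin x A B i) * h) := by
  have hj : Q.jac D' (Fin.cons x z) ≠ 0 := by
    intro h0
    rw [h0, mul_zero] at hh
    exact zero_ne_one hh
  obtain ⟨h1, R⟩ := (G1.chart_hyp H hA : H647.HypData (chartY x z A B) (chartF k A B)).exists_resForm
    (D' := D') ⟨Fin.cons x z, hj⟩
  have h2 := R.res 1
  rw [succAbove, pd, G1.aeval_prod] at h2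
  have h3 : h1 = -(∏ i, lin x A B i) * h := by
    have h4 : h1 * (h * Q.jac D' (Fin.cons x z)) = h1 := by rw [hh, mul_one]
    have h5 : ((1 : Fin (k + 1 + 1)) : ℕ) = 1 := rfl
    rw [h5, pow_one, neg_one_mul] at h2
    calc h1 = h1 * (h * Q.jac D' (Fin.cons x z)) := h4.symm
      _ = (h1 * Q.jac D' (Fin.cons x z)) * h := by ring
      _ = -(∏ i, lin x A B i) * h := by rw [h2]
  rw [← h3]
  exact R

end Chart

end G2

/-- G2. -/
theorem g2 : ChartRes := fun _ _ _ _ _ _ _ _ _ H hA _ _ hh => G2.chart_res H hA hh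

end Vale.Agent.P283.T647
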